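import Crest.Agent.N49.Sy.Defs
import Crest.Agent.N49.Tn.St
import Crest.Agent.N49.Rn.Defs
import Crest.Agent.N49.Rm.Hk
import Crest.Agent.N49.Rm.Mor

/-!
# Row 49 (helper35): frames = point towers that model the refinements of a symbol tower (FROZEN)
-/

set_option autoImplicit false
set_option linter.unusedSectionVars false

open Finset Matrix MvPolynomial

noncomputable section

namespace Crest.Agent.N49.Md

open Tw Rm Sy Po

variable {τ L : Type}

/-- integer polynomials as real ones -/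
abbrev zr (P : MvPolynomial τ ℤ) : MvPolynomial τ ℝ := MvPolynomial.map (Int.castRingHom ℝ) P

/-- `t a ↦ m a * t a` -/
def scl {R : Type} [CommRing R] (m : τ → R) : MvPolynomial τ R →ₐ[R] MvPolynomial τ R :=
  aeval fun a => C (m a) * X a

/-- `Y1 F = be F + ∑ (fam G = F) mon G * Y2 G` -/
structure Tan (T1 T2 : TS Unit) (τ : Type) where
  fam : T2.C → Option T1.C
  mon : T2.C → MvPolynomial τ ℤ
  sc : T2.C → ℝ
  be : T1.C → MvPolynomial τ ℤ
  bu : T1.C → MvPolynomial τ ℝ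
  top : T1.C → T2.C

namespace Tan

variable {T1 T2 T3 : TS Unit} (θ : Tan T1 T2 τ)

structure Ok (x : ℝ) : Prop where
  le : ∀ F G, θ.fam G = some F →
    T2.lev G ≤ T1.lev F ∧ (θ.mon G).IsHomogeneous (T1.lev F - T2.lev G)
  be : ∀ F, (θ.be F).IsHomogeneous (T1.lev F)
  bu : ∀ F, (θ.bu F).IsHomogeneous (T1.lev F)
  top : ∀ F, θ.fam (θ.top F) = some F ∧ θ.mon (θ.top F) = 1 ∧ x⁻¹ ≤ θ.sc (θ.top F) ∧
    T2.lev (θ.top F) = T1.lev F
  uq : ∀ F G, θ.fam G = some F → T2.lev G = T1.lev F → G = θ.top F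
  bd : ∀ G, |θ.sc G| ≤ x ∧ l1 (zr (θ.mon G)) ≤ x
  eq : ∀ F, (aeval fun F' => (C (zr (θ.be F')) + ∑ G with θ.fam G = some F',
      C (zr (θ.mon G)) * X G : MvPolynomial T2.C (MvPolynomial τ ℝ))) (T1.Φ F) =
    C (θ.bu F) + ∑ G with θ.fam G = some F,
      C (θ.sc G • zr (θ.mon G)) * MvPolynomial.map C (T2.Φ G)

/-- the map of configurations (`e` = homogenising coordinates, `m` = multipliers) -/
def Y (e m : τ → ℝ) (Y : T2.C → MvPolynomial τ ℝ) (F : T1.C) : MvPolynomial τ ℝ :=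
  scl e (zr (θ.be F)) + ∑ G with θ.fam G = some F, scl e (zr (θ.mon G)) * scl m (Y G)

/-- the identity -/
def id' (T : TS Unit) (τ : Type) : Tan T T τ := ⟨some, 1, 1, 0, 0, id⟩

/-- composition; `m` are the multipliers of `θ` -/
def comp (θ' : Tan T2 T3 τ) (m : τ → ℤ) : Tan T1 T3 τ where
  fam G := (θ'.fam G).bind θ.fam
  mon G := (θ'.fam G).elim 0 θ.mon * scl m (θ'.mon G)
  sc G := (θ'.fam G).elim 0 θ.sc * θ'.sc G
  be F := θ.be F + ∑ G with θ.fam G = some F, θ.mon G * scl m (θ'.be G)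
  bu F := θ.bu F + ∑ G with θ.fam G = some F,
    θ.sc G • zr (θ.mon G) * scl (fun a => (m a : ℝ)) (θ'.bu G)
  top := θ'.top ∘ θ.top

end Tan

/-- the cumulative rank -/
def Rc (T : TS Unit) (s l : ℕ) : ℕ := ∑ j ∈ Icc l s, T.R j
/-- the admissible loss at the level `l` -/
def ls (T : TS Unit) (s l : ℕ) : ℝ := (∏ j ∈ Icc (l + 1) s, T.ct j) * 2 ^ (Rc T s l + 1)
/-- the functional on the new tower -/
def pl {C1 C2 : Type} [Fintype C1] [DecidableEq C2] (top : C1 → C2) (π : C1 → ℤ) (G : C2) : ℤ :=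
  ∑ F with top F = G, π F

/-- triangular growth of the costs -/
structure Co (s X : ℕ) (T1 T2 : TS Unit) (top : T1.C → T2.C) : Prop where
  R : ∀ l, 1 ≤ l → Rc T2 s l ≤ Rc T1 s l + X * (Rc T1 s (l + 1) + 1)
  ct : ∀ l, 1 ≤ l → T2.ct l ≤ T1.ct l * ls T1 s l ^ X
  g : ∀ π : T1.C → ℤ, (∀ F, π F ≠ 0 → T1.lev F = 1) → T2.g1 (pl top π) ≤ T1.g1 π * ls T1 s 1 ^ X

/-- a staged point tower with inverse widths of the blocks -/
structure Bs (L : Type) where
  T : TS Unit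
  st : T.C → ℕ
  M : ℕ
  la : L → ℝ

/-- frames over `T0` -/
structure Fr (T0 : TS Unit) (τ L : Type) extends Bs L where
  m : L → ℕ
  θ : Tan T0 T τ

structure Bs.Ok (B : Bs L) (s h : ℕ) : Prop where
  old : Old B.T B.st B.M s
  la : ∀ ℓ, 1 / 2 ^ h ≤ B.la ℓ ∧ B.la ℓ ≤ 2 ^ h

abbrev Bs.Rg (B : Bs L) (C n : ℕ) (a η : ℝ) : Prop := B.T.RgS B.st B.M C n a η

structure Fr.Ok {T0 : TS Unit} (f : Fr T0 τ L) (s h : ℕ) : Prop extends f.toBs.Ok s h where
  θ : f.θ.Ok (2 ^ h)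
  m : ∀ ℓ, 1 ≤ f.m ℓ ∧ f.m ℓ ≤ 2 ^ h
  co : Co s h T0 f.T f.θ.top

/-- the identity frame -/
def Bs.fr (B : Bs L) (τ : Type) : Fr B.T τ L := { B with m := 1, θ := Tan.id' B.T τ }

/-- composition of frames -/
def Fr.comp {T0 : TS Unit} (f : Fr T0 τ L) (f' : Fr f.T τ L) (blk : τ → L) : Fr T0 τ L :=
  { f'.toBs with m := f.m * f'.m, θ := f.θ.comp f'.θ fun a => f.m (blk a) }

variable [Fintype τ] [DecidableEq τ] [Fintype L] [DecidableEq L]

/-- admissible families of words -/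
structure Wf (s : ℕ) (W : Finset (Finset τ)) (blk : τ → L) : Prop where
  dw : Dw W
  inj : ∀ B ∈ W, Set.InjOn blk B
  le : ∀ B ∈ W, #B ≤ s

section sy
variable (B : Bs L) (W : Finset (Finset τ)) (blk : τ → L)

/-- the symbol coordinates -/
abbrev Bs.SC : Type := Sy.SC B.T (fun c => B.st c < B.M + 1) W
/-- **the symbol tower with product widths** -/
def Bs.SY : TT L (B.SC W) :=
  symT B.T (fun c => B.st c < B.M + 1) W (fun A => ∏ a ∈ A, B.la (blk a)) blk

/-- **the morphism of a frame** -/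
def ka (f : Fr B.T τ L) (p : f.SC W ⊕ L → ℝ) : B.SC W ⊕ L → ℝ :=
  Sum.elim (fun w => coeff (ind w.1.2) (f.θ.Y (fun a => p (.inr (blk a))) (fun a => f.m (blk a))
    (Yp f.T.lev (sx f.T _ W fun w' => p (.inl w'))) w.1.1)) fun ℓ => p (.inr ℓ)
end sy

section emb
variable {C1 V : Type} [Fintype C1] [DecidableEq C1] [Fintype V] [DecidableEq V] (T1 : TT L C1)
  (e : Gd.Lv T1 → V) (d : C1 → ℤ)

/-- restriction to the live words of `T1`, the dead ones are `d` -/
def rr (p : V ⊕ L → ℝ) : C1 ⊕ L → ℝ := Sum.elim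
  (fun c => if h : (T1.ty c).Nonempty then p (.inl (e ⟨c, h⟩)) else d c) fun ℓ => p (.inr ℓ)
/-- the same for configurations -/
def rz (y : V → ℤ) : C1 → ℤ := fun c => if h : (T1.ty c).Nonempty then y (e ⟨c, h⟩) else d c

/-- the live part of `T1` is a subsystem of `T2` -/
structure Em (T2 : TT L V) : Prop where
  ok : T1.Ok
  inj : Function.Injective e
  ty : ∀ c, T2.ty (e c) = T1.ty c.1
  Φ : ∀ d p (c : Gd.Lv T1), T1.Φ (rr T1 e d p) c.1 = T2.Φ p (e c)
end emb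

/-- the refinement `(T1, ι)` of `B.SY` is modelled by the frame `f` -/
structure Emb (B : Bs L) (W : Finset (Finset τ)) (blk : τ → L) {C1 : Type} [Fintype C1]
    [DecidableEq C1] (T1 : TT L C1) (ι : (C1 ⊕ L → ℝ) → B.SC W ⊕ L → ℝ) (f : Fr B.T τ L)
    (e : Gd.Lv T1 → f.SC W) : Prop extends Em T1 e (f.SY W blk) where
  ι : ∀ d p, ι (rr T1 e d p) = ka B W blk f p

section tan
variable (blk : τ → L) (lam : L → ℝ)

/-- the inverse width of a monomial -/
def kw (μ : τ →₀ ℕ) : ℝ := ∏ a ∈ μ.support, lam (blk a)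
/-- monomial rings with product widths (`mr (W.image ind) = shp W _` by `rfl`) -/
def mr (U : Finset (τ →₀ ℕ)) : Sh Unit τ :=
  Sh.mono (fun _ => ()) U 0 (dk fun μ => (kw blk lam μ ^ 2)⁻¹)
/-- the words in the blocks `J` -/
def inJ (J : Finset L) (μ : τ →₀ ℕ) : Prop := ∀ a ∈ μ.support, blk a ∈ J
instance (J : Finset L) : DecidablePred (inJ blk J) := fun _ => by unfold inJ; infer_instance
/-- the background ring: free on the letters of the blocks `J` -/
def bg (s : ℕ) (J : Finset L) : Sh Unit τ := (mr blk lam (full τ s)).sub fun w => inJ blk J w.1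
/-- the monomial of a background word -/
def ow {s : ℕ} {J : Finset L} (o : Option (bg blk lam s J).W) : τ →₀ ℕ := o.elim 0 fun w => w.1.1
/-- the kernel of the tangent words -/
def vv (s : ℕ) (J : Finset L) : Matrix (Option (bg blk lam s J).W) (Option (bg blk lam s J).W) ℝ :=
  diagonal fun o => (kw blk lam (ow blk lam o) ^ 2)⁻¹

variable (T : TS Unit) (s : ℕ) (J : Finset L) (b : T.Cw (bg blk lam s J) → ℤ)

/-- the tangent tower -/
abbrev t0 : TS Unit := T.tan (bg blk lam s J) (T.tw0 _) (vv blk lam s J) b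
/-- its normalisation -/
def tT : TS Unit := (t0 blk lam T s J b).un
  (diagonal fun x : T.Tc (bg blk lam s J) => kw blk lam (ow blk lam x.1.2))

/-- its substitution -/
def tθ (h : ∀ c, 0 < T.lev c) : Tan T (tT blk lam T s J b) τ where
  fam := fun x : T.Tc (bg blk lam s J) => some x.1.1
  mon := fun x : T.Tc (bg blk lam s J) => monomial (ow blk lam x.1.2) 1
  sc := fun x : T.Tc (bg blk lam s J) => (kw blk lam (ow blk lam x.1.2))⁻¹
  be F := ∑ p : T.Cw (bg blk lam s J) with p.1.1 = F, monomial p.1.2.1.1 (b p)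
  bu F := ∑ p : T.Cw (bg blk lam s J) with p.1.1 = F,
    monomial p.1.2.1.1 ((T.tw _ (T.tw0 _)).u (zc b) p)
  top F := (⟨(F, none), h F⟩ : T.Tc (bg blk lam s J))

/-- constant twists -/
def tc {τ' : Type} (S : Sh Unit τ') (P : T.C → MvPolynomial S.W ℝ) : T.Twd S :=
  fun F => T.tw0 S F - C (P F)

/-- the value of a configuration of a monomial ring at a family and a monomial -/
def wv {R : Type} [AddCommMonoid R] {U : Finset (τ →₀ ℕ)} (y : T.Cw (mr blk lam U) → R) (F : T.C)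
    (μ : τ →₀ ℕ) : R :=
  ∑ p : T.Cw (mr blk lam U) with p.1.1 = F ∧ p.1.2.1 = μ, y p
end tan

/-- **the tangent frame**: background widths `lam` on `J`, new widths `la'`, multipliers `m` -/
def tf (B : Bs L) (blk : τ → L) (lam : L → ℝ) (s : ℕ) (J : Finset L)
    (b : B.T.Cw (bg blk lam s J) → ℤ) (h : ∀ c, 0 < B.T.lev c) (la' : L → ℝ) (m : L → ℕ) :
    Fr B.T τ L where
  T := tT blk lam B.T s J b
  st := B.T.ts (bg blk lam s J) B.st B.M
  M := tM B.M
  la := la'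
  m := m
  θ := tθ blk lam B.T s J b h

/-- iterated tangent frames with unit multipliers -/
inductive Tg (B : Bs L) (blk : τ → L) (s : ℕ) : Fr B.T τ L → Prop
  | id : Tg B blk s (B.fr τ)
  | tan {f : Fr B.T τ L} (lam la' : L → ℝ) (J : Finset L) (b : f.T.Cw (bg blk lam s J) → ℤ)
      (hp : ∀ c, 0 < f.T.lev c) : Tg B blk s f → Old f.T f.st f.M s → (∀ ℓ, 0 < lam ℓ) →
      Tg B blk s (f.comp (tf f.toBs blk lam s J b hp la' 1) blk)

/-- **the hook**: up to the depth `K0` there is a regular frame -/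
def Xf (B : Bs L) (W : Finset (Finset τ)) (blk : τ → L) (s K0 h M C n : ℕ) : Hk L (B.SC W) :=
  fun _ _ _ T1 ι k => k ≤ K0 → ∃ (f : Fr B.T τ L) (e : _), f.Ok s h ∧ f.M ≤ M ∧ f.m = 1 ∧
    Tg B blk s f ∧ f.Rg C n (1 / 2 ^ n) (1 / 2 ^ n) ∧ Emb B W blk T1 ι f e

/-- the background `b` extends the configuration `z` -/
def Ext (B : Bs L) (W : Finset (Finset τ)) (blk : τ → L) (s : ℕ) (J : Finset L) {C1 : Type}
    {T1 : TT L C1} (e : Gd.Lv T1 → B.SC W) (z : C1 → ℤ) (b : B.T.Cw (bg blk B.la s J) → ℤ) :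
    Prop := ∀ (c : Gd.Lv T1) (p : B.T.Cw (bg blk B.la s J)), p.1.1 = (e c).1.1 →
  p.1.2.1.1 = ind (e c).1.2 → b p = z c.1

end Crest.Agent.N49.Md

end
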