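import Crest.Agent.N49.Md.St
import Crest.Agent.N49.Tn.Stg
import Crest.Agent.N49.Co.Ins
import Crest.Agent.N49.Tw.ConM
import Crest.Agent.N49.En.CntA

/-!
# Row 49 (helper90): the costs of frames
-/

set_option autoImplicit false

open Finset Matrix

noncomputable section

namespace Crest.Agent.N49.Md

open Tw Po

section pl
variable {C1 C2 C3 : Type} [Fintype C1] [DecidableEq C2] {t : C1 → C2} {π : C1 → ℤ}

theorem pl_ne {G : C2} (h : pl t π G ≠ 0) : ∃ F, t F = G ∧ π F ≠ 0 :=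
  let ⟨F, a, b⟩ := exists_ne_zero_of_sum_ne_zero h; ⟨F, (mem_filter.1 a).2, b⟩

theorem pl_top (h : Function.Injective t) (F : C1) : pl t π (t F) = π F :=
  sum_eq_single_of_mem F (mem_filter.2 ⟨mem_univ _, rfl⟩) fun _ a n =>
    absurd (h (mem_filter.1 a).2) n

theorem pl_eq (h : Function.Injective t) {π' : C2 → ℤ} (a : ∀ F, π' (t F) = π F)
    (b : ∀ G, π' G ≠ 0 → G ∈ Set.range t) : pl t π = π' := funext fun G => by
  by_cases k : G ∈ Set.range t
  · obtain ⟨F, rfl⟩ := k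
    rw [pl_top h, a]
  · exact (by_contra fun z => let ⟨F, e, _⟩ := pl_ne z; k ⟨F, e⟩ : pl t π G = 0).trans
      (by_contra fun z => k (b G (Ne.symm z)))

theorem pl_comp [Fintype C2] [DecidableEq C3] (t' : C2 → C3) : pl (t' ∘ t) π = pl t' (pl t π) :=
  funext fun G => by
    refine (sum_fiberwise_of_maps_to (g := t) (t := {x | t' x = G}) (fun F a =>
      mem_filter.2 ⟨mem_univ _, (mem_filter.1 a).2⟩) _).symm.trans ?_
    refine sum_congr rfl fun x a => sum_congr ?_ fun _ _ => rfl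
    ext F
    simp only [mem_filter, mem_univ, true_and, and_iff_right_iff_imp]
    exact fun e => e ▸ (mem_filter.1 a).2

theorem pl_id [DecidableEq C1] : pl id π = π := funext fun F => pl_top Function.injective_id F
end pl

variable {s X X' : ℕ} {T1 T2 T3 : TS Unit} {t : T1.C → T2.C} {t' : T2.C → T3.C}

theorem two_le_ls (h : T1.Tri) (l : ℕ) : 2 ^ (Rc T1 s l + 1) ≤ ls T1 s l := N49.Co.two_le_fc h l

theorem one_le_ls (h : T1.Tri) (l : ℕ) : 1 ≤ ls T1 s l := N49.Co.one_le_fc h l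

theorem Rc_anti {l l' : ℕ} (e : l ≤ l') : Rc T1 s l' ≤ Rc T1 s l :=
  sum_le_sum_of_subset (Icc_subset_Icc_left e)

theorem ls_anti (h : T1.Tri) {l l' : ℕ} (e : l ≤ l') : ls T1 s l' ≤ ls T1 s l := by
  have a := N49.Co.one_le_prod h
  refine mul_le_mul ?_ (Rf.two_le (Nat.add_le_add_right (Rc_anti e) 1)) (by positivity)
    (zero_le_one.trans (a _))
  rw [← prod_sdiff (Icc_subset_Icc_left (Nat.add_le_add_right e 1))]
  exact le_mul_of_one_le_left (zero_le_one.trans (a _)) (a _)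

theorem Co.of (h : T1.Tri)
    (H : ∀ π, (∀ F, π F ≠ 0 → T1.lev F = 1) → N49.Co.Rw s X T1 π T2 (pl t π)) : Co s X T1 T2 t := by
  have a := H 0 fun F z => absurd rfl z
  refine ⟨fun l hl => ?_, fun l hl => ?_, fun π k => (H π k).g⟩ <;> by_cases e : l ≤ s
  · exact a.R l (mem_Icc.2 ⟨hl, e⟩)
  · rw [Rc, Icc_eq_empty e]; exact Nat.zero_le _
  · exact a.ct l (mem_Icc.2 ⟨hl, e⟩)
  · rw [Tco.ct_emp T2 fun c z => e (z.ge.trans (a.ok.2.1 c))]
    exact one_le_mul_of_one_le_of_one_le (TS.one_le_ct h l) (one_le_pow₀ (one_le_ls h l))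

theorem Co.of' (h : T1.Tri) (i : Function.Injective t)
    (H : ∀ π, (∀ F, π F ≠ 0 → T1.lev F = 1) → ∃ π', (∀ F, π' (t F) = π F) ∧
      (∀ G, π' G ≠ 0 → G ∈ Set.range t) ∧ N49.Co.Rw s X T1 π T2 π') : Co s X T1 T2 t :=
  Co.of h fun π k => let ⟨_, a, b, c⟩ := H π k; pl_eq i a b ▸ c

/-- **from `Co` to the costs of containers** (then `N49.Co.Up.tri`) -/
theorem Co.up (h : Co s X T1 T2 t) (h2 : T2.Tri) (hs : ∀ G, T2.lev G ≤ s)
    (lv : ∀ F, T2.lev (t F) = T1.lev F) (π : T1.C → ℤ) : N49.Co.Up s X T1 π T2 (pl t π) :=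
  N49.Co.Up.of fun ok => ⟨⟨h2, hs, fun _ z => let ⟨F, a, b⟩ := pl_ne z
    a ▸ (lv F).trans (ok.2.2 F b)⟩, fun l k => h.R l (mem_Icc.1 k).1,
    fun l k => h.ct l (mem_Icc.1 k).1, h.g π ok.2.2⟩

theorem Co.mono (h : Co s X T1 T2 t) (h1 : T1.Tri) (e : X ≤ X') : Co s X' T1 T2 t :=
  ⟨fun l k => (h.R l k).trans (Nat.add_le_add_left (Nat.mul_le_mul_right _ e) _),
    fun l k => (h.ct l k).trans (mul_le_mul_of_nonneg_left
      (pow_le_pow_right₀ (one_le_ls h1 l) e) (th_nonneg _ _)),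
    fun π k => (h.g π k).trans (mul_le_mul_of_nonneg_left
      (pow_le_pow_right₀ (one_le_ls h1 1) e) (Sp.gk_nonneg _ _))⟩

theorem Co.refl (h : T1.Tri) (s X : ℕ) : Co s X T1 T1 id :=
  Co.mono (X := 0) ⟨fun _ _ => Nat.le_add_right _ _, fun _ _ => by rw [pow_zero, mul_one],
    fun _ _ => by rw [pow_zero, mul_one, pl_id]⟩ h (Nat.zero_le _)

theorem Co.ls_le (h : Co s X T1 T2 t) (h1 : T1.Tri) {l : ℕ} (hl : 1 ≤ l) :
    ls T2 s l ≤ ls T1 s l ^ (1 + (s + 1) * X) := by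
  have o := one_le_ls (s := s) h1 l
  have a : ∏ j ∈ Icc (l + 1) s, T2.ct j ≤ (∏ j ∈ Icc (l + 1) s, T1.ct j) * ls T1 s l ^ (s * X) := by
    refine (prod_le_prod (g := fun j => T1.ct j * ls T1 s l ^ X) (fun _ _ => th_nonneg _ _)
      fun j k => (h.ct j (by have := mem_Icc.1 k; omega)).trans (mul_le_mul_of_nonneg_left
        (pow_le_pow_left₀ (zero_le_one.trans (one_le_ls h1 j)) (ls_anti h1 (by
          have := mem_Icc.1 k; omega)) X) (th_nonneg _ _))).trans ?_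
    rw [prod_mul_distrib, prod_const, ← pow_mul, mul_comm X]
    exact mul_le_mul_of_nonneg_left (pow_le_pow_right₀ o (Nat.mul_le_mul_right _ (by simp)))
      (prod_nonneg fun _ _ => th_nonneg _ _)
  have b : (2 : ℝ) ^ (Rc T2 s l + 1) ≤ 2 ^ (Rc T1 s l + 1) * ls T1 s l ^ X := by
    refine le_trans ?_ (mul_le_mul_of_nonneg_left (pow_le_pow_left₀ (by positivity)
      (two_le_ls h1 l) X) (by positivity))
    rw [← pow_mul, ← pow_add]
    have := h.R l hl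
    have := Nat.mul_le_mul_left X (Nat.add_le_add_right (Rc_anti (T1 := T1) (s := s) (l.le_add_right 1)) 1)
    exact Rf.two_le (by rw [mul_comm _ X]; omega)
  refine (mul_le_mul a b (by positivity) ((prod_nonneg fun _ _ => th_nonneg _ _).trans a)).trans_eq ?_
  rw [mul_mul_mul_comm, ← pow_add, pow_add _ 1, pow_one, add_mul, one_mul]
  rfl

theorem Co.trans (h : Co s X T1 T2 t) (h' : Co s X' T2 T3 t') (h1 : T1.Tri) (h2 : T2.Tri)
    (lv : ∀ F, T2.lev (t F) = T1.lev F) : Co s (X + X' * (1 + (s + 1) * X)) T1 T3 (t' ∘ t) := by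
  have k : ∀ {l} {x y z : ℝ}, 1 ≤ l → 0 ≤ z → y ≤ z * ls T1 s l ^ X → x ≤ y * ls T2 s l ^ X' →
      x ≤ z * ls T1 s l ^ (X + X' * (1 + (s + 1) * X)) := fun {l x y z} hl z0 a b => by
    have o := zero_le_one.trans (one_le_ls (s := s) h1 l)
    have p := zero_le_one.trans (one_le_ls (s := s) h2 l)
    rw [pow_add, ← mul_assoc, pow_mul']
    exact b.trans (mul_le_mul a (pow_le_pow_left₀ p (h.ls_le h1 hl) _) (by positivity)
      (by positivity))
  refine ⟨fun l hl => ?_, fun l hl => k hl (th_nonneg _ _) (h.ct l hl) (h'.ct l hl), fun π p => ?_⟩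
  · have a := h.R l hl
    have b := h'.R l hl
    have c := h.R (l + 1) (by omega)
    have d := Nat.mul_le_mul_left X (Nat.add_le_add_right
      (Rc_anti (T1 := T1) (s := s) ((l + 1).le_add_right 1)) 1)
    have e := Nat.mul_le_mul_left X' (Nat.add_le_add_right (c.trans (Nat.add_le_add_left d _)) 1)
    nlinarith [Nat.zero_le (X' * (s * X) * (Rc T1 s (l + 1) + 1))]
  · rw [pl_comp]
    exact k le_rfl (Sp.gk_nonneg _ _) (h.g π p) (h'.g _ fun _ z =>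
      let ⟨F, a, b⟩ := pl_ne z; a ▸ (lv F).trans (p F b))

/-- same grading and same dual form -/
theorem co_D {Φ : T1.C → MvPolynomial T1.C ℝ} {K : Matrix T1.C T1.C ℝ} (h1 : T1.Tri)
    (hs : ∀ c, T1.lev c ≤ s) (h : ({ C := T1.C, deg := T1.deg, Φ := Φ, K := K } : TS Unit).Tri)
    (e : ({ C := T1.C, deg := T1.deg, Φ := Φ, K := K } : TS Unit).D = T1.D) :
    Co s 0 T1 { C := T1.C, deg := T1.deg, Φ := Φ, K := K } id :=
  Co.of' h1 (fun _ _ e => e) fun π k => ⟨π, fun _ => rfl, fun G _ => ⟨G, rfl⟩, .of_D ⟨h1, hs, k⟩ h e⟩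

theorem co_un {S : Matrix T1.C T1.C ℝ} (h1 : T1.Tri) (hs : ∀ c, T1.lev c ≤ s) (h : (T1.un S).Tri)
    (e : (T1.un S).D = T1.D) : Co s 0 T1 (T1.un S) id :=
  co_D (T1 := T1) (Φ := (T1.un S).Φ) (K := (T1.un S).K) h1 hs h e

theorem co_shr {Y : ℕ} {lam : ℕ → ℝ} (h1 : T1.Tri) (hs : ∀ c, T1.lev c ≤ s)
    (h : ∀ j, 1 / 2 ^ Y ≤ lam j ∧ lam j ≤ 1) : Co s Y T1 (T1.shr lam) id :=
  Co.of' h1 (fun _ _ e => e) fun π k => ⟨π, fun _ => rfl, fun G _ => ⟨G, rfl⟩, .shr ⟨h1, hs, k⟩ h⟩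

/-- new families -/
theorem co_nw {M0 Y b : ℕ} {st0 : T1.C → ℕ} {E : Nw T1} (o : Old T1 st0 M0 s)
    (w : E.Wf s) (hμ : 1 / 2 ^ Y ≤ E.μ) (hN : Fintype.card E.N ≤ b) (hc : ∀ l, E.ct l ≤ 2 ^ b) :
    Co s (b + 2 * Y) T1 E.T Sum.inl := Co.of' o.ok.toTri Sum.inl_injective fun π k =>
  ⟨Sum.elim π 0, fun _ => rfl, by rintro (c | n) z; exacts [⟨c, rfl⟩, absurd rfl z],
    .nw o w hμ hN hc k⟩

/-- tangent towers -/
theorem co_tan (H : TSt) {τ0 : Type} {S0 : Sh Unit τ0} {st : T1.C → ℕ} {n Y Z : ℕ}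
    {Ψ0 : T1.Twd S0} {v : Matrix (Option S0.W) (Option S0.W) ℝ} {a : ℝ} (h : T1.Tri)
    (hs : ∀ c, T1.lev c ≤ s) (hA : T1.Adm S0 st Ψ0) (ok : S0.Ok)
    (hn : Fintype.card (Option S0.W) ≤ n) (hv : S0.Tk v a) (a0 : 0 < a) (ha : √a⁻¹ ≤ 2 ^ Y)
    (v0 : 1 / 2 ^ Z ≤ v none none) (v1 : v none none ≤ 1) (b : T1.Cw S0 → ℤ) :
    Co s (n * (1 + Y) + Z) T1 (T1.tan S0 Ψ0 v b)
      fun F => (⟨(F, none), h.lev_pos F⟩ : T1.Tc S0) :=
  Co.of' h (fun F G z => congrArg (fun x : T1.Tc S0 => x.1.1) z) fun π k =>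
  ⟨fun x : T1.Tc S0 => π x.1.1, fun _ => rfl, by
    rintro ⟨⟨F, _ | w⟩, p⟩ z
    · exact ⟨F, rfl⟩
    · have q : S0.dg w < T1.lev F := p
      rw [k F z, Nat.lt_one_iff] at q
      exact absurd ((Finsupp.degree_eq_zero_iff _).1 q) (ok.ne w),
    .tan' H h hs hA ok hn hv a0 ha v0 v1 b π k⟩

theorem un_diag {σ : Type} {T : TS σ} (h : T.Tri) {d : T.C → ℝ} (hd : ∀ c, d c ≠ 0)
    (k : T.K = diagonal fun c => (d c ^ 2)⁻¹) : (T.un (diagonal d)).Tri ∧ (T.un (diagonal d)).D = T.D := by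
  have b : Rw.Blk T.lev (diagonal d) := fun c c' n => diagonal_apply_ne _ fun e => n (e ▸ rfl)
  have u : (diagonal d).det ≠ 0 := by rw [det_diagonal]; exact prod_ne_zero_iff.2 fun c _ => hd c
  refine ⟨⟨fun (c : T.C) (m : T.C →₀ ℕ) hm => h.tri c m ?_, h.ne, ?_, PosDef.one,
    fun (c c' : T.C) n => congrArg _ (by_contra fun f => n (one_apply_ne f))⟩, ?_⟩
  · have : MvPolynomial.coeff m (∑ c', MvPolynomial.C (diagonal d c c') * T.Φ c') ≠ 0 :=
      MvPolynomial.mem_support_iff.1 hm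
    rw [sum_eq_single c (fun j _ n => by rw [diagonal_apply_ne _ n.symm]; simp) (by simp),
      MvPolynomial.coeff_C_mul] at this
    exact MvPolynomial.mem_support_iff.2 (right_ne_zero_of_mul this)
  · rw [TS.un_A b]
    exact (det_mul (diagonal d) T.A).trans_ne (mul_ne_zero u h.det)
  · have e : (diagonal d)⁻¹ = diagonal fun c => (d c)⁻¹ := inv_eq_left_inv (by
      rw [diagonal_mul_diagonal, ← diagonal_one]; exact congrArg _ (funext fun c =>
        inv_mul_cancel₀ (hd c)))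
    have a : ∀ B : Matrix T.C T.C ℝ, B = diagonal d * T.A → B⁻¹ * 1 * B⁻¹ᵀ = T.D := by
      rintro _ rfl
      rw [TS.D, k, Matrix.mul_inv_rev, transpose_mul, Matrix.mul_one, e, diagonal_transpose,
        Matrix.mul_assoc, ← Matrix.mul_assoc (diagonal _), diagonal_mul_diagonal, Matrix.mul_assoc]
      simp only [sq, mul_inv]
    exact a _ (TS.un_A b)

section tf
variable {τ L : Type} [Fintype τ] [DecidableEq τ] [DecidableEq L] {blk : τ → L} {lam : L → ℝ}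
  {h : ℕ} {J : Finset L}

omit [Fintype τ] [DecidableEq τ] [DecidableEq L] in
theorem kw_pos (hl : ∀ ℓ, 0 < lam ℓ) (μ : τ →₀ ℕ) : 0 < kw blk lam μ := prod_pos fun _ _ => hl _

omit [Fintype τ] [DecidableEq τ] [DecidableEq L] in
theorem kw_lo (hl : ∀ ℓ, 0 < lam ℓ ∧ lam ℓ ≤ 2 ^ h) {μ : τ →₀ ℕ} (k : μ.degree ≤ s) :
    1 / 2 ^ (2 * s * h) ≤ (kw blk lam μ ^ 2)⁻¹ := by
  rw [one_div]
  refine inv_anti₀ (pow_pos (kw_pos (fun ℓ => (hl ℓ).1) μ) 2) ?_
  rw [mul_assoc, pow_mul']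
  refine pow_le_pow_left₀ (kw_pos (fun ℓ => (hl ℓ).1) μ).le ((prod_le_prod (g := fun _ => 2 ^ h)
    (fun _ _ => (hl _).1.le) fun _ _ => (hl _).2).trans ?_) 2
  rw [prod_const, ← pow_mul, mul_comm]
  refine Rf.two_le (Nat.mul_le_mul_right _ (le_trans ?_ k))
  rw [card_eq_sum_ones]
  exact sum_le_sum fun a p => Nat.pos_of_ne_zero (Finsupp.mem_support_iff.1 p)

theorem bg_sz (hl : ∀ ℓ, 0 < lam ℓ ∧ lam ℓ ≤ 2 ^ h) :
    (bg blk lam s J).Sz ((Fintype.card τ + 1) ^ s) (1 / 2 ^ (2 * s * h)) := by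
  have p := hl
  refine Sh.sub_sz (Sh.mono_sz dn_full (kb_dk (b := ∑ μ ∈ full τ s, (kw blk lam μ ^ 2)⁻¹)
    fun μ k => ⟨kw_lo p (mem_full.1 k), single_le_sum (f := fun μ => (kw blk lam μ ^ 2)⁻¹)
      (fun _ _ => by positivity) k⟩) (by positivity) (Sh.dk_blk _) (En.card_full τ s))
    (Sh.mono_idl fun w w' a b x k => a x (Finsupp.support_mono b k))

theorem vv_tk (hl : ∀ ℓ, 0 < lam ℓ ∧ lam ℓ ≤ 2 ^ h) :
    (bg blk lam s J).Tk (vv blk lam s J) (1 / 2 ^ (2 * s * h)) := by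
  have p := hl
  refine ⟨PosDef.diagonal fun o => inv_pos.2 (pow_pos (kw_pos (fun ℓ => (p ℓ).1) _) 2),
    fun o o' z => congrArg _ (by_contra fun n => z (diagonal_apply_ne _ n)), fun x => ?_⟩
  rw [mul_sum, qf, dotProduct]
  refine sum_le_sum fun o _ => ?_
  rw [vv, mulVec_diagonal, mul_left_comm, ← sq]
  refine mul_le_mul_of_nonneg_right (kw_lo p ?_) (sq_nonneg _)
  rcases o with _ | w
  exacts [Nat.zero_le _, mem_full.1 (Sh.MW.mem w.1)]

theorem vv_none : vv blk lam s J none none = 1 := by simp [vv, ow, kw]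

theorem tT_tri (H : TSt) {T : TS Unit} {st : T.C → ℕ} {M : ℕ} (o : Old T st M s)
    (hl : ∀ ℓ, 0 < lam ℓ ∧ lam ℓ ≤ 2 ^ h) (b : T.Cw (bg blk lam s J) → ℤ) :
    (t0 blk lam T s J b).Tri ∧ (tT blk lam T s J b).Tri ∧
      (tT blk lam T s J b).D = (t0 blk lam T s J b).D := by
  have t := (H τ T _ st M _ _ _ b o.stg (o.stg.adm (bg_sz hl).toOk) (bg_sz hl).toOk
    (vv_tk hl)).1.cl.1
  refine ⟨t, un_diag t (fun x => (kw_pos (fun ℓ => (hl ℓ).1) _).ne')
    (Matrix.ext fun (x x' : T.Tc (bg blk lam s J)) => ?_)⟩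
  change T.K x.1.1 x'.1.1 * vv blk lam s J x.1.2 x'.1.2 = diagonal _ x x'
  rw [o.K, vv]
  by_cases e : x = x'
  · subst e; rw [one_apply_eq, one_mul, diagonal_apply_eq, diagonal_apply_eq]
  · rw [diagonal_apply_ne _ e]
    by_cases f : x.1.1 = x'.1.1
    · rw [diagonal_apply_ne _ fun g => e (Subtype.ext (Prod.ext f g)), mul_zero]
    · rw [one_apply_ne f, zero_mul]

theorem bg_card : Fintype.card (Option (bg blk lam s J).W) ≤ (Fintype.card τ + 1) ^ s := by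
  refine le_trans ?_ (En.card_full τ s)
  rw [Fintype.card_option, ← card_erase_add_one (a := 0) (mem_full.2 (by simp))]
  exact Nat.add_le_add_right ((Fintype.card_subtype_le _).trans (Fintype.card_coe _).le) 1

end tf

/-- **the costs of the tangent frame** -/
theorem tfc : TFC := fun τ L _ _ _ _ T st M s h blk lam J b p o hl => by
  obtain ⟨t, u, e⟩ := tT_tri tst o hl b
  have lv : ∀ x : T.Tc (bg blk lam s J), (t0 blk lam T s J b).lev x = T.lev x.1.1 - _ := fun x =>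
    Finsupp.degree_single _ _
  have := (co_tan tst (Y := s * h) (Z := 0) o.ok.toTri o.lev (o.stg.adm (bg_sz hl).toOk)
    (bg_sz hl).toOk bg_card (vv_tk hl) (by positivity) (by
      rw [one_div, inv_inv, mul_assoc, pow_mul', Real.sqrt_sq (by positivity)])
    (by rw [vv_none]; norm_num) vv_none.le b).trans (co_un t
      (fun x => (lv x).trans_le ((Nat.sub_le _ _).trans (o.lev _))) u e) o.ok.toTri t fun F => lv _
  exact this.mono o.ok.toTri (by
    rw [zero_mul, add_zero, add_zero]; exact Nat.mul_le_mul_left _ (by nlinarith))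

theorem cot : COT := fun s X X' _ _ _ _ _ h1 h2 lv h h' => (h.trans h' h1 h2 lv).mono h1 (by
  nlinarith [Nat.zero_le (s * X), Nat.zero_le (s * X'), Nat.zero_le (s * X * X),
    Nat.zero_le (s * X' * X'), Nat.zero_le (s * X * X'), Nat.zero_le (X * X')])

end Crest.Agent.N49.Md

end
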