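import Crest.Agent.N49.Md.Defs

/-!
# Row 49 (helper9): forward sizes of frames
-/

set_option autoImplicit false

open Finset Matrix MvPolynomial

noncomputable section

namespace Crest.Agent.N49.Md

open Tw

variable {τ L : Type}

/-- **forward size**: one multiplier `ν`, widths and coefficients of size `n` -/
structure Fr.Fw {T0 : TS Unit} (f : Fr T0 τ L) (ν n : ℕ) : Prop where
  one : 1 ≤ ν
  m : f.m = fun _ => ν
  la : ∀ ℓ, 1 / 2 ^ n ≤ f.la ℓ ∧ f.la ℓ ≤ 2 ^ n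
  ne : ∀ G F, f.θ.fam G = some F → f.θ.sc G ≠ 0
  bd : ∀ G F, f.θ.fam G = some F → |f.θ.sc G| * l1 (zr (f.θ.mon G)) * ν ^ f.T.lev G ≤ 2 ^ n

end Crest.Agent.N49.Md

end
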