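import Crest.Agent.N49.Md.Xp
import Crest.Agent.N49.Md.Co
import Crest.Agent.N49.Sd.Eb

/-!
# Row 49 (helper9): the export of a frame over an inhomogeneous tower
-/

set_option autoImplicit false

open Finset Matrix MvPolynomial

noncomputable section

namespace Crest.Agent.N49

open Tw

variable {τ L Lt : Type}

/-- the same data over a tower with other lower terms -/
def Sd.Tan.lo {T0 T2 : TS Unit} (D : Sd.Tan T0 T2 Lt) (Φ : T0.C → MvPolynomial T0.C ℝ) :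
    Sd.Tan (T0.setΦ Φ) T2 Lt := ⟨D.fam, D.mon, D.be, D.bu, D.bs, D.nu, D.gr⟩

namespace Md

/-- **the exported data**; `T0.setΦ Φ` is any tower with top part `T0` -/
abbrev Fr.xd {T0 : TS Unit} (f : Fr T0 τ L) (Φ : T0.C → MvPolynomial T0.C ℝ) (F0 : T0.C)
    (g : τ → Option Lt) (ν : ℕ) (γ : f.T.C → ℕ) : Sd.Tan (T0.setΦ Φ) (f.T.scl f.θ.xs) Lt :=
  (f.θ.xp F0 g ν γ).lo Φ

theorem xr_xd [Fintype τ] [DecidableEq τ] {T0 : TS Unit} (f : Fr T0 τ L)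
    (Φ : T0.C → MvPolynomial T0.C ℝ) (F0 : T0.C) (g : τ → Option Lt) (ν : ℕ) (γ : f.T.C → ℕ) :
    Sd.Xr g f.θ ν (f.xd Φ F0 g ν γ).fam (f.xd Φ F0 g ν γ).mon (f.xd Φ F0 g ν γ).be :=
  ⟨fun _ _ e => ⟨Tan.xf_eq e, (Tan.xm_eq e).trans (by
    rw [nsmul_eq_mul, Nat.cast_pow, map_pow, map_natCast]; rfl)⟩, fun _ => Tan.xm_0, fun _ => rfl⟩

/-- **the export of a frame** (`T1 = T1.top.setΦ T1.Φ`, `T.un B = (T.top.un B).setΦ _` by `rfl`) -/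
theorem Fr.xq {T0 : TS Unit} {f : Fr T0 τ L} {st0 : T0.C → ℕ} {M0 M1 s h ν n : ℕ}
    {Φ : T0.C → MvPolynomial T0.C ℝ} (o : Old T0 st0 M0 s) (s1 : (T0.setΦ Φ).Stg st0 M1)
    (e : (T0.setΦ Φ).top.Φ = T0.Φ) (k : f.Ok s h) (t : f.θ.St st0 f.st) (w : f.Fw ν n)
    (F0 : T0.C) (g : τ → Option Lt) : ∃ γ, (f.xd Φ F0 g ν γ).Ok (fun _ => 1) st0 f.st 0 ∧
      (f.xd Φ F0 g ν γ).Adq st0 f.st ∧ (f.xd Φ F0 g ν γ).Id ∧ (f.xd Φ F0 g ν γ).Nb (2 ^ n) ∧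
      (∀ G, f.θ.xs G ≠ 0) ∧ (f.T.scl f.θ.xs).Stg f.st f.M ∧ (f.T.scl f.θ.xs).Ok ∧
      (∀ C m a η, f.Rg C m a η → (f.T.scl f.θ.xs).RgS f.st f.M C m a η) ∧
      ∀ π : T0.C → ℤ, (∀ F, π F ≠ 0 → T0.lev F = 1) →
        Co.Up s h T0 π (f.T.scl f.θ.xs) ((f.xd Φ F0 g ν γ).pi π) ∧
        Co.Up s h (T0.setΦ Φ) π (f.T.scl f.θ.xs) ((f.xd Φ F0 g ν γ).pi π) := by
  obtain ⟨γ, a, b, c, z, d, u, v, y⟩ := Fr.xp o k t w F0 g
  have A : ((T0.setΦ Φ).stg st0).A = (T0.stg st0).A := by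
    rw [← s1.top_A]
    exact Matrix.ext fun F F' => (stg_A (T0.setΦ Φ).top st0 F F').trans
      ((congrArg (fun Ψ : T0.C → MvPolynomial T0.C ℝ => if st0 F = st0 F' then
        coeff (Finsupp.single F' 1) (Ψ F) else 0) e).trans (stg_A T0 st0 F F').symm)
  refine ⟨γ, ⟨a.hm, a.le, a.hb, a.hu, a.fb, a.mb, a.np, a.lb, fun F F' => (a.ab F F').trans
    (congrArg (fun B : Matrix T0.C T0.C ℝ => B F F' * _) A.symm), a.sg, a.g0, a.g1, a.g2⟩, b,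
    fun F => ?_, ⟨o.K, f.θ.xs, v, fun G => ⟨z G, y G⟩⟩, z, d, u,
    fun C m a η r => TS.RgS.scl r k.old.ok.pd z, fun π hπ => ?_⟩
  · refine Eq.trans ?_ (c F)
    exact congrArg (eval₂ _ _) ((congrFun e F).trans (congrFun (top_Φ o.ok) F).symm)
  · have p : (f.xd Φ F0 g ν γ).pi π = (ν : ℤ) • pl f.θ.top π :=
      Tan.xp_pi (F0 := F0) (g := g) (γ := γ) k.θ hπ k.old.ok.lev_pos
    have q : Co.Up s h T0 π (f.T.scl f.θ.xs) ((f.xd Φ F0 g ν γ).pi π) := by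
      have := ((k.co.up k.old.ok.toTri k.old.lev (fun F => (k.θ.top F).2.2.2) π).trans
        (N49.Co.Up.smul (n := ν) f.T _ (by have := w.one; positivity))).trans
        (N49.Co.Up.of_D (T := f.T) u.toTri (TS.scl_D z) _)
      rw [p]
      exact this.mono (by simp)
    refine ⟨q, ((N49.Co.Up.of_D (T := T0.setΦ Φ) (Φ := T0.Φ) (K := T0.K) o.ok.toTri ?_ π).trans
      q).mono (by simp)⟩
    rw [← TS.top_D (T0.setΦ Φ)]
    exact congrArg (β := Matrix T0.C T0.C ℝ) (fun Ψ => (T0.setΦ Ψ).D) e.symm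

end Md

end Crest.Agent.N49

end
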