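import Crest.Agent.N49.Md.St
import Crest.Agent.N49.Sy.Sok
import Crest.Agent.N49.Rf.G1
import Crest.Agent.N49.Tw.Mas0

/-!
# Row 49 (helper98): the identity frame, the tangent frame
-/

set_option autoImplicit false
set_option linter.unusedSectionVars false

open Finset Matrix MvPolynomial

noncomputable section

namespace Crest.Agent.N49.Md

open Tw Rm Sy Po

namespace Idf

variable {τ L : Type} {T T1 T2 : TS Unit} {s : ℕ}

theorem one_le_ls (h : T.Tri) (s l : ℕ) : 1 ≤ ls T s l :=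
  one_le_mul_of_one_le_of_one_le (prod_const_one.ge.trans
    (prod_le_prod (fun _ _ => zero_le_one) fun j _ => TS.one_le_ct h j)) (one_le_pow₀ one_le_two)

theorem co_mono (h : T1.Tri) {X X' : ℕ} {t : T1.C → T2.C} (c : Co s X T1 T2 t) (k : X ≤ X') :
    Co s X' T1 T2 t :=
  ⟨fun l hl => (c.R l hl).trans (by gcongr), fun l hl => (c.ct l hl).trans
    (mul_le_mul_of_nonneg_left (pow_le_pow_right₀ (one_le_ls h s l) k)
      (zero_le_one.trans (TS.one_le_ct h l))), fun π hπ => (c.g π hπ).trans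
    (mul_le_mul_of_nonneg_left (pow_le_pow_right₀ (one_le_ls h s 1) k) (T1.g1_nonneg π))⟩

theorem co_refl (h : T.Tri) (s X : ℕ) : Co s X T T id :=
  ⟨fun l _ => Nat.le_add_right _ _, fun l _ => le_mul_of_one_le_right
    (zero_le_one.trans (TS.one_le_ct h l)) (one_le_pow₀ (one_le_ls h s l)), fun π _ => by
      have : pl id π = π := funext fun G => by simp [pl, sum_filter]
      rw [this]
      exact le_mul_of_one_le_right (T.g1_nonneg π) (one_le_pow₀ (one_le_ls h s 1))⟩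

theorem tan_mono {θ : Tan T1 T2 τ} {x y : ℝ} (h : θ.Ok x) (h0 : 0 < x) (k : x ≤ y) : θ.Ok y :=
  ⟨h.le, h.be, h.bu, fun F => ⟨(h.top F).1, (h.top F).2.1,
    (inv_anti₀ h0 k).trans (h.top F).2.2.1, (h.top F).2.2.2⟩, h.uq,
    fun G => ⟨(h.bd G).1.trans k, (h.bd G).2.trans k⟩, h.eq⟩

theorem bs_mono {B : Bs L} {h h' : ℕ} (o : B.Ok s h) (k : h ≤ h') : B.Ok s h' :=
  ⟨o.old, fun ℓ => ⟨(one_div_le_one_div_of_le (by positivity)
    (pow_le_pow_right₀ one_le_two k)).trans (o.la ℓ).1,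
    (o.la ℓ).2.trans (pow_le_pow_right₀ one_le_two k)⟩⟩

theorem fr_mono (h0 : T.Tri) {f : Fr T τ L} {h h' : ℕ} (o : f.Ok s h) (k : h ≤ h') : f.Ok s h' :=
  ⟨bs_mono o.toOk k, tan_mono o.θ (by positivity) (pow_le_pow_right₀ one_le_two k),
    fun ℓ => ⟨(o.m ℓ).1, (o.m ℓ).2.trans (Nat.pow_le_pow_right two_pos k)⟩, co_mono h0 o.co k⟩

theorem l1_one {C : Type} : l1 (1 : MvPolynomial C ℝ) = 1 := by
  classical
  simp [l1, support_one]

theorem id_ok (T : TS Unit) (τ : Type) {x : ℝ} (h : 1 ≤ x) : (Tan.id' T τ).Ok x where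
  le F G e := by
    obtain rfl : G = F := Option.some.inj e
    exact ⟨le_rfl, by rw [Nat.sub_self]; exact isHomogeneous_one _ _⟩
  be _ := isHomogeneous_zero _ _ _
  bu _ := isHomogeneous_zero _ _ _
  top _ := ⟨rfl, rfl, inv_le_one_of_one_le₀ h, rfl⟩
  uq _ _ e _ := Option.some.inj e
  bd _ := ⟨by simpa [Tan.id'] using h, by simpa [Tan.id', l1_one] using h⟩
  eq F := by
    simp only [Tan.id', Pi.zero_apply, Pi.one_apply, map_zero, map_one, zero_add, one_mul,
      Option.some.injEq, sum_filter, sum_ite_eq', mem_univ, if_true, one_smul]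
    induction T.Φ F using MvPolynomial.induction_on with
    | C r => simp [MvPolynomial.algebraMap_apply]
    | add p q a b => simp only [map_add, a, b]
    | mul_X p a b => simp only [map_mul, aeval_X, map_X, b]

theorem rc_one (h : T.Tri) (hs : ∀ c, T.lev c ≤ s) : Rc T s 1 = Fintype.card T.C :=
  (card_eq_sum_card_fiberwise (f := T.lev) (s := univ) (t := Icc 1 s) fun c _ =>
    mem_coe.2 (mem_Icc.2 ⟨h.lev_pos c, hs c⟩)).symm

theorem rc_succ (T : TS Unit) (s l : ℕ) : Rc T s (l + 1) ≤ Rc T s l :=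
  sum_le_sum_of_subset (Icc_subset_Icc_left (Nat.le_succ l))

theorem scl_one {R : Type} [CommRing R] (P : MvPolynomial τ R) : scl (fun _ => (1 : R)) P = P := by
  simp [scl]

variable [Fintype τ] [DecidableEq τ] [Fintype L] [DecidableEq L]

theorem ka_id (B : Bs L) (W : Finset (Finset τ)) (blk : τ → L) (p : B.SC W ⊕ L → ℝ) :
    ka B W blk (B.fr τ) p = p := by
  funext v
  rcases v with w | ℓ
  · have := sy_X B.T.lev (sx B.T _ W fun w' => p (.inl w')) w.1.2 w.1.1
    rw [if_pos w.2.2.2, sx_coe, sy, aeval_X] at this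
    simp only [ka, Sum.elim_inl, Tan.Y, Bs.fr, Tan.id', Pi.zero_apply, Pi.one_apply, map_zero,
      map_one, zero_add, one_mul, Option.some.injEq, sum_filter, sum_ite_eq', mem_univ, if_true,
      Nat.cast_one, scl_one]
    exact this
  · rfl

theorem sy_ok {B : Bs L} {W : Finset (Finset τ)} {blk : τ → L} {h : ℕ} (o : B.Ok s h)
    (w : Wf s W blk) : (B.SY W blk).Ok :=
  sym_ok o.old.ok.toTri (stg_low o.old.stg _) w.inj fun _ _ =>
    (prod_pos fun a _ => lt_of_lt_of_le (by positivity) (o.la (blk a)).1).ne'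

theorem rr_id {B : Bs L} {W : Finset (Finset τ)} {blk : τ → L} (h : B.T.Tri) (d : B.SC W → ℤ)
    (p : B.SC W ⊕ L → ℝ) : rr (B.SY W blk) Subtype.val d p = p := by
  funext v
  rcases v with w | ℓ
  · exact dif_pos ((sc_ne h w).image blk)
  · rfl

end Idf

open Idf

theorem idf : IDF := fun τ L _ _ _ _ B W blk s h o w => by
  have t := o.old.ok.toTri
  refine ⟨⟨o, id_ok _ _ (one_le_pow₀ one_le_two), fun _ => ⟨le_rfl, Nat.one_le_two_pow⟩,
    co_refl t s h⟩, ⟨Subtype.val, ⟨sy_ok o w, Subtype.val_injective, fun _ => rfl,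
      fun d p c => congrArg (fun q => (B.SY W blk).Φ q c.1) (rr_id t d p)⟩, fun d p => (rr_id t d p).trans (ka_id B W blk p).symm⟩,
    fun f h' k => ⟨?_, fun _ => fr_mono t k⟩⟩
  have a := k.co.R 1 le_rfl
  have b := Nat.mul_le_mul_left h' (Nat.succ_le_succ (rc_succ B.T s 1))
  rw [rc_one t o.old.lev] at a b
  rw [rc_one k.old.ok.toTri k.old.lev] at a
  simp only [Nat.succ_eq_add_one] at b
  nlinarith

theorem tfo (ha : TFA) (hb : TFB) (hc : TFC) : TFO :=
  fun τ L _ _ _ _ B s h blk lam la' m J b hp o hl hl' hm => by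
  have p : ∀ ℓ, 0 < lam ℓ := fun ℓ => lt_of_lt_of_le (by positivity) (hl ℓ).1
  have q : 1 ≤ (Fintype.card τ + 1) ^ s := Nat.one_le_pow _ _ (Nat.succ_pos _)
  have k : (h + 1) * (s + 1) ≤ (Fintype.card τ + 1) ^ s * ((h + 1) * (s + 1)) :=
    Nat.le_mul_of_pos_left _ q
  have k1 : h ≤ (Fintype.card τ + 1) ^ s * ((h + 1) * (s + 1)) := le_trans (by nlinarith) k
  have k2 : h * s ≤ (Fintype.card τ + 1) ^ s * ((h + 1) * (s + 1)) := le_trans (by nlinarith) k
  exact ⟨bs_mono (h := h) ⟨(ha τ L B.T B.st B.M s blk lam J b o p).1, hl'⟩ k1,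
    tan_mono (hb τ L B.T s h blk lam J b hp o.ok o.lev fun ℓ => (hl ℓ).1) (by positivity)
      (pow_le_pow_right₀ one_le_two k2),
    fun ℓ => ⟨(hm ℓ).1, (hm ℓ).2.trans (Nat.pow_le_pow_right two_pos k1)⟩,
    hc τ L B.T B.st B.M s h blk lam J b hp o fun ℓ => ⟨p ℓ, (hl ℓ).2⟩⟩

end Crest.Agent.N49.Md

end
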