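import Crest.Agent.N49.Md.Gxf
import Crest.Agent.N49.Md.Idf
import Crest.Agent.N49.Rm.Gk
import Crest.Agent.N49.Rm.Tbp

/-! # Row 49 (helper35): the top call on a frame, back on a frame -/

set_option autoImplicit false
set_option linter.unusedSectionVars false

open Finset

noncomputable section

namespace Crest.Agent.N49.Md

open Tw Rm Sy

/-- `Mh` pulls back along morphisms -/
theorem mh_pull {L C C' D : Type} [Fintype L] [DecidableEq L] [Fintype C] [DecidableEq C]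
    [Fintype C'] [DecidableEq C'] {T : TT L C} {T' : TT L C'} {r} {x n n' : ℕ} {Z M : Finset L}
    {H : Set (C → ℤ)} {H' : Set (C' → ℤ)} {F : D → Fm L C} (h : Mor T' T r (2 ^ x)) (hT : T.Ok)
    (d : Disjoint Z M) (l : ∀ a, T.Dat (Z ∪ M) M (F a)) (o : Ov r H' H)
    (e : n + x * Fintype.card L ≤ n') (k : Mh T Z M H n F) :
    Mh T' Z M H' n' fun a p => F a (r p) := by
  obtain ⟨N, i1, i2, W, q, Γ, a1, a2, a3, a4, a5, a6, a7⟩ := k
  refine ⟨N, i1, i2, W.pl r, q, fun a p => Γ a (Rm.ixt r p), by omega, h.toLm.wd_ok a2,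
    h.toLm.wd_cell o a3, a4, a5.trans (Nat.pow_le_pow_right two_pos (by omega)),
    fun a => (h.toLm.ixt W).pull (a6 a), fun y' hy a => ?_⟩
  obtain ⟨y, hy, e1⟩ := o y' hy
  have := h.rel hT (one_le_pow₀ one_le_two) e1
    ((l a).sub (a2.dat d ((a6 a).mono subset_rfl subset_union_right))).2 (a7 y hy a)
  refine (this.congr fun p _ => by simp only [h.toLm.ixt_lf]).mono ?_
  rw [← pow_mul, ← pow_add]
  exact pow_le_pow_right₀ one_le_two
    (le_trans (Nat.add_le_add_right (Nat.mul_le_mul_left x (card_le_univ M)) n) (by omega))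

/-- the exponent of the regularity is free -/
theorem rg_C {T : TS Unit} {st : T.C → ℕ} {M s C a b : ℕ} (o : Old T st M s)
    (h : T.RgS st M 1 b (1 / 2 ^ b) (1 / 2 ^ b)) (e : (a + 1) ^ C ≤ b) (e' : a ≤ b) :
    T.RgS st M C a (1 / 2 ^ a) (1 / 2 ^ a) := by
  have k : ((a : ℝ) + 1) ^ C ≤ (b + 1) ^ 1 := by
    rw [pow_one]; exact_mod_cast e.trans (Nat.le_succ b)
  refine h.mono'' o.stg.tri (by positivity) (by simpa using hf_le (Nat.zero_le b)) le_rfl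
    (by rwa [one_mul]) (mul_le_mul k (hf_le e') (by positivity) (by positivity)) ?_
  have := Real.log_le_log (by positivity) (inv_anti₀ (by positivity) (hf_le e'))
  linarith

theorem card_SC {τ L : Type} [Fintype τ] [DecidableEq τ] (B : Bs L) (W : Finset (Finset τ))
    {a b : ℕ} (h : Fintype.card B.T.C ≤ 2 ^ a) (k : Fintype.card τ ≤ b) :
    Fintype.card (B.SC W) ≤ 2 ^ (a + b) := by
  refine (Fintype.card_subtype_le _).trans ?_
  rw [Fintype.card_prod, Fintype.card_finset, pow_add]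
  exact Nat.mul_le_mul h (Nat.pow_le_pow_right two_pos k)

/-- **the link**: regular base, hereditary rectangles ⇒ a frame on which the datum is a form -/
def TPC (s l0 c : ℕ) : Prop := ∃ k0 Kt : ℕ, ∀ M0 : ℕ, ∃ E M1 e M' : ℕ, ∀ KH K' : ℕ, ∃ K : ℕ,
  ∀ (τ L D : Type) [Fintype τ] [DecidableEq τ] [Fintype L] [DecidableEq L] [Fintype D] (B : Bs L)
    (W : Finset (Finset τ)) (blk : τ → L) (Z Mx : Finset L) (H : Set (B.SC W → ℤ))
    (F : D → Fm L (B.SC W)) (Y : Hk L (B.SC W)) (n : ℕ), Fintype.card L ≤ l0 →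
    Fintype.card τ ≤ n → Fintype.card D ≤ n → Fintype.card B.T.C ≤ 2 ^ n → B.M ≤ M0 → B.Ok s n →
    Wf s W blk → Disjoint Z Mx → Mx.Nonempty → Sz n (B.SY W blk) H →
    (∀ a, (B.SY W blk).Dat (Z ∪ Mx) Mx (F a)) → B.Rg 1 (n ^ K) (1 / 2 ^ n ^ K) (1 / 2 ^ n ^ K) →
    GG (n ^ Kt + 1) (B.SY W blk) Y →
    (∀ β, n ^ KH ≤ β → HerX c k0 (n ^ Kt) n (B.SY W blk) (fun C' _ _ T' ι k =>
      Xf B W blk s k0 (n ^ E) M1 1 β C' T' ι k ∧ Y C' T' ι k) Z Mx H F) →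
    ∃ (f : Fr B.T τ L) (H' : Set (f.SC W → ℤ)) (n' : ℕ), n ≤ n' ∧ n' ≤ n ^ e ∧ f.Ok s n' ∧
      f.M ≤ M' ∧ f.m = 1 ∧ Tg B blk s f ∧ Fintype.card f.T.C ≤ 2 ^ n' ∧
      f.Rg 1 (n' ^ K') (1 / 2 ^ n' ^ K') (1 / 2 ^ n' ^ K') ∧ Sz n' (f.SY W blk) H' ∧
      Ov (ka B W blk f) H' H ∧ Mh (f.SY W blk) Z Mx H' n' fun a p => F a (ka B W blk f p)

theorem tpc {s l0 c : ℕ} (tx : TOPX l0 c) (gx : ∀ K0 M0 C, GXF s l0 K0 M0 C)
    (cn : ∀ M C, CAN s M C) : TPC s l0 c := by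
  obtain ⟨k0, tx⟩ := tx
  obtain ⟨Kt, tx⟩ := tx 0
  refine ⟨k0, Kt, fun M0 => ?_⟩
  obtain ⟨C0, K1, M1, gx⟩ := gx k0 M0 1
  obtain ⟨C2, K2, M', cn⟩ := cn M1 1
  obtain ⟨E, hE⟩ : ∃ E, E = (Kt + 1) * K1 := ⟨_, rfl⟩
  have pE : PB fun n => n ^ (E + 1) := PB.idt.pow _
  obtain ⟨e, he⟩ : PB fun n => (n ^ (E + 1)) ^ K2 * (l0 + 1) + n ^ Kt + n ^ (E + 1) + n + 1 :=
    (((((pE.pow K2).mul (.const _)).add (PB.idt.pow Kt)).add pE).add .idt).add (.const 1)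
  refine ⟨E, M1, e, M', fun KH K' => ?_⟩
  have pn : PB fun n => ((n ^ e) ^ (K' + 1)) ^ K2 := ((PB.idt.pow e).pow _).pow _
  obtain ⟨Kb, hb⟩ : PB fun n => (((n ^ e) ^ (K' + 1)) ^ K2 + 1) ^ C2 + ((n ^ e) ^ (K' + 1)) ^ K2 +
      n ^ KH + n ^ (Kt + 1) :=
    ((((pn.add (.const 1)).pow _).add pn).add (PB.idt.pow _)).add (PB.idt.pow _)
  have pb : PB fun n => (n ^ Kb) ^ K1 := (PB.idt.pow _).pow _
  obtain ⟨K, hK⟩ : PB fun n => ((n ^ Kb) ^ K1 + 1) ^ C0 + (n ^ Kb) ^ K1 :=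
    ((pb.add (.const 1)).pow _).add pb
  refine ⟨K, fun τ L D _ _ _ _ _ B W blk Z Mx H F Y n hL ht hD hC hM o w dj ne sz dt rg gy hx => ?_⟩
  have n2 := sz.1
  have E1 := he n n2
  have E2 := hb n n2
  have E3 := hK n n2
  simp only at E1 E2 E3
  have a1 : n ^ Kt + 1 ≤ n ^ (Kt + 1) := by
    have := Nat.one_le_pow Kt n (by omega)
    rw [pow_succ]; nlinarith
  have a2 : ∀ k, n ≤ n ^ (k + 1) := fun k => Nat.le_self_pow (by omega) n
  have a3 : n ^ E ≤ n ^ (E + 1) := Nat.pow_le_pow_right (by omega) (by omega)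
  have a4 : n ^ e ≤ (n ^ e) ^ (K' + 1) := Nat.le_self_pow (by omega) _
  have a5 : (n ^ e) ^ K' ≤ (n ^ e) ^ (K' + 1) := Nat.pow_le_pow_right (by omega) (by omega)
  have g1 := gx τ L B W blk (n ^ (Kt + 1)) (n ^ Kb) (n2.trans (a2 _)) (by omega) hL
    (ht.trans (a2 _)) hM (Idf.bs_mono o (a2 _)) w (rg_C o.old rg (by omega) (by omega))
  rw [← pow_mul, ← hE] at g1
  obtain ⟨C1, _, _, T1, ι, H1, n1, k, b1, b2, b3, b4, b5, b6, b7, b8⟩ := tx L _ (B.SY W blk) _ D n H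
    Z Mx F hL dj ne sz (gx_and _ _ _ _ _ (GX.mono a1 _ _ _ _ _ (by omega) g1)
      (GX.mono le_rfl _ _ _ _ _ (by omega) gy)) hD dt (hx (n ^ Kb) (by omega))
  obtain ⟨f, em, c1, c2, c3, c4, c5, c6⟩ := b5.hook.1 b3
  have ob := Idf.bs_mono o (a2 E)
  obtain ⟨f', r, H', d1, d2, d3, d4, d5, d6, d7, d8, d9, d10⟩ := cn τ L C1 B W blk T1 ι f em
    (n ^ (E + 1)) ((n ^ e) ^ (K' + 1)) H1 (n2.trans (a2 _)) (by omega) (ht.trans (a2 _))
    (hC.trans (Nat.pow_le_pow_right two_pos (a2 _))) ob w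
    (((idf τ L B W blk s n o w).2.2 f _ c1).2 _ a3) c2 (rg_C c1.old c5 (by omega) (by omega)) c6
  have a6 := Nat.mul_le_mul_left ((n ^ (E + 1)) ^ K2) hL
  rw [mul_add_one] at E1
  have kk : ka B W blk f' = ι ∘ r := funext fun p => (d8 p).symm
  refine ⟨f', H', n ^ e, by omega, le_rfl, ((idf τ L B W blk s n o w).2.2 f' _ d1).2 _ (by omega),
    d2, d3.trans c3, d4 c4, d5.trans (Nat.pow_le_pow_right two_pos (by omega)),
    rgm d1.old d6 le_rfl a5, ⟨by omega, (card_SC _ W d5 ht).trans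
      (Nat.pow_le_pow_right two_pos (by omega)), le_trans ?_ d10⟩, kk ▸ b7.comp d9, ?_⟩
  · have u1 := (half_anti b2).trans b6.2.2
    have u2 := half_anti (show n ^ Kt + 1 ≤ n ^ e by omega)
    have u3 := hf_le (show n ^ Kt + 1 ≤ (n ^ e) ^ (K' + 1) by omega)
    rw [← one_div_pow, ← one_div_pow] at u3
    rw [← one_div_pow]
    rw [pow_succ (1 / 2 : ℝ)] at u2 u3
    linarith
  · have := mh_pull (n' := n ^ e) d7 b5.ok dj (fun a => (b4.mor g1.ok).toLm.pull (dt a)) d9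
      (show n1 + _ ≤ _ by omega) b8
    rw [kk]; exact this

end Crest.Agent.N49.Md

end
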