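import Crest.Agent.N49.Md.Uft
import Crest.Agent.N49.Rn.L1

/-!
# Row 49 (helper70): the map of a frame is a morphism
-/

set_option autoImplicit false
set_option linter.unusedSectionVars false

open Finset MvPolynomial

noncomputable section

namespace Crest.Agent.N49.Md

open Tw Rm Sy Uf

variable {τ L : Type} [Fintype τ] [DecidableEq τ] [Fintype L] [DecidableEq L]

namespace Uf

theorem coeff_scl_mul (e m : τ → ℝ) (P Q : MvPolynomial τ ℝ) (A : Finset τ) :
    coeff (ind A) (scl e P * scl m Q) = ∑ A' ∈ A.powerset, (∏ a ∈ A', e a) *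
      (coeff (ind A') P * ((∏ a ∈ A \ A', m a) * coeff (ind (A \ A')) Q)) := by
  simp only [coeff_ind_mul, coeff_ind_scl, mul_assoc]

theorem e_dat {C : Type} [Fintype C] [DecidableEq C] (T : TT L C) {blk : τ → L} {A : Finset τ}
    (h : Set.InjOn blk A) :
    T.Dat (A.image blk) (A.image blk) fun p => ∏ a ∈ A, p (.inr (blk a)) := by
  induction A using Finset.induction_on with
  | empty => exact ⟨by simpa using TT.Ty.const 1, by simp⟩
  | insert a A ha ih =>
    have d : Disjoint {blk a} (A.image blk) := disjoint_singleton_left.2 fun k => by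
      obtain ⟨b, hb, e⟩ := mem_image.1 k
      exact ha (h (by simp [hb]) (by simp) e ▸ hb)
    simp only [prod_insert ha, image_insert, insert_eq (blk a)]
    exact (TT.Dat.coord (v := .inr (blk a)) subset_rfl (by simp) subset_rfl).mul
      (ih (h.mono (by simp))) d d.symm

theorem ka_inl (B : Bs L) (W : Finset (Finset τ)) (blk : τ → L) (f : Fr B.T τ L)
    (p : f.SC W ⊕ L → ℝ) (w : B.SC W) : ka B W blk f p (.inl w) =
      coeff (ind w.1.2) (zr (f.θ.be w.1.1)) * (∏ a ∈ w.1.2, p (.inr (blk a))) +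
      ∑ G with f.θ.fam G = some w.1.1, ∑ A' ∈ w.1.2.powerset, (∏ a ∈ A', p (.inr (blk a))) *
        (coeff (ind A') (zr (f.θ.mon G)) * ((∏ a ∈ w.1.2 \ A', (f.m (blk a) : ℝ)) *
          sF f.T (fun c => f.st c < f.M + 1) W (X G) (w.1.2 \ A') p)) := by
  simp only [ka, Sum.elim_inl, Tan.Y, coeff_add, coeff_sum, coeff_scl_mul, coeff_ind_scl, sF, sP,
    sy, aeval_X, mul_comm (coeff _ (zr (f.θ.be _)))]

theorem abs_prod_le {g : τ → ℝ} {A : Finset τ} {h s : ℕ} (k : ∀ a, |g a| ≤ 2 ^ h) (hA : #A ≤ s) :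
    |∏ a ∈ A, g a| ≤ 2 ^ (h * s) := by
  rw [abs_prod, pow_mul]
  exact (prod_le_prod (fun _ _ => abs_nonneg _) fun a _ => k a).trans (by
    rw [prod_const]; exact pow_le_pow_right₀ (one_le_pow₀ one_le_two) hA)

end Uf

theorem morf : MORF := by
  intro τ L _ _ _ _ B W blk f s h n hB hf hW hn
  have ho := hf.old.ok
  refine ⟨⟨fun _ _ => rfl, fun w _ => ?_, fun w e => ?_⟩, fun p hp v => ?_, ?_⟩
  · have hi := hW.inj _ w.2.2.1
    simp only [ka_inl]
    refine ((e_dat _ hi).smul _).add (TT.Dat.sum _ fun G _ => TT.Dat.sum _ fun A' k => ?_)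
    have s1 := mem_powerset.1 k
    have d : Disjoint (A'.image blk) ((w.1.2 \ A').image blk) := disjoint_left.2 fun ℓ a b => by
      obtain ⟨x, hx, rfl⟩ := mem_image.1 a
      obtain ⟨y, hy, e⟩ := mem_image.1 b
      exact (mem_sdiff.1 hy).2 ((hi (mem_sdiff.1 hy).1 (s1 hx) e).symm ▸ hx)
    have := (e_dat (f.SY W blk) (hi.mono s1)).mul (((sF_dat ho.toTri (X G)
      (hi.mono (sdiff_subset (s := w.1.2) (t := A')))).smul
        (∏ a ∈ w.1.2 \ A', (f.m (blk a) : ℝ))).smul (coeff (ind A') (zr (f.θ.mon G)))) d d.symm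
    rwa [← image_union, union_sdiff_of_subset s1] at this
  · exact absurd e ((sc_ne hB.old.ok.toTri w).image blk).ne_empty
  · rcases v with w | ℓ
    · have k0 : ∀ v, p v ∈ (Int.castRingHom ℝ).range := fun v => (hp v).imp fun _ e => e.symm
      have k1 : ∀ μ (P : MvPolynomial τ ℤ), coeff μ (zr P) ∈ (Int.castRingHom ℝ).range :=
        fun μ P => ⟨_, (coeff_map _ _ _).symm⟩
      refine Exists.imp (fun _ e => Eq.symm e) (?_ : _ ∈ (Int.castRingHom ℝ).range)
      rw [ka_inl]
      refine add_mem (mul_mem (k1 _ _) (prod_mem fun _ _ => k0 _)) (sum_mem fun G _ =>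
        sum_mem fun A' _ => mul_mem (prod_mem fun _ _ => k0 _) (mul_mem (k1 _ _)
          (mul_mem (prod_mem fun _ _ => natCast_mem _ _) ?_)))
      rw [sF, sP, sy_X, sx]
      split_ifs
      exacts [k0 _, zero_mem _, zero_mem _]
    · exact hp (.inr ℓ)
  · intro M p w r hr he hc k
    obtain ⟨ℓ, h1, h2⟩ := not_disjoint_iff.1 hc
    obtain ⟨a0, ha, rfl⟩ := mem_image.1 h1
    have hA := w.2.2.1
    have z : ∀ A' : Finset τ, a0 ∈ A' → ∏ a ∈ A', p (.inr (blk a)) = 0 := fun A' m =>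
      prod_eq_zero m (by rw [he, if_pos h2])
    have e1 : ∀ A' : Finset τ, |∏ a ∈ A', p (.inr (blk a))| ≤ 1 := fun A' => by
      rw [abs_prod]
      exact prod_le_one (fun _ _ => abs_nonneg _) fun a _ => by rw [he]; split_ifs <;> simp
    have p2 : ∀ j : ℕ, (0 : ℝ) < 2 ^ j := fun j => by positivity
    have t := trc τ B.T (fun c => B.st c < B.M + 1) W (f.θ.Y (fun a => p (.inr (blk a)))
      (fun a => f.m (blk a)) (Yp f.T.lev (sx f.T _ W fun w' => p (.inl w')))) (B.T.Φ w.1.1) hW.dw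
      (fun c => Nat.lt_succ_of_le (hB.old.stg.le c).1) (Y_hom hf.θ _ _ (Yp_hom _ _)) _ hA
    change |(∏ a ∈ w.1.2, B.la (blk a)) * sP _ _ _ _ _ _| ≤ _
    erw [t]
    rw [uft _ _ _ _ _ hf.θ, coeff_add, coeff_ind_scl, z _ ha, zero_mul, zero_add, coeff_sum,
      abs_mul]
    have b1 : ∀ G, ∀ A' ⊆ w.1.2, a0 ∉ A' → |coeff (ind (w.1.2 \ A')) (aeval (Yp f.T.lev
        (sx f.T _ W fun w' => p (.inl w'))) (f.T.Φ G))| ≤ 2 ^ (h * s) * r := fun G A' _ n => by
      by_cases c : #(w.1.2 \ A') = f.T.lev G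
      · have m := hW.dw _ hA _ (sdiff_subset (t := A'))
        have k1 : |(∏ a ∈ w.1.2 \ A', f.la (blk a)) * _| ≤ r := k ⟨(G, w.1.2 \ A'),
          Nat.lt_succ_of_le (hf.old.stg.le G).1, m, c⟩ (image_subset_image sdiff_subset)
          (not_disjoint_iff.2 ⟨_, mem_image_of_mem _ (mem_sdiff.2 ⟨ha, n⟩), h2⟩)
        have l0 : ∀ ℓ, 0 < f.la ℓ := fun ℓ => (one_div_pos.2 (p2 h)).trans_le (hf.la ℓ).1
        have k2 := abs_prod_le (g := fun a => (f.la (blk a))⁻¹) (fun a => by
          rw [abs_of_pos (inv_pos.2 (l0 _))]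
          exact inv_le_of_inv_le₀ (p2 h) (by simpa using (hf.la _).1)) (hW.le _ m)
        have := mul_le_mul k2 k1 (abs_nonneg _) (p2 _).le
        rwa [← abs_mul, prod_inv_distrib, inv_mul_cancel_left₀
          (prod_ne_zero_iff.2 fun a _ => (l0 _).ne')] at this
      · exact (congrArg abs (sy_hom _ (ho.hom_lev G) _ c)).trans_le
          (abs_zero.trans_le (by positivity))
    have b2 : ∀ G, |coeff (ind w.1.2) (f.θ.sc G • (scl (fun a => p (.inr (blk a)))
        (zr (f.θ.mon G)) * scl (fun a => (f.m (blk a) : ℝ)) (aeval (Yp f.T.lev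
        (sx f.T _ W fun w' => p (.inl w'))) (f.T.Φ G))))| ≤
          2 ^ h * (2 ^ h * (2 ^ (h * s) * (2 ^ (h * s) * r))) := fun G => by
      rw [coeff_smul, smul_eq_mul, abs_mul, coeff_scl_mul]
      refine mul_le_mul (hf.θ.bd G).1 ((abs_sum_le_sum_abs _ _).trans ((sum_le_sum
        (g := fun A' => |coeff (ind A') (zr (f.θ.mon G))| * (2 ^ (h * s) * (2 ^ (h * s) * r)))
          fun A' m => ?_).trans ?_)) (abs_nonneg _) (p2 _).le
      · by_cases n : a0 ∈ A'
        · rw [z _ n, zero_mul, abs_zero]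
          positivity
        · rw [abs_mul, abs_mul, abs_mul]
          refine (mul_le_of_le_one_left (by positivity) (e1 _)).trans
            (mul_le_mul_of_nonneg_left (mul_le_mul (abs_prod_le (fun a => ?_)
              ((card_le_card sdiff_subset).trans (hW.le _ hA))) (b1 G A' (mem_powerset.1 m) n)
              (abs_nonneg _) (p2 _).le) (abs_nonneg _))
          rw [Nat.abs_cast]
          exact_mod_cast (hf.m _).2
      · rw [← sum_mul, ← sum_image (f := fun μ => |coeff μ (zr (f.θ.mon G))|)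
          fun _ _ _ _ e => ind_inj e]
        exact mul_le_mul_of_nonneg_right ((sum_le_l1 _ _).trans (hf.θ.bd G).2) (by positivity)
    refine (mul_le_mul (abs_prod_le (h := h) (fun a => ?_) (hW.le _ hA))
      ((abs_sum_le_sum_abs _ _).trans ((sum_le_card_nsmul _ _ _ fun G _ => b2 G).trans
        (nsmul_le_nsmul_left (by positivity) ((card_le_univ _).trans hn)))) (abs_nonneg _)
        (p2 _).le).trans_eq ?_
    · rw [abs_of_pos ((one_div_pos.2 (p2 h)).trans_le (hB.la _).1)]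
      exact (hB.la _).2
    · rw [nsmul_eq_mul]
      push_cast
      ring

end Crest.Agent.N49.Md

end
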