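import Crest.Agent.N49.Md.St

/-!
# Row 49 (helper11): composition of frames (leaf COMP)
-/

set_option autoImplicit false
set_option linter.unusedSectionVars false

open Finset Matrix MvPolynomial

noncomputable section

namespace Crest.Agent.N49.Md

open Tw Rm Sy Po

namespace Cm

section scl
variable {τ R : Type} [CommRing R]

theorem scl_mon (m : τ → R) (ν : τ →₀ ℕ) (c : R) :
    scl m (monomial ν c) = monomial ν ((ν.prod fun a k => m a ^ k) * c) := by
  rw [scl, aeval_monomial, monomial_eq, algebraMap_eq]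
  simp only [mul_pow, Finsupp.prod_mul, ← C_pow, map_mul, map_finsuppProd]
  ring

theorem coeff_scl (m : τ → R) (μ : τ →₀ ℕ) (P : MvPolynomial τ R) :
    coeff μ (scl m P) = (μ.prod fun a k => m a ^ k) * coeff μ P := by
  classical
  induction P using MvPolynomial.induction_on' with
  | monomial ν c =>
    rw [scl_mon, coeff_monomial, coeff_monomial]
    split_ifs with e
    · rw [e]
    · rw [mul_zero]
  | add p q hp hq => rw [map_add, coeff_add, coeff_add, hp, hq, mul_add]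

theorem scl_scl (m m' : τ → R) (P : MvPolynomial τ R) : scl m (scl m' P) = scl (m * m') P := by
  ext μ
  simp only [coeff_scl, Pi.mul_apply, mul_pow, Finsupp.prod_mul, mul_assoc]

theorem scl_comm (m m' : τ → R) (P : MvPolynomial τ R) : scl m (scl m' P) = scl m' (scl m P) := by
  rw [scl_scl, scl_scl, mul_comm]

theorem zr_scl (m : τ → ℤ) (P : MvPolynomial τ ℤ) :
    zr (scl m P) = scl (fun a => (m a : ℝ)) (zr P) := by
  ext μ
  simp [coeff_scl, coeff_map, Finsupp.prod]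

theorem hom_scl (m : τ → R) {P : MvPolynomial τ R} {n : ℕ} (h : P.IsHomogeneous n) :
    (scl m P).IsHomogeneous n := fun μ k => h (by
  rw [coeff_scl] at k; exact right_ne_zero_of_mul k)
end scl

variable {τ : Type} {T1 T2 T3 : TS Unit}

theorem Y_comp (θ : Tan T1 T2 τ) (θ' : Tan T2 T3 τ) (m : τ → ℤ) (e m' : τ → ℝ)
    (Y : T3.C → MvPolynomial τ ℝ) (F : T1.C) :
    (θ.comp θ' m).Y e ((fun a => (m a : ℝ)) * m') Y F =
      θ.Y e (fun a => (m a : ℝ)) (θ'.Y e m' Y) F := by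
  have c1 : ∀ G, (θ.comp θ' m).fam G = (θ'.fam G).bind θ.fam := fun _ => rfl
  have c2 : ∀ G, (θ.comp θ' m).mon G = (θ'.fam G).elim 0 θ.mon * scl m (θ'.mon G) := fun _ => rfl
  have c3 : (θ.comp θ' m).be F =
      θ.be F + ∑ G with θ.fam G = some F, θ.mon G * scl m (θ'.be G) := rfl
  simp only [Tan.Y, c2, c3, map_add, map_sum, map_mul, zr_scl, mul_add, sum_add_distrib,
    add_assoc, mul_sum, scl_comm e, scl_scl _ m']
  congr 2
  simp only [sum_filter, c1]
  have : ∀ (c : Prop) [Decidable c] (g : T3.C → MvPolynomial τ ℝ),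
      (if c then ∑ i, g i else 0) = ∑ i, if c then g i else 0 := fun c _ g => by
    split_ifs <;> simp
  simp only [this]
  rw [sum_comm]
  refine sum_congr rfl fun G _ => ?_
  rcases k : θ'.fam G with _ | G'
  · simp
  · rw [sum_eq_single G' (fun b _ n => by simp [n.symm]) (by simp)]
    simp [mul_assoc]

theorem hom_Y {θ : Tan T1 T2 τ} {x : ℝ} (h : θ.Ok x) (e m : τ → ℝ) {Y : T2.C → MvPolynomial τ ℝ}
    (hY : ∀ G, (Y G).IsHomogeneous (T2.lev G)) (F : T1.C) :
    (θ.Y e m Y F).IsHomogeneous (T1.lev F) := by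
  refine (hom_scl _ ((h.be F).map _)).add (IsHomogeneous.sum _ _ _ fun G k => ?_)
  obtain ⟨a, b⟩ := h.le F G (mem_filter.1 k).2
  have := (hom_scl e (b.map (Int.castRingHom ℝ))).mul (hom_scl m (hY G))
  rwa [Nat.sub_add_cancel a] at this

theorem ok_mono {θ : Tan T1 T2 τ} {x x' : ℝ} (h : θ.Ok x) (h0 : 0 < x) (e : x ≤ x') : θ.Ok x' :=
  { h with
    top := fun F => ⟨(h.top F).1, (h.top F).2.1, (inv_anti₀ h0 e).trans (h.top F).2.2.1,
      (h.top F).2.2.2⟩
    bd := fun G => ⟨(h.bd G).1.trans e, (h.bd G).2.trans e⟩ }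

variable [Fintype τ] [DecidableEq τ]

theorem deg_ind'' (B : Finset τ) : (ind B).degree = #B := by
  rw [Finsupp.degree_apply, card_eq_sum_ones]
  exact sum_congr rfl fun a k => if_pos k

theorem hom_Yp {ι : Type} (lev : ι → ℕ) (y : ι → Finset τ → ℝ) (c : ι) :
    (Yp lev y c).IsHomogeneous (lev c) := IsHomogeneous.sum _ _ _ fun B k =>
  isHomogeneous_monomial _ ((deg_ind'' B).trans (mem_powersetCard.1 k).2)

theorem coeff_Yp {ι : Type} (lev : ι → ℕ) (y : ι → Finset τ → ℝ) (c : ι) (B : Finset τ) :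
    coeff (ind B) (Yp lev y c) = if #B = lev c then y c B else 0 := by
  rw [← sy_X, sy, aeval_X]

/-- truncation to the words does not change the coefficients on the words -/
theorem trunc {T : TS Unit} {p : T.C → Prop} [DecidablePred p] {W : Finset (Finset τ)}
    {Z : T.C → MvPolynomial τ ℝ} {c : T.C} (hp : p c) (hZ : (Z c).IsHomogeneous (T.lev c))
    {B : Finset τ} (hB : B ∈ W) : coeff (ind B)
      (Yp T.lev (sx T p W fun w => coeff (ind w.1.2) (Z w.1.1)) c) = coeff (ind B) (Z c) := by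
  rw [coeff_Yp]
  split_ifs with k
  · rw [sx, dif_pos ⟨hp, hB, k⟩]
  · exact (hZ.coeff_eq_zero (by rwa [deg_ind''])).symm

theorem Y_congr (θ : Tan T1 T2 τ) (e m : τ → ℝ) {Y Y' : T2.C → MvPolynomial τ ℝ} {A : Finset τ}
    (h : ∀ G, ∀ B ⊆ A, coeff (ind B) (Y G) = coeff (ind B) (Y' G)) (F : T1.C) :
    coeff (ind A) (θ.Y e m Y F) = coeff (ind A) (θ.Y e m Y' F) := by
  simp only [Tan.Y, coeff_add, coeff_sum, coeff_ind_mul, coeff_scl m, h _ _ sdiff_subset]

variable {L : Type} [Fintype L] [DecidableEq L]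

theorem ka_inl (B : Bs L) (W : Finset (Finset τ)) (blk : τ → L) (f : Fr B.T τ L)
    (p : f.SC W ⊕ L → ℝ) (w : B.SC W) : ka B W blk f p (.inl w) = coeff (ind w.1.2)
      (f.θ.Y (fun a => p (.inr (blk a))) (fun a => f.m (blk a))
        (Yp f.T.lev (sx f.T _ W fun w' => p (.inl w'))) w.1.1) := rfl

theorem ka_inr (B : Bs L) (W : Finset (Finset τ)) (blk : τ → L) (f : Fr B.T τ L)
    (p : f.SC W ⊕ L → ℝ) (ℓ : L) : ka B W blk f p (.inr ℓ) = p (.inr ℓ) := rfl

theorem ka_comp (B : Bs L) {W : Finset (Finset τ)} (blk : τ → L) (f : Fr B.T τ L)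
    (f' : Fr f.T τ L) {x : ℝ} (hW : Dw W) (hs : ∀ c, f.st c ≤ f.M) (h' : f'.θ.Ok x)
    (p : f'.SC W ⊕ L → ℝ) :
    ka B W blk (f.comp f' blk) p = ka B W blk f (ka f.toBs W blk f' p) := by
  funext w
  rcases w with w | ℓ
  · have e1 : ka B W blk (f.comp f' blk) p (.inl w) = coeff (ind w.1.2)
        ((f.θ.comp f'.θ fun a => (f.m (blk a) : ℤ)).Y (fun a => p (.inr (blk a)))
          (fun a => ((f.m (blk a) * f'.m (blk a) : ℕ) : ℝ))
          (Yp f'.T.lev (sx f'.T _ W fun w' : f'.SC W => p (.inl w'))) w.1.1) :=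
      ka_inl B W blk (f.comp f' blk) p w
    have e3 := Y_comp f.θ f'.θ (fun a => (f.m (blk a) : ℤ)) (fun a => p (.inr (blk a)))
      (fun a => f'.m (blk a)) (Yp f'.T.lev (sx f'.T _ W fun w' : f'.SC W => p (.inl w'))) w.1.1
    have e4 : (fun a => ((f.m (blk a) * f'.m (blk a) : ℕ) : ℝ)) =
        (fun a => (f.m (blk a) : ℝ)) * fun a => (f'.m (blk a) : ℝ) := funext fun a => Nat.cast_mul _ _
    simp only [Int.cast_natCast] at e3
    rw [e1, e4, e3]
    simp only [ka_inl, ka_inr]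
    exact Y_congr f.θ _ _ (fun G B k => (trunc (Nat.lt_succ_of_le (hs G))
      (hom_Y h' _ _ (hom_Yp _ _) G) (hW _ w.2.2.1 B k)).symm) _
  · exact (ka_inr B W blk (f.comp f' blk) p ℓ).trans
      ((ka_inr B W blk f _ ℓ).trans (ka_inr f.toBs W blk f' p ℓ)).symm

end Cm
open Cm

theorem comp' (h1 : TCMP) (h2 : COT) : COMP := by
  intro τ L _ _ _ _ B W blk f f' s h0 h h' hB hf hf' hW
  refine ⟨?_, ka_comp B blk f f' hW.dw (fun c => (hf.old.stg.le c).1) hf'.θ⟩
  have e1 : h + h' + h * s ≤ (s + 1) * (h + h' + 1) ^ 2 := by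
    nlinarith [Nat.zero_le (s * h'), Nat.zero_le (s * (h + h') ^ 2), Nat.zero_le ((h + h') ^ 2)]
  have e2 : (2 : ℝ) ^ h' ≤ 2 ^ ((s + 1) * (h + h' + 1) ^ 2) :=
    pow_le_pow_right₀ one_le_two (by omega)
  refine ⟨⟨hf'.old, fun ℓ => ⟨le_trans (by gcongr) (hf'.la ℓ).1, (hf'.la ℓ).2.trans e2⟩⟩, ?_,
    fun ℓ => ⟨Nat.mul_pos (hf.m ℓ).1 (hf'.m ℓ).1, ?_⟩,
    h2 s h h' B.T f.T f'.T f.θ.top f'.θ.top hB.old.ok.toTri hf.old.ok.toTri
      (fun F => (hf.θ.top F).2.2.2) hf.co hf'.co⟩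
  · refine ok_mono (h1 τ _ _ _ f.θ f'.θ _ _ _ (2 ^ h) s hf.θ hf'.θ (one_le_pow₀ one_le_two)
      (one_le_pow₀ one_le_two) (one_le_pow₀ one_le_two) (fun a => ?_) hf.old.lev)
      (by positivity) ?_
    · rw [Int.cast_natCast, Nat.abs_cast]; exact_mod_cast (hf.m _).2
    · rw [← pow_mul, ← pow_add, ← pow_add]
      exact pow_le_pow_right₀ one_le_two e1
  · refine (Nat.mul_le_mul (hf.m ℓ).2 (hf'.m ℓ).2).trans ?_
    rw [← pow_add]
    exact Nat.pow_le_pow_right two_pos (by omega)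

end Crest.Agent.N49.Md

end
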