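import Crest.Agent.N49.Md.St
import Crest.Agent.N49.Sy.Sok

/-!
# Row 49 (helper70): functoriality of the errors, truncation of the symbols
-/

set_option autoImplicit false
set_option linter.unusedSectionVars false

open Finset MvPolynomial

noncomputable section

namespace Crest.Agent.N49.Md

open Tw Rm Sy

namespace Uf

variable {τ ι : Type}

theorem scl_monomial {R : Type} [CommRing R] (m : τ → R) (μ : τ →₀ ℕ) (a : R) :
    scl m (monomial μ a) = monomial μ ((μ.prod fun i k => m i ^ k) * a) := by
  rw [scl, aeval_monomial, monomial_eq, algebraMap_eq, C_mul, mul_comm (C _) (C a), mul_assoc,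
    Finsupp.prod, Finsupp.prod, Finsupp.prod, map_prod, ← prod_mul_distrib]
  simp only [mul_pow, map_pow]

theorem coeff_scl {R : Type} [CommRing R] (m : τ → R) (P : MvPolynomial τ R) (μ : τ →₀ ℕ) :
    coeff μ (scl m P) = (μ.prod fun i k => m i ^ k) * coeff μ P := by
  classical
  induction P using MvPolynomial.induction_on' with
  | monomial ν a =>
    rw [scl_monomial, coeff_monomial, coeff_monomial]
    split_ifs with e
    · rw [e]
    · rw [mul_zero]
  | add p q hp hq => rw [map_add, coeff_add, coeff_add, hp, hq, mul_add]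

theorem scl_hom {R : Type} [CommRing R] (m : τ → R) {P : MvPolynomial τ R} {n : ℕ}
    (h : P.IsHomogeneous n) : (scl m P).IsHomogeneous n := fun μ z =>
  h (right_ne_zero_of_mul (coeff_scl m P μ ▸ z))

theorem zr_hom {P : MvPolynomial τ ℤ} {n : ℕ} (h : P.IsHomogeneous n) : (zr P).IsHomogeneous n :=
  h.map _

theorem Y_hom {T1 T2 : TS Unit} {θ : Tan T1 T2 τ} {x : ℝ} (h : θ.Ok x) (e m : τ → ℝ)
    {Y : T2.C → MvPolynomial τ ℝ} (hY : ∀ G, (Y G).IsHomogeneous (T2.lev G)) (F : T1.C) :
    (θ.Y e m Y F).IsHomogeneous (T1.lev F) :=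
  (scl_hom e (zr_hom (h.be F))).add (IsHomogeneous.sum _ _ _ fun G hG => by
    obtain ⟨a, b⟩ := h.le F G (mem_filter.1 hG).2
    rw [← Nat.sub_add_cancel a]
    exact (scl_hom e (zr_hom b)).mul (scl_hom m (hY G)))

variable [DecidableEq τ]

theorem coeff_ind_scl (m : τ → ℝ) (P : MvPolynomial τ ℝ) (A : Finset τ) :
    coeff (ind A) (scl m P) = (∏ a ∈ A, m a) * coeff (ind A) P := by
  rw [coeff_scl]
  exact congrArg (· * _) (prod_congr rfl fun a ha => by
    rw [ind_apply, if_pos ha]; exact pow_one _)

theorem ind_hom {P : MvPolynomial τ ℝ} {n : ℕ} (h : P.IsHomogeneous n) {A : Finset τ}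
    (z : coeff (ind A) P ≠ 0) : #A = n := by
  rw [← h z, Finsupp.weight_apply, Finsupp.sum, card_eq_sum_ones]
  exact sum_congr rfl fun a ha => by rw [ind_apply, if_pos (show a ∈ A from ha)]; rfl

theorem coeff_congr {Y Y' : ι → MvPolynomial τ ℝ} (P : MvPolynomial ι ℝ) {A : Finset τ}
    (h : ∀ c, ∀ B ⊆ A, coeff (ind B) (Y c) = coeff (ind B) (Y' c)) :
    coeff (ind A) (aeval Y P) = coeff (ind A) (aeval Y' P) := by
  induction P using MvPolynomial.induction_on generalizing A with
  | C r => rw [aeval_C, aeval_C]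
  | add p q hp hq => rw [map_add, map_add, coeff_add, coeff_add, hp h, hq h]
  | mul_X p c hp =>
    rw [map_mul, map_mul, aeval_X, aeval_X, coeff_ind_mul, coeff_ind_mul]
    exact sum_congr rfl fun B k => by
      rw [hp fun c B' b => h c B' (b.trans (mem_powerset.1 k)), h c _ sdiff_subset]

variable [Fintype τ]

theorem coeff_Yp (lev : ι → ℕ) (y : ι → Finset τ → ℝ) (c : ι) (B : Finset τ) :
    coeff (ind B) (Yp lev y c) = if #B = lev c then y c B else 0 := by
  rw [← sy_X, sy, aeval_X]

theorem Yp_hom (lev : ι → ℕ) (y : ι → Finset τ → ℝ) (c : ι) : (Yp lev y c).IsHomogeneous (lev c) :=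
  IsHomogeneous.sum _ _ _ fun B hB => isHomogeneous_monomial _ (by
    rw [← (mem_powersetCard.1 hB).2, Finsupp.degree_apply, card_eq_sum_ones]
    exact sum_congr rfl fun a ha => by rw [ind_apply, if_pos ha])

end Uf

open Uf

theorem uft : UFT := by
  intro τ T1 T2 θ x h e m Y F
  have := congrArg (aevalTower (scl e) fun G => scl m (Y G)) (h.eq F)
  rw [comp_aeval_apply] at this
  have k : ∀ P : MvPolynomial T2.C ℝ, aevalTower (scl e) (fun G => scl m (Y G))
      (MvPolynomial.map C P) = scl m (aeval Y P) := fun P => by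
    induction P using MvPolynomial.induction_on with
    | C r => simp [scl]
    | add p q hp hq => simp only [map_add, hp, hq]
    | mul_X p c hp => simp only [map_mul, hp, map_X, aevalTower_X, aeval_X]
  simp only [map_add, map_sum, map_mul, aevalTower_C, aevalTower_X, k, map_smul,
    smul_mul_assoc] at this
  exact this

theorem trc : TRC := by
  intro τ _ _ T p _ W Y P hW hp hY A hA
  refine coeff_congr P fun c B b => ?_
  rw [coeff_Yp]
  split_ifs with k
  · exact dif_pos ⟨hp c, hW A hA B b, k⟩
  · exact (of_not_not fun z => k (ind_hom (hY c) z)).symm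

end Crest.Agent.N49.Md

end
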