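import Crest.Agent.N49.Md.St
import Crest.Agent.N49.Rn.L1

/-!
# Row 49 (helper12): composition of substitutions
-/

set_option autoImplicit false

open Finset MvPolynomial

noncomputable section

namespace Crest.Agent.N49.Md

open Tw

namespace Tc

variable {τ : Type}

theorem scl_hom {R : Type} [CommRing R] (m : τ → R) {P : MvPolynomial τ R} {n : ℕ}
    (h : P.IsHomogeneous n) : (scl m P).IsHomogeneous n := by
  have := h.aeval (fun a => C (m a) * X a) (n := 1) fun a => (isHomogeneous_X R a).C_mul _
  rwa [one_mul] at this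

theorem zr_scl (m : τ → ℤ) (P : MvPolynomial τ ℤ) :
    zr (scl m P) = scl (fun a => (m a : ℝ)) (zr P) := by
  induction P using MvPolynomial.induction_on with
  | C a => simp [scl]
  | add p q hp hq => simp only [zr, map_add] at *; rw [hp, hq]
  | mul_X p c hp => simp only [zr, map_mul] at *; rw [hp]; simp [scl]

theorem zr_hom {P : MvPolynomial τ ℤ} {n : ℕ} (h : P.IsHomogeneous n) : (zr P).IsHomogeneous n :=
  h.map _

theorem smul_hom {P : MvPolynomial τ ℝ} {n : ℕ} (h : P.IsHomogeneous n) (c : ℝ) :
    (c • P).IsHomogeneous n := by rw [smul_eq_C_mul]; exact h.C_mul c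

theorem l1_scl {m : τ → ℝ} {y : ℝ} (hy : 1 ≤ y) (hm : ∀ a, |m a| ≤ y) {P : MvPolynomial τ ℝ}
    {n s : ℕ} (h : P.IsHomogeneous n) (e : n ≤ s) : l1 (scl m P) ≤ l1 P * y ^ s :=
  l1_aeval_hom (w := 1) (fun a => by rw [l1_C_mul, l1_X, mul_one]; exact hm a) hy
    (fun _ => one_pos) h e

/-- sums over composed families -/
theorem sum_bind {A B C M : Type} [Fintype B] [Fintype C] [DecidableEq A] [DecidableEq B]
    [AddCommMonoid M] (f : B → Option A) (f' : C → Option B) (F : A) (φ : B → C → M) :
    ∑ G with f G = some F, ∑ H with f' H = some G, φ G H =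
      ∑ H with (f' H).bind f = some F, (f' H).elim 0 fun G => φ G H := by
  simp only [sum_filter]
  have a : ∀ G, (if f G = some F then ∑ H, if f' H = some G then φ G H else 0 else 0) =
      ∑ H, if f G = some F then if f' H = some G then φ G H else 0 else 0 := fun G => by
    split_ifs <;> simp
  simp only [a]
  rw [sum_comm]
  refine sum_congr rfl fun H _ => ?_
  cases e : f' H with
  | none => simp
  | some G =>
    rw [sum_eq_single G (fun G' _ n => by simp [Ne.symm n]) (by simp)]
    simp

section alg
variable {R α β γ : Type} [CommRing R] [Algebra ℝ R]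

theorem map_ae (μ : R →ₐ[ℝ] R) (S : α → MvPolynomial β R) (P : MvPolynomial α ℝ) :
    MvPolynomial.map (μ : R →+* R) (aeval S P) =
      aeval (fun a => MvPolynomial.map (μ : R →+* R) (S a)) P := by
  induction P using MvPolynomial.induction_on with
  | C a => simp [MvPolynomial.algebraMap_apply]
  | add p q hp hq => simp only [map_add, hp, hq]
  | mul_X p c hp => simp only [map_mul, hp, aeval_X]

theorem map_mp (μ : R →ₐ[ℝ] R) (Q : MvPolynomial β ℝ) :
    MvPolynomial.map (μ : R →+* R) (MvPolynomial.map (algebraMap ℝ R) Q) =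
      MvPolynomial.map (algebraMap ℝ R) Q := by
  rw [MvPolynomial.map_map, μ.comp_algebraMap]

theorem ae_ae (B : β → MvPolynomial γ R) (S : α → MvPolynomial β R) (P : MvPolynomial α ℝ) :
    aeval B (aeval S P) = aeval (fun a => aeval B (S a)) P := by
  induction P using MvPolynomial.induction_on with
  | C a => simp [MvPolynomial.algebraMap_apply]
  | add p q hp hq => simp only [map_add, hp, hq]
  | mul_X p c hp => simp only [map_mul, hp, aeval_X]

variable [Fintype β] [Fintype γ] [DecidableEq α] [DecidableEq β]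

/-- the algebraic core -/
theorem core (μ : R →ₐ[ℝ] R) (f : β → Option α) (f' : γ → Option β) (mo : β → R) (mo' : γ → R)
    (sc : β → ℝ) (sc' : γ → ℝ) (be : α → R) (be' bu' : β → R) (bu : R) (P : MvPolynomial α ℝ)
    (Φ : β → MvPolynomial β ℝ) (Φ' : γ → MvPolynomial γ ℝ) (F : α)
    (h : aeval (fun F' => (C (be F') + ∑ G with f G = some F', C (mo G) * X G : MvPolynomial β R)) P =
      C bu + ∑ G with f G = some F, C (sc G • mo G) * MvPolynomial.map (algebraMap ℝ R) (Φ G))
    (h' : ∀ G, aeval (fun G' => (C (be' G') + ∑ H with f' H = some G', C (mo' H) * X H :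
      MvPolynomial γ R)) (Φ G) = C (bu' G) + ∑ H with f' H = some G,
        C (sc' H • mo' H) * MvPolynomial.map (algebraMap ℝ R) (Φ' H)) :
    aeval (fun F' => (C (be F' + ∑ G with f G = some F', mo G * μ (be' G)) +
      ∑ H with (f' H).bind f = some F', C ((f' H).elim 0 mo * μ (mo' H)) * X H :
        MvPolynomial γ R)) P = C (bu + ∑ G with f G = some F, sc G • mo G * μ (bu' G)) +
      ∑ H with (f' H).bind f = some F, C (((f' H).elim 0 sc * sc' H) •
        ((f' H).elim 0 mo * μ (mo' H))) * MvPolynomial.map (algebraMap ℝ R) (Φ' H) := by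
  let B : β → MvPolynomial γ R := fun G => C (μ (be' G)) + ∑ H with f' H = some G, C (μ (mo' H)) * X H
  have k : ∀ G, aeval B (MvPolynomial.map (algebraMap ℝ R) (Φ G)) = C (μ (bu' G)) +
      ∑ H with f' H = some G, C (sc' H • μ (mo' H)) * MvPolynomial.map (algebraMap ℝ R) (Φ' H) :=
    fun G => by
      have e := congrArg (MvPolynomial.map (μ : R →+* R)) (h' G)
      rw [map_ae] at e
      simp only [map_add, map_sum, map_mul, map_C, map_X, map_mp, RingHom.coe_coe, map_smul] at e
      rw [aeval_map_algebraMap]; exact e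
  have e := congrArg (aeval B) h
  rw [ae_ae] at e
  simp only [map_add, map_sum, map_mul, aeval_C, aeval_X, algebraMap_eq, k] at e
  refine Eq.trans (congrArg (fun S => aeval S P) (funext fun F' => ?_)) (e.trans ?_)
  · simp only [B, mul_add, sum_add_distrib, mul_sum, map_add, map_sum, map_mul]
    rw [add_assoc, sum_bind]
    congr 2
    refine sum_congr rfl fun H _ => ?_
    cases f' H with
    | none => simp
    | some G => simp only [Option.elim]; rw [mul_assoc]
  · simp only [mul_add, sum_add_distrib, mul_sum, map_add, map_sum, map_mul]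
    rw [add_assoc, sum_bind]
    congr 2
    refine sum_congr rfl fun H _ => ?_
    cases f' H with
    | none => simp
    | some G =>
      simp only [Option.elim]
      rw [← mul_assoc, ← map_mul, smul_mul_smul_comm]
end alg

theorem bind_eq {A B : Type} {o : Option B} {f : B → Option A} {F : A} (h : o.bind f = some F) :
    ∃ G, o = some G ∧ f G = some F := Option.bind_eq_some_iff.1 h

end Tc

open Tc in
/-- **composition of substitutions** -/
theorem tcmp : TCMP := by
  intro τ T1 T2 T3 θ θ' m x x' y s h h' hx hx' hy hm hs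
  have ys : 1 ≤ y ^ s := one_le_pow₀ hy
  refine ⟨fun F H e => ?_, fun F => ?_, fun F => ?_, fun F => ?_, fun F H e l => ?_, fun H => ?_,
    fun F => ?_⟩
  · obtain ⟨G, a, b⟩ := bind_eq e
    obtain ⟨l1, m1⟩ := h.le F G b
    obtain ⟨l2, m2⟩ := h'.le G H a
    refine ⟨l2.trans l1, ?_⟩
    have := m1.mul (scl_hom m m2)
    rw [show T1.lev F - T2.lev G + (T2.lev G - T3.lev H) = T1.lev F - T3.lev H by omega] at this
    simpa only [Tan.comp, a, Option.elim] using this
  · refine (h.be F).add (IsHomogeneous.sum _ _ _ fun G g => ?_)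
    obtain ⟨l1, m1⟩ := h.le F G (mem_filter.1 g).2
    have := m1.mul (scl_hom m (h'.be G))
    rwa [Nat.sub_add_cancel l1] at this
  · refine (h.bu F).add (IsHomogeneous.sum _ _ _ fun G g => ?_)
    obtain ⟨l1, m1⟩ := h.le F G (mem_filter.1 g).2
    have := (smul_hom (zr_hom m1) (θ.sc G)).mul (scl_hom (fun a => (m a : ℝ)) (h'.bu G))
    rwa [Nat.sub_add_cancel l1] at this
  · obtain ⟨a, b, c, d⟩ := h.top F
    obtain ⟨a', b', c', d'⟩ := h'.top (θ.top F)
    simp only [Tan.comp, Function.comp, a', b', Option.bind, Option.elim, a, b, map_one, mul_one,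
      d', d, true_and, and_true]
    have x0 : 0 < x⁻¹ := by positivity
    have x1 : 0 < x'⁻¹ := by positivity
    rw [mul_inv, mul_inv]
    exact (mul_le_of_le_one_right (by positivity) (inv_le_one_of_one_le₀ ys)).trans
      (mul_le_mul c c' x1.le (x0.le.trans c))
  · obtain ⟨G, a, b⟩ := bind_eq e
    have l1 := (h.le F G b).1
    have l2 := (h'.le G H a).1
    obtain rfl := h.uq F G b (by omega)
    exact h'.uq _ H a (by omega)
  · have p : 0 ≤ x * x' := by positivity
    cases a : θ'.fam H with
    | none =>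
      simp only [Tan.comp, a, Option.elim, zero_mul, abs_zero, zr, map_zero, l1_zero]
      exact ⟨by positivity, by positivity⟩
    | some G =>
      simp only [Tan.comp, a, Option.elim, abs_mul]
      refine ⟨(mul_le_mul (h.bd G).1 (h'.bd H).1 (abs_nonneg _) (by positivity)).trans
        (le_mul_of_one_le_right p ys), ?_⟩
      rw [show zr (θ.mon G * scl m (θ'.mon H)) = zr (θ.mon G) * zr (scl m (θ'.mon H)) from
        map_mul _ _ _, zr_scl, mul_assoc]
      exact (l1_mul _ _).trans (mul_le_mul (h.bd G).2
        ((l1_scl hy hm (zr_hom (h'.le G H a).2) ((Nat.sub_le _ _).trans (hs G))).trans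
          (mul_le_mul_of_nonneg_right (h'.bd H).2 (by positivity))) (l1_nonneg _) (by positivity))
  · have e := core (scl fun a => (m a : ℝ)) θ.fam θ'.fam (fun G => zr (θ.mon G))
      (fun H => zr (θ'.mon H)) θ.sc θ'.sc (fun F => zr (θ.be F)) (fun G => zr (θ'.be G)) θ'.bu
      (θ.bu F) (T1.Φ F) T2.Φ T3.Φ F (h.eq F) h'.eq
    have a : ∀ H, zr ((θ.comp θ' m).mon H) = (θ'.fam H).elim 0 (fun G => zr (θ.mon G)) *
        scl (fun a => (m a : ℝ)) (zr (θ'.mon H)) := fun H => by
      rw [← zr_scl]
      refine (map_mul _ _ _).trans (congrArg (· * _) ?_)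
      cases θ'.fam H with
      | none => exact map_zero _
      | some G => rfl
    have b : ∀ F, zr ((θ.comp θ' m).be F) = zr (θ.be F) + ∑ G with θ.fam G = some F,
        zr (θ.mon G) * scl (fun a => (m a : ℝ)) (zr (θ'.be G)) := fun F => by
      simp only [← zr_scl]
      simp only [Tan.comp, zr, map_add, map_sum, map_mul]
    simp only [a, b]
    exact e

end Crest.Agent.N49.Md

end
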