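import Crest.Agent.N49.Md.Fw
import Crest.Agent.N49.Md.Tcmp
import Crest.Agent.N49.Md.Idf
import Crest.Agent.N49.Sd.Stcp

/-!
# Row 49 (helper90): forward sizes along compositions and iterated tangent frames
-/

set_option autoImplicit false
set_option linter.unusedSectionVars false

open Finset Matrix MvPolynomial

noncomputable section

namespace Crest.Agent.N49.Md

open Tw

variable {τ L : Type} {T0 : TS Unit} {s h n n' ν ν' : ℕ}

theorem Fr.Fw.mono {f : Fr T0 τ L} (a : f.Fw ν n) (e : n ≤ n') : f.Fw ν n' :=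
  have p : (2 : ℝ) ^ n ≤ 2 ^ n' := pow_le_pow_right₀ one_le_two e
  ⟨a.one, a.m, fun ℓ => ⟨(one_div_le_one_div_of_le (by positivity) p).trans (a.la ℓ).1,
    (a.la ℓ).2.trans p⟩, a.ne, fun G F k => (a.bd G F k).trans p⟩

theorem fw_id {B : Bs L} (o : B.Ok s n) : (B.fr τ).Fw 1 n :=
  ⟨le_rfl, rfl, o.la, fun _ _ _ => one_ne_zero, fun G F _ => by
    show |(1 : ℝ)| * l1 (zr (1 : MvPolynomial τ ℤ)) * ((1 : ℕ) : ℝ) ^ B.T.lev G ≤ _
    simpa [zr] using (one_le_pow₀ one_le_two : (1 : ℝ) ≤ 2 ^ n)⟩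

theorem Fr.Fw.comp {f : Fr T0 τ L} {f' : Fr f.T τ L} {x : ℝ} (a : f.Fw ν n) (b : f'.Fw ν' n')
    (o : f'.θ.Ok x) (blk : τ → L) : (f.comp f' blk).Fw (ν * ν') (n + n') := by
  have p : (2 : ℝ) ^ n' ≤ 2 ^ (n + n') := pow_le_pow_right₀ one_le_two (by omega)
  refine ⟨Nat.mul_pos a.one b.one, ?_, fun ℓ => ⟨(one_div_le_one_div_of_le (by positivity) p).trans
    (b.la ℓ).1, (b.la ℓ).2.trans p⟩, fun G F k => ?_, fun G F k => ?_⟩
  · show f.m * f'.m = _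
    rw [a.m, b.m]; rfl
  · obtain ⟨G', c, d⟩ := Option.bind_eq_some_iff.1 k
    show (f'.θ.fam G).elim 0 f.θ.sc * f'.θ.sc G ≠ 0
    rw [c]; exact mul_ne_zero (a.ne _ _ d) (b.ne _ _ c)
  · obtain ⟨G', c, d⟩ := Option.bind_eq_some_iff.1 k
    show |(f'.θ.fam G).elim 0 f.θ.sc * f'.θ.sc G| * l1 (zr ((f'.θ.fam G).elim 0 f.θ.mon *
      scl (fun t => (f.m (blk t) : ℤ)) (f'.θ.mon G))) * ((ν * ν' : ℕ) : ℝ) ^ f'.T.lev G ≤ _
    have n1 : (1 : ℝ) ≤ ν := by exact_mod_cast a.one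
    obtain ⟨le, hm⟩ := o.le _ _ c
    have u := Tc.l1_scl (m := fun t => (((f.m (blk t) : ℤ)) : ℝ)) n1
      (fun t => by simp [a.m]) (Tc.zr_hom hm) le_rfl
    have v : l1 (zr (f.θ.mon G' * scl (fun t => (f.m (blk t) : ℤ)) (f'.θ.mon G))) ≤
        l1 (zr (f.θ.mon G')) * (l1 (zr (f'.θ.mon G)) * ν ^ (f.T.lev G' - f'.T.lev G)) := by
      rw [zr, map_mul]
      refine (l1_mul _ _).trans (mul_le_mul_of_nonneg_left ?_ (l1_nonneg _))
      exact (congrArg l1 (Tc.zr_scl _ _)).trans_le u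
    have w : (ν : ℝ) ^ f.T.lev G' = ν ^ (f.T.lev G' - f'.T.lev G) * ν ^ f'.T.lev G := by
      rw [← pow_add, Nat.sub_add_cancel le]
    have := mul_le_mul (a.bd _ _ d) (b.bd _ _ c)
      (by have := l1_nonneg (zr (f'.θ.mon G)); positivity) (by positivity)
    rw [c, Option.elim_some, Option.elim_some, pow_add]
    refine le_trans ?_ this
    refine (mul_le_mul_of_nonneg_right (mul_le_mul_of_nonneg_left v (abs_nonneg _))
      (by positivity)).trans_eq ?_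
    rw [w, abs_mul, Nat.cast_mul, mul_pow]; ring

theorem fw_ok {f : Fr T0 τ L} (o : f.Ok s h) (m : f.m = 1)
    (ne : ∀ G F, f.θ.fam G = some F → f.θ.sc G ≠ 0) : f.Fw 1 (2 * h) :=
  have p : (2 : ℝ) ^ h ≤ 2 ^ (2 * h) := pow_le_pow_right₀ one_le_two (by omega)
  ⟨le_rfl, m, fun ℓ => ⟨(one_div_le_one_div_of_le (by positivity) p).trans (o.la ℓ).1,
    (o.la ℓ).2.trans p⟩, ne, fun G F _ => by
      rw [Nat.cast_one, one_pow, mul_one, two_mul, pow_add]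
      exact mul_le_mul (o.θ.bd G).1 (o.θ.bd G).2 (l1_nonneg _) (by positivity)⟩

variable [Fintype τ] [DecidableEq τ] [Fintype L] [DecidableEq L] {B : Bs L} {blk : τ → L}
  {f : Fr B.T τ L}

theorem Tg.m (t : Tg B blk s f) : f.m = 1 := by
  induction t with
  | id => rfl
  | tan lam la' J b hp _ _ _ ih => exact (congrArg (· * 1) ih).trans (mul_one _)

theorem Tg.ne (t : Tg B blk s f) : ∀ G F, f.θ.fam G = some F → f.θ.sc G ≠ 0 := by
  induction t with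
  | id => exact fun _ _ _ => one_ne_zero
  | @tan f lam la' J b hp _ _ hl ih =>
    intro G F k
    exact mul_ne_zero (ih G.1.1 F k) (inv_ne_zero (prod_pos fun _ _ => hl _).ne')

theorem lam_lo {lam : L → ℝ} (hl : ∀ ℓ, 0 < lam ℓ) : ∃ h : ℕ, ∀ ℓ, 1 / 2 ^ h ≤ lam ℓ := by
  have : ∀ ℓ, ∃ h : ℕ, (1 / 2 : ℝ) ^ h < lam ℓ := fun ℓ =>
    exists_pow_lt_of_lt_one (hl ℓ) one_half_lt_one
  choose g a using this
  refine ⟨∑ ℓ, g ℓ, fun ℓ => le_trans ?_ (a ℓ).le⟩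
  rw [_root_.one_div_pow]
  exact one_div_le_one_div_of_le (by positivity) (pow_le_pow_right₀ one_le_two
    (single_le_sum (f := g) (fun _ _ => Nat.zero_le _) (mem_univ ℓ)))

theorem Tg.ok (tb : TFB) (tc : TCMP) (t : Tg B blk s f) : ∃ x : ℝ, 1 ≤ x ∧ f.θ.Ok x := by
  induction t with
  | id => exact ⟨1, le_rfl, Idf.id_ok _ _ le_rfl⟩
  | @tan f lam la' J b hp t o hl ih =>
    obtain ⟨x, x1, k⟩ := ih
    obtain ⟨h, e⟩ := lam_lo hl
    have p : (1 : ℝ) ≤ 2 ^ (h * s) := one_le_pow₀ one_le_two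
    exact ⟨x * 2 ^ (h * s) * 1 ^ s, by rw [one_pow, mul_one]; exact one_le_mul_of_one_le_of_one_le x1 p,
      tc τ _ _ _ f.θ _ _ x _ 1 s k (tb τ L f.T s h blk lam J b hp o.ok o.lev e) x1 p le_rfl
        (fun a => by simp [t.m]) o.lev⟩

theorem Tg.st (tb : TFB) (tc : TCMP) (sc : Sd.STC) (st : Sd.STT) (t : Tg B blk s f) :
    f.θ.St B.st f.st := by
  induction t with
  | id => exact Tan.St.id' _ _ _
  | @tan f lam la' J b hp t o hl ih =>
    obtain ⟨x, -, k⟩ := t.ok tb tc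
    exact sc τ _ _ _ f.θ _ _ x _ _ _ k ih (st τ L f.toBs blk lam s J b hp la' 1 o hl)

theorem fw_tg (o : f.Ok s h) (t : Tg B blk s f) : f.Fw 1 (2 * h) := fw_ok o t.m t.ne

/-- the tangent frame -/
theorem fw_tf {lam la' : L → ℝ} {J : Finset L} {b : B.T.Cw (bg blk lam s J) → ℤ}
    {hp : ∀ c, 0 < B.T.lev c} {k : ℕ} (tb : TFB) (o : B.T.Ok) (lv : ∀ c, B.T.lev c ≤ s)
    (hl : ∀ ℓ, 1 / 2 ^ h ≤ lam ℓ) (la : ∀ ℓ, 1 / 2 ^ n ≤ la' ℓ ∧ la' ℓ ≤ 2 ^ n) (n1 : 1 ≤ ν)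
    (n2 : ν ≤ 2 ^ k) (e : (2 * h + k) * s ≤ n) :
    (tf B blk lam s J b hp la' fun _ => ν).Fw ν n := by
  have z := tb τ L B.T s h blk lam J b hp o lv hl
  refine ⟨n1, rfl, la, fun G _ _ => inv_ne_zero (prod_pos fun _ _ =>
    lt_of_lt_of_le (by positivity) (hl _)).ne', fun G F c => ?_⟩
  have a : (ν : ℝ) ^ (tT blk lam B.T s J b).lev G ≤ 2 ^ (k * s) := by
    rw [pow_mul]
    exact (pow_le_pow_left₀ (by positivity) (by exact_mod_cast n2) _).trans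
      (pow_le_pow_right₀ (one_le_pow₀ one_le_two) ((z.le _ _ c).1.trans (lv F)))
  refine (mul_le_mul (mul_le_mul (z.bd G).1 (z.bd G).2 (l1_nonneg _) (by positivity)) a
    (by positivity) (by positivity)).trans ?_
  rw [← pow_add, ← pow_add]
  exact pow_le_pow_right₀ one_le_two (by linarith)

end Crest.Agent.N49.Md

end
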