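import Crest.Agent.N49.Md.Szb
import Crest.Agent.N49.Tn.Tay
import Crest.Agent.N49.Tn.Sz
import Crest.Agent.N49.Rn.L1
import Crest.Agent.N49.En.Resw

/-!
# Row 49 (helper49): Taylor's formula for the tangent frame (leaf TFB)
-/

set_option autoImplicit false
set_option linter.unusedSectionVars false

open Finset Matrix MvPolynomial

noncomputable section

namespace Crest.Agent.N49.Md

open Tw Rm Sy Po

namespace Tb

variable {τ L : Type} [Fintype τ] [DecidableEq τ] [Fintype L] [DecidableEq L] {blk : τ → L}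
  {lam : L → ℝ} {s h : ℕ} {J : Finset L}

theorem mr_ok (hl : ∀ ℓ, 0 < lam ℓ) {U : Finset (τ →₀ ℕ)} (hU : Dn U) : (mr blk lam U).Ok :=
  En.mono_dk_ok hU fun μ _ => by have := Sb.kw_pos (blk := blk) hl μ; positivity

theorem bg_ok (hl : ∀ ℓ, 0 < lam ℓ) : (bg blk lam s J).Ok :=
  Mh.sub_ok (mr_ok hl dn_full) (Sb.idl _ J)

theorem ow_od (o : Option (bg blk lam s J).W) : (ow blk lam o).degree = (bg blk lam s J).od o := by
  rcases o with _ | w
  · exact map_zero _
  · rfl

theorem ow_inj : Function.Injective (ow blk lam (s := s) (J := J)) := by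
  rintro (_ | w) (_ | w') e
  · rfl
  · exact absurd e.symm (Sh.MW.ne w'.1)
  · exact absurd e (Sh.MW.ne w.1)
  · exact congrArg _ (Subtype.ext (Subtype.ext e))

theorem ow_surj {μ : τ →₀ ℕ} (d : μ.degree ≤ s) (k : inJ blk J μ) :
    ∃ o : Option (bg blk lam s J).W, ow blk lam o = μ := by
  by_cases z : μ = 0
  · exact ⟨none, z.symm⟩
  · exact ⟨some ⟨⟨μ, mem_erase.2 ⟨z, mem_full.2 d⟩⟩, k⟩, rfl⟩

theorem ru_bg (o : Option (bg blk lam s J).W) (m : (bg blk lam s J).W →₀ ℕ) :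
    (bg blk lam s J).ru o m =
      if Finsupp.weight (bg blk lam s J).ty m = ow blk lam o then 1 else 0 := by
  rcases o with _ | w
  · refine if_congr ⟨fun e => e ▸ map_zero _, fun e => of_not_not fun n => ?_⟩ rfl rfl
    obtain ⟨a, ha⟩ := Finsupp.ne_iff.1 n
    exact Sh.MW.ne a.1 (le_zero_iff.1 ((le_weight (bg blk lam s J).ty
      (Finsupp.mem_support_iff.2 ha)).trans_eq e))
  · exact if_congr (Eq.congr_left (Mh.weight_mapDomain _ _ _)) rfl rfl

theorem inJ_wt (m : (bg blk lam s J).W →₀ ℕ) :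
    inJ blk J (Finsupp.weight (bg blk lam s J).ty m) := fun a k => by
  rw [Finsupp.mem_support_iff, Finsupp.weight_apply, Finsupp.sum, Finsupp.finsetSum_apply] at k
  obtain ⟨w, -, z⟩ := exists_ne_zero_of_sum_ne_zero k
  exact w.2 a (Finsupp.mem_support_iff.2 fun e => z (smul_eq_zero_of_right _ e))

theorem kw_inv (hl : ∀ ℓ, 1 / 2 ^ h ≤ lam ℓ) {μ : τ →₀ ℕ} (hμ : μ.degree ≤ s) :
    (kw blk lam μ)⁻¹ ≤ 2 ^ (h * s) := by
  rw [kw, ← prod_inv_distrib]
  calc _ ≤ ∏ _a ∈ μ.support, (2 : ℝ) ^ h := prod_le_prod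
        (fun _ _ => inv_nonneg.2 (le_trans (by positivity) (hl _)))
        fun _ _ => inv_le_of_inv_le₀ (by positivity) (by simpa using hl _)
    _ = (2 ^ h) ^ #μ.support := prod_const _
    _ ≤ (2 ^ h) ^ s := pow_le_pow_right₀ (one_le_pow₀ one_le_two) ((Sb.supp_le μ).trans hμ)
    _ = _ := (pow_mul _ _ _).symm

theorem tT_Φ (T : TS Unit) (b : T.Cw (bg blk lam s J) → ℤ) (x : T.Tc (bg blk lam s J)) :
    (tT blk lam T s J b).Φ x = (C (kw blk lam (ow blk lam x.1.2)) * (t0 blk lam T s J b).Φ x :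
      MvPolynomial (t0 blk lam T s J b).C ℝ) :=
  (sum_eq_single (M := MvPolynomial (t0 blk lam T s J b).C ℝ) x
    (fun _ _ n => mul_eq_zero_of_left ((congrArg C (diagonal_apply_ne' _ n)).trans C_0) _)
    fun n => absurd (mem_univ _) n).trans (congrArg (fun a => C a * _) (diagonal_apply_eq _ _))

theorem zr_mon (μ : τ →₀ ℕ) (a : ℤ) : zr (monomial μ a) = monomial μ (a : ℝ) := map_monomial _ _ _

theorem tT_lev (T : TS Unit) (b : T.Cw (bg blk lam s J) → ℤ) (x : T.Tc (bg blk lam s J)) :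
    (tT blk lam T s J b).lev x = T.nl _ x := Finsupp.degree_single _ _

theorem tay {T : TS Unit} (b : T.Cw (bg blk lam s J) → ℤ) (l0 : ∀ ℓ, 0 < lam ℓ) (hT : T.Ok)
    {F : T.C} (hp : 0 < T.lev F) (hs : T.lev F ≤ s) :
    aeval (fun G => (C (zr (∑ p : T.Cw (bg blk lam s J) with p.1.1 = G,
      monomial ((bg blk lam s J).ty p.1.2) (b p))) + ∑ x : T.Tc (bg blk lam s J) with x.1.1 = G,
        C (zr (monomial (ow blk lam x.1.2) 1)) * X x :
          MvPolynomial (T.Tc (bg blk lam s J)) (MvPolynomial τ ℝ))) (T.Φ F) =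
    C (∑ p : T.Cw (bg blk lam s J) with p.1.1 = F, monomial ((bg blk lam s J).ty p.1.2)
      ((T.tw _ (T.tw0 _)).u (zc b) p)) + ∑ x : T.Tc (bg blk lam s J) with x.1.1 = F,
      C (monomial (ow blk lam x.1.2) 1) * aeval X ((t0 blk lam T s J b).Φ x) := by
  have o : (bg blk lam s J).Ok := bg_ok l0
  have el : ∀ o : Option (bg blk lam s J).W, o.elim 1 (fun w => (C (monomial
      ((bg blk lam s J).ty w) 1) : MvPolynomial (T.Tc (bg blk lam s J)) (MvPolynomial τ ℝ))) =
      C (monomial (ow blk lam o) 1) := by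
    rintro (_ | w) <;> rfl
  have t := TS.taylor (v := vv blk lam s J) (b := b) o (TS.adm_tw0' hT.toTri hT.tri o)
    (fun w => (C (monomial ((bg blk lam s J).ty w) 1) :
      MvPolynomial (T.Tc (bg blk lam s J)) (MvPolynomial τ ℝ))) hp (fun m k => by
      obtain ⟨o, e⟩ := ow_surj (lam := lam) (((weight_hom Finsupp.degree _ m).symm.trans_le
        k).trans hs) (inJ_wt m)
      rw [sum_eq_single o (fun o' _ n => by
        rw [ru_bg, if_neg fun z => n (ow_inj (z.symm.trans e.symm)), Int.cast_zero, zero_mul])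
        fun n => absurd (mem_univ _) n, ru_bg, if_pos e.symm, Int.cast_one, one_mul, el, e,
        Finsupp.weight_apply, Finsupp.sum, monomial_sum_one, map_prod]
      exact prod_congr rfl fun w _ => (map_pow _ _ _).symm.trans
        (by rw [monomial_pow, one_pow])) X
  rw [TS.tw0_hom fun m k => by rw [TS.weight_lev, hT.hom F (mem_support_iff.1 k)]; rfl,
    eval₂_map] at t
  simp only [el] at t
  refine Eq.trans (congrArg₂ (fun f Y => eval₂ f Y (T.Φ F))
    (RingHom.ext fun a => (aeval_C _ _).symm) (funext fun G => congrArg₂ _ ?_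
      (sum_congr rfl fun x _ => by rw [zr_mon, Int.cast_one]))) (t.trans (congrArg (· + _) ?_))
  · rw [zr, map_sum, map_sum]
    refine sum_congr rfl fun p _ => ?_
    rw [map_monomial, ← zsmul_eq_mul, ← map_zsmul, ← map_zsmul, zsmul_one]; rfl
  · rw [map_sum]
    refine sum_congr rfl fun p _ => ?_
    rw [MvPolynomial.algebraMap_apply, algebraMap_eq, ← map_mul, C_mul_monomial, mul_one]; rfl

theorem scale {ι : Type} (μ : τ →₀ ℕ) {k : ℝ} (hk : k ≠ 0) (P : MvPolynomial ι ℝ) :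
    (C (monomial μ 1) * aeval X P : MvPolynomial ι (MvPolynomial τ ℝ)) =
      C (k⁻¹ • zr (monomial μ 1)) * MvPolynomial.map C (C k * P) := by
  rw [map_mul, map_C, ← mul_assoc, ← map_mul, zr_mon, Int.cast_one, mul_comm _ (C k), C_mul' (a := k),
    smul_smul, mul_inv_cancel₀ hk, one_smul]
  refine congrArg _ ?_
  induction P using MvPolynomial.induction_on <;> simp [*]

end Tb
open Tb

theorem tfb : TFB := fun τ L _ _ _ _ T s h blk lam J b hp hT hs hl => by
  have l0 : ∀ ℓ, 0 < lam ℓ := fun ℓ => lt_of_lt_of_le (by positivity) (hl ℓ)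
  have o : (bg blk lam s J).Ok := bg_ok l0
  have x1 : (1 : ℝ) ≤ 2 ^ (h * s) := one_le_pow₀ one_le_two
  refine ⟨fun F (x : T.Tc (bg blk lam s J)) e => ?_, fun F => ?_, fun F => ?_,
    fun F => ⟨rfl, rfl, ?_, tT_lev T b _⟩, fun F (x : T.Tc (bg blk lam s J)) e k => ?_,
    fun x : T.Tc (bg blk lam s J) => ⟨?_, ?_⟩, fun F => ?_⟩
  · obtain rfl : x.1.1 = F := Option.some.inj e
    have a := TS.nl_add x
    rw [tT_lev]
    exact ⟨by omega, isHomogeneous_monomial _ ((ow_od _).trans (by omega))⟩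
  · exact IsHomogeneous.sum _ _ _ fun p k => isHomogeneous_monomial _
      ((mem_flt.1 k).2 ▸ (TS.lev_cw p).symm)
  · exact IsHomogeneous.sum _ _ _ fun p k => isHomogeneous_monomial _
      ((mem_flt.1 k).2 ▸ (TS.lev_cw p).symm)
  · change _ ≤ (∏ a ∈ (0 : τ →₀ ℕ).support, lam (blk a))⁻¹
    simpa using inv_le_one_of_one_le₀ x1
  · obtain rfl : x.1.1 = F := Option.some.inj e
    have a := TS.nl_add x
    rw [tT_lev] at k
    exact Subtype.ext (Prod.ext rfl (Tz.od_eq o (by omega)))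
  · exact (abs_of_pos (inv_pos.2 (Sb.kw_pos l0 _))).trans_le (kw_inv hl (Sb.ow_deg _))
  · change l1 (zr (monomial _ 1)) ≤ _
    rw [zr_mon, l1_monomial]; simpa using x1
  refine Eq.trans (congrArg (fun Y => aeval Y (T.Φ F)) (funext fun G => congrArg _
    (sum_congr (Finset.ext fun _ => ⟨fun k => mem_flt.2 ⟨mem_univ _, Option.some.inj
      (mem_flt.1 k).2⟩, fun k => mem_flt.2 ⟨mem_univ _, congrArg some (mem_flt.1 k).2⟩⟩) fun _ _ => rfl)))
    ((tay b l0 hT (hp F) (hs F)).trans (congrArg _ (sum_congr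
      (Finset.ext fun _ => ⟨fun k => mem_flt.2 ⟨mem_univ _, congrArg some (mem_flt.1 k).2⟩,
        fun k => mem_flt.2 ⟨mem_univ _, Option.some.inj (mem_flt.1 k).2⟩⟩) fun x _ => ?_)))
  exact (scale _ (Sb.kw_pos l0 _).ne' _).trans
    (congrArg (fun P => _ * MvPolynomial.map C P) (tT_Φ T b x).symm)

end Crest.Agent.N49.Md

end
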