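import Crest.Agent.N49.Md.St
import Crest.Agent.N49.Tw.ConM
import Crest.Agent.N49.Sy.Ssz
import Crest.Agent.N49.En.CntA

/-!
# Row 49 (helper11): sizes of the monomial rings (leaf SZB)
-/

set_option autoImplicit false
set_option linter.unusedSectionVars false

open Finset Matrix MvPolynomial

noncomputable section

namespace Crest.Agent.N49.Md

open Tw Rm Sy Po

namespace Sb

variable {τ L : Type} [Fintype τ] [DecidableEq τ] [Fintype L] [DecidableEq L] {blk : τ → L}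
  {lam : L → ℝ} {s h : ℕ}

theorem supp_le (μ : τ →₀ ℕ) : #μ.support ≤ μ.degree := by
  rw [Finsupp.degree_apply, card_eq_sum_ones]
  exact sum_le_sum fun a k => Nat.pos_of_ne_zero (Finsupp.mem_support_iff.1 k)

theorem deg_ind' (B : Finset τ) : (ind B).degree = #B := by
  rw [Finsupp.degree_apply, card_eq_sum_ones]
  exact sum_congr rfl fun a k => if_pos k

theorem kw_pos (hl : ∀ ℓ, 0 < lam ℓ) (μ : τ →₀ ℕ) : 0 < kw blk lam μ := prod_pos fun _ _ => hl _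

theorem kw_le (hl : ∀ ℓ, 0 < lam ℓ ∧ lam ℓ ≤ 2 ^ h) {μ : τ →₀ ℕ} (hμ : μ.degree ≤ s) :
    kw blk lam μ ≤ 2 ^ (h * s) := by
  calc kw blk lam μ ≤ ∏ _a ∈ μ.support, (2 : ℝ) ^ h :=
        prod_le_prod (fun _ _ => (hl _).1.le) fun _ _ => (hl _).2
    _ = (2 ^ h) ^ #μ.support := prod_const _
    _ ≤ (2 ^ h) ^ s := pow_le_pow_right₀ (one_le_pow₀ one_le_two) ((supp_le μ).trans hμ)
    _ = _ := (pow_mul _ _ _).symm

theorem le_kw (hl : ∀ ℓ, 0 < lam ℓ ∧ lam ℓ ≤ 2 ^ h) {μ : τ →₀ ℕ} (hμ : μ.degree ≤ s) :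
    1 / 2 ^ (2 * h * s) ≤ (kw blk lam μ ^ 2)⁻¹ := by
  have h0 := kw_pos (blk := blk) (fun ℓ => (hl ℓ).1) μ
  rw [one_div]
  refine inv_anti₀ (by positivity) ?_
  rw [show 2 * h * s = h * s * 2 by ring, pow_mul]
  exact pow_le_pow_left₀ h0.le (kw_le hl hμ) 2

theorem mr_sz (hl : ∀ ℓ, 0 < lam ℓ ∧ lam ℓ ≤ 2 ^ h) {n : ℕ} {a : ℝ}
    (hn : (Fintype.card τ + 1) ^ s ≤ n) (ha : a ≤ 1 / 2 ^ (2 * h * s)) {U : Finset (τ →₀ ℕ)}
    (hU : Dn U) (hs : U ⊆ full τ s) : (mr blk lam U).Sz n a := by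
  have k : KB U (dk fun μ => (kw blk lam μ ^ 2)⁻¹) (1 / 2 ^ (2 * h * s))
      (∑ μ ∈ U, (kw blk lam μ ^ 2)⁻¹) := kb_dk fun μ k =>
    ⟨le_kw hl (mem_full.1 (hs k)),
      single_le_sum (f := fun μ => (kw blk lam μ ^ 2)⁻¹) (fun _ _ => by positivity) k⟩
  have z : (mr blk lam U).Sz n (1 / 2 ^ (2 * h * s)) := Sh.mono_sz hU k (by positivity)
    (Sh.dk_blk _) (((card_le_card hs).trans (En.card_full τ s)).trans hn)
  exact { z with lo := fun x => le_trans (by gcongr) (z.lo x) }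

theorem idl (U : Finset (τ →₀ ℕ)) (J : Finset L) : (mr blk lam U).Idl fun w => inJ blk J w.1 :=
  Sh.mono_idl fun _ _ h k a z => h a (Finsupp.support_mono k z)

theorem gen {U : Finset (τ →₀ ℕ)} (hU : Dn U) (J : Finset L) :
    (mr blk lam U).Gen fun w => inJ blk J w.1 :=
  Sh.mono_gen hU fun w n => by
    simp only [inJ, not_forall] at n
    obtain ⟨a, k, n⟩ := n
    exact ⟨a, Finsupp.mem_support_iff.1 k, fun _ z => n (z a (by simp))⟩

theorem ow_deg {J : Finset L} (o : Option (bg blk lam s J).W) : (ow blk lam o).degree ≤ s := by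
  rcases o with _ | w
  · simp [ow]
  · exact mem_full.1 (mem_of_mem_erase w.1.2)

theorem tk (hl : ∀ ℓ, 0 < lam ℓ ∧ lam ℓ ≤ 2 ^ h) {a : ℝ} (ha : a ≤ 1 / 2 ^ (2 * h * s))
    (J : Finset L) : (bg blk lam s J).Tk (vv blk lam s J) a where
  pd := PosDef.diagonal fun o => by
    have := kw_pos (blk := blk) (fun ℓ => (hl ℓ).1) (ow blk lam o)
    positivity
  blk o o' z := by rw [of_not_not fun n => z (diagonal_apply_ne _ n)]
  lo x := by
    rw [vv, qf, mul_sum, dotProduct]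
    refine sum_le_sum fun o _ => ?_
    rw [mulVec_diagonal]
    nlinarith [ha.trans (le_kw (blk := blk) hl (ow_deg o)), sq_nonneg (x o)]

theorem img {W : Finset (Finset τ)} (hW : Wf s W blk) : W.image ind ⊆ full τ s := fun μ k => by
  obtain ⟨B, hB, rfl⟩ := mem_image.1 k
  exact mem_full.2 ((deg_ind' B).trans_le (hW.le B hB))

end Sb
open Sb

theorem szb : SZB := fun _ _ _ _ _ _ _ _ _ _ _ _ hl hn ha =>
  ⟨fun _ hU hs => mr_sz hl hn ha hU hs, dn_full, fun _ hW => ⟨hW.dw.dn, img hW⟩, fun J =>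
    ⟨Sh.sub_sz (mr_sz hl hn ha dn_full subset_rfl) (idl _ J), tk hl ha J, idl _ J,
      gen dn_full J⟩⟩

end Crest.Agent.N49.Md

end
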