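import Crest.Agent.N49.Md.St
import Crest.Agent.N49.Rf.Ext2
import Crest.Agent.N49.En.Resw

/-!
# Row 49 (helper62): a subsystem is a mixture of twisted laws
-/

set_option autoImplicit false
set_option linter.unusedSectionVars false

open Finset Matrix MvPolynomial

noncomputable section

namespace Crest.Agent.N49.Md

open Tw Rm Sy Po Db

namespace Exl

theorem vars_of {C : Type} {p : C → Prop} [DecidablePred p] {P : MvPolynomial C ℝ}
    (h : ∀ y, eval y P = eval (fun c => if p c then y c else 0) P) : ∀ c ∈ P.vars, p c := by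
  classical
  have e : P = bind₁ (fun c => if p c then X c else 0) P := MvPolynomial.funext fun y => by
    rw [h y, ← coe_aeval_eq_eval, ← coe_aeval_eq_eval]
    change aeval _ P = aeval y (bind₁ _ P)
    rw [aeval_bind₁]
    exact congrArg (aeval · P) (funext fun c => by split_ifs <;> simp)
  intro c hc
  obtain ⟨c', -, k⟩ := mem_vars_bind₁ _ _ (e ▸ hc)
  split_ifs at k with z
  · rw [vars_X, mem_singleton] at k
    exact k ▸ z
  · simp at k

theorem exists_nn {α : Type} [Nonempty α] {f : α → ℝ} (h : HasSum f 0) : ∃ a, 0 ≤ f a := by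
  by_contra k
  push Not at k
  exact (hasSum_lt (fun a => (k a).le) (k (Classical.arbitrary α)) h hasSum_zero).false

theorem gs_dg {C : Type} [Fintype C] [DecidableEq C] (w x : C → ℝ) :
    gs (diagonal fun c => w c ^ 2) x = Real.exp (-Real.pi * ∑ c, (w c * x c) ^ 2) := by
  rw [gs, qf, neg_mul, dotProduct]
  exact congrArg (fun z => Real.exp (-(Real.pi * z)))
    (sum_congr rfl fun c _ => by rw [mulVec_diagonal]; ring)

theorem inv_sub {C : Type} [Fintype C] [DecidableEq C] {K : Matrix C C ℝ} (hK : K.PosDef)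
    {v : C → ℝ} (hv : ∀ c, v c ≠ 0) (e : K⁻¹ = diagonal v) {D : Type} [Fintype D] [DecidableEq D]
    {f : D → C} (hf : Function.Injective f) : (K.submatrix f f)⁻¹ = diagonal fun c => v (f c) := by
  have : K = diagonal fun c => (v c)⁻¹ := by
    rw [← inv_inv' hK, e]
    exact inv_eq_right_inv (by simp [diagonal_mul_diagonal, hv])
  rw [this, submatrix_diagonal _ _ hf]
  exact inv_eq_right_inv (by simp [diagonal_mul_diagonal, hv])

variable {σ L C1 : Type} [Fintype L] [DecidableEq L] [Fintype C1] [DecidableEq C1] {T1 : TT L C1}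
  {X : TS σ} {w : X.C → ℝ} {k : Gd.Lv T1 → X.C}

/-- live coordinates from `y`, dead ones from `d` -/
def jn {R : Type} (T1 : TT L C1) (y : Gd.Lv T1 → R) (d : C1 → R) : C1 → R :=
  fun c => if h : (T1.ty c).Nonempty then y ⟨c, h⟩ else d c

/-- the abstract form -/
theorem core (h1 : T1.Ok) (hX : X.Tri) (hw : ∀ c, w c ≠ 0)
    (hK : X.K⁻¹ = diagonal fun c => w c ^ 2) (hk : Function.Injective k)
    (hΦ : ∀ (d : C1 → ℤ) (y : X.C → ℝ) (c : Gd.Lv T1), T1.Φ (Sum.elim
      (jn T1 (fun c => y (k c)) fun c => d c) fun _ => 1) c.1 = w (k c) * X.u y (k c))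
    (H : Set (C1 → ℤ)) : ∃ (x : X.C → ℝ) (d : C1 → ℤ),
      T1.pr H ≤ (X.off x).P {y | jn T1 (fun c => y (k c)) d ∈ H} := by
  let p : X.C → Prop := fun c => ∃ l, k l = c
  let e : Gd.Lv T1 ≃ {c // p c} := Equiv.ofInjective k hk
  have lw : X.Low p := by
    rintro _ ⟨c, rfl⟩
    refine vars_of fun y => mul_left_cancel₀ (hw (k c)) ((hΦ 0 y c).symm.trans
      (Eq.trans ?_ (hΦ 0 _ c)))
    exact congrArg (fun z => T1.Φ (Sum.elim (jn T1 z _) _) c.1)
      (funext fun c => (if_pos ⟨c, rfl⟩).symm)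
  have h0 := hX.cut_low lw 0
  let q : C1 → Prop := fun c => ¬ (T1.ty c).Nonempty
  let dd : ({c // q c} → ℤ) → C1 → ℤ := fun z => glue q z 0
  let wd : ({c // q c} → ℤ) → ℝ := fun z => Real.exp (-Real.pi * ∑ c, (z c : ℝ) ^ 2)
  have a : ∀ (z : {c // q c} → ℤ) (y : {c // p c} → ℤ),
      T1.wt (jn T1 (fun c => y (e c)) (dd z)) = wd z * (X.cut p 0).wt y := fun z y => by
    have b : (X.cut p 0).wt y = Real.exp (-Real.pi * ∑ c : {c // p c},
        (w c.1 * (X.cut p 0).u (zc y) c) ^ 2) := (congrArg (gs · _) (inv_sub (D := {c // p c}) hX.pd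
      (fun c => pow_ne_zero 2 (hw c)) hK Subtype.val_injective)).trans (gs_dg _ _)
    rw [b, TT.wt, ← Real.exp_add, ← mul_add, ← Fintype.sum_subtype_add_sum_subtype q]
    congr 3
    · refine sum_congr rfl fun c _ => congrArg (· ^ 2) ?_
      rw [h1.dead c _ (not_nonempty_iff_eq_empty.1 c.2)]
      change ((jn T1 _ _ c.1 : ℤ) : ℝ) = _
      rw [jn, dif_neg c.2]
      exact congrArg _ (glue_pos _ _ c.2)
    · refine Fintype.sum_equiv ((Equiv.subtypeEquivRight fun _ => not_not).trans e) _ _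
        fun c => congrArg (· ^ 2) ?_
      have := hΦ (dd z) (glue p (zc y) (zc 0)) ⟨c.1, not_not.1 c.2⟩
      refine Eq.trans (congrArg (T1.Φ · c.1) ?_) (this.trans
        (congrArg _ (X.u_cut p 0 (zc y) (e ⟨c.1, not_not.1 c.2⟩)).symm))
      refine congrArg (Sum.elim · _) (funext fun c => ?_)
      unfold jn
      split_ifs with r
      · exact (glue_pos (p := p) (zc y) (zc 0) ⟨⟨c, r⟩, rfl⟩).symm
      · rfl
  let g : (C1 → ℤ) → ℝ := fun y => H.indicator 1 y - T1.pr H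
  have hg : Bb g := (Bb.ind H).sub (.const _)
  have s0 : ∑' y, T1.wt y * g y = 0 := by
    have := h1.summable_mul (TT.abs_ind H)
    simp only [g, mul_sub]
    rw [this.tsum_sub (h1.summable.mul_right _), tsum_mul_right, TT.pr_eq, TT.Ex]
    exact sub_eq_zero.2 (mul_div_cancel₀ _ h1.Z_pos.ne').symm
  obtain ⟨Bg, hBg⟩ := id hg
  obtain ⟨z, hz⟩ := exists_nn (s0 ▸ hasSum_fib q (h1.summable_mul hBg))
  let e2 : ({c // p c} → ℤ) ≃ ({c // ¬ q c} → ℤ) :=
    (((Equiv.subtypeEquivRight fun _ => not_not).trans e).arrowCongr (Equiv.refl ℤ)).symm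
  have j : ∀ y, mg q z (e2 y) = jn T1 (fun c => y (e c)) (dd z) := fun y => funext fun c => by
    unfold mg jn
    by_cases r : (T1.ty c).Nonempty
    · rw [dif_neg (not_not.2 r), dif_pos r]; rfl
    · rw [dif_pos r, dif_neg r]; exact (glue_pos (p := q) z 0 r).symm
  rw [← e2.tsum_eq] at hz
  simp only [j, a, mul_assoc, tsum_mul_left] at hz
  obtain ⟨x, -, hx⟩ := hX.ext_pick lw (g := fun y => g (jn T1 (fun c => y (e c)) (dd z))) (hg.comp _)
  refine ⟨x, dd z, ?_⟩
  have t := hX.off x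
  have b := (le_div_iff₀ t.Zc_pos).1 ((div_nonneg
    (nonneg_of_mul_nonneg_right hz (Real.exp_pos _)) h0.Zc_pos.le).trans hx)
  rw [zero_mul] at b
  have c := TS.Tri.S_sub (T := X.off x) t (f := {y : X.C → ℤ | jn T1 (fun c => y (k c)) (dd z) ∈ H}.indicator 1)
    (Bb.ind _) (Bb.const (T1.pr H))
  rw [TS.S_const] at c
  refine (le_div_iff₀' t.Z_pos).2 (sub_nonneg.1 (b.trans_eq (Eq.trans ?_ c)))
  rfl

end Exl

open Exl in
theorem exl (hs : SYU) : EXL := by
  intro τ L C1 _ _ _ _ _ _ B W blk T1 e s h U H hB hW hU hWU hE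
  obtain ⟨g, g1, g2, -, g4, g5, g6⟩ := hs τ L B W blk s h U hB hW hU hWU
  have la : ∀ ℓ, 0 < B.la ℓ := fun ℓ => lt_of_lt_of_le (by positivity) (hB.la ℓ).1
  have kp : ∀ μ, 0 < kw blk B.la μ := fun μ => prod_pos fun a _ => la _
  have o : (mr blk B.la U).Ok := En.mono_dk_ok hU fun μ _ => by have := kp μ; positivity
  obtain ⟨x, d, k⟩ := core (X := B.T.tw (mr blk B.la U) (B.T.tw0 _))
    (w := fun p : B.T.Cw (mr blk B.la U) => kw blk B.la p.1.2.1) (k := fun c => g (e c)) hE.ok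
    (TS.tw_tri hB.old.stg.cl (hB.old.stg.adm o) o) (fun p => (kp _).ne') g5 (g2.comp hE.inj)
    (fun d y c => ((hE.Φ d (Sum.elim (fun w' => y (g w')) fun _ => 1) c).trans
      (g6 y _ (e c))).trans (congrArg (fun μ => kw blk B.la μ * _) (g1 (e c)).2.symm)) H
  refine ⟨x, d, k.trans_eq ?_⟩
  refine (congrArg (fun Φ => ((B.T.tw (mr blk B.la U) (B.T.tw0 _)).setΦ Φ).P
    {y | jn T1 (fun c => y (g (e c))) d ∈ H}) (Ho.off_Φ o (B.T.tw0 _) x)).symm.trans ?_
  refine congrArg (B.T.tw (mr blk B.la U) (tc B.T _ (B.T.Yw _ x))).P (Set.ext fun y => ?_)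
  refine Iff.of_eq (congrArg (· ∈ H) (funext fun c => ?_))
  unfold jn rz
  split_ifs
  · exact (g4 ℤ y _).symm
  · rfl

end Crest.Agent.N49.Md

end
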