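import Crest.Agent.N49.Md.St
import Crest.Agent.N49.Tn.Fub
import Crest.Agent.N49.Tw.Exp

/-!
# Row 49 (helper10): freezing a good background
-/

set_option autoImplicit false

open Finset Matrix MvPolynomial

noncomputable section

namespace Crest.Agent.N49.Md

open Tw Rm Sy Po

namespace Bgp

/-- the abstract form -/
theorem pick {X : Type} {w Z S : X → ℝ} {G : Set X} {c0 c2 η Z0 Z1 S1 B : ℝ} (w0 : ∀ b, 0 ≤ w b)
    (hZ : ∀ b, 0 < Z b) (S0 : ∀ b, 0 ≤ S b) (SZ : ∀ b, S b ≤ Z b) (s0 : HasSum w Z0)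
    (s1 : HasSum (fun b => w b * Z b) Z1) (s2 : HasSum (fun b => w b * S b) S1)
    (s3 : HasSum (fun b => w b * Gᶜ.indicator 1 b) B) (p0 : 0 < c0) (p2 : 0 < c2) (η0 : 0 < η)
    (η1 : η ≤ 1 / 10) (m0 : |Z0 - c0| ≤ η * c0) (m1 : |Z1 - c0 * c2| ≤ η * (c0 * c2))
    (m2 : ∀ b ∈ G, |Z b - c2| ≤ η * c2) (hB : B / Z0 ≤ η) :
    ∃ b ∈ G, S1 / Z1 - 10 * η ≤ S b / Z b := by
  by_contra k
  push Not at k
  obtain ⟨a0, -⟩ := abs_le.1 m0
  obtain ⟨a1, a2⟩ := abs_le.1 m1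
  have cc := mul_pos p0 p2
  have z0 : 0 < Z0 := by nlinarith
  have z1 : 0 < Z1 := by nlinarith
  rw [div_le_iff₀ z0] at hB
  obtain ⟨b0, hb⟩ : G.Nonempty := by
    by_contra e
    rw [Set.not_nonempty_iff_eq_empty.1 e, Set.compl_empty, Set.indicator_univ] at s3
    have := s0.unique (by simpa using s3)
    nlinarith
  have t0 : 0 ≤ S1 / Z1 - 10 * η := (div_nonneg (S0 b0) (hZ b0).le).trans (k b0 hb).le
  have e : S1 = (S1 / Z1) * Z1 := (div_mul_cancel₀ _ z1.ne').symm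
  generalize S1 / Z1 = p at *
  have := hasSum_le (fun b => ?_) s2 (((s1.mul_left (p - 10 * η + 1)).sub
    (s0.mul_left ((1 - η) * c2))).add (s3.mul_left ((1 - η) * c2)))
  · have q : 0 ≤ (1 - η) * c2 := mul_nonneg (by linarith) p2.le
    have b1 := mul_le_mul_of_nonneg_left hB q
    have b2 := mul_le_mul_of_nonneg_left (show (1 - η) * c0 ≤ Z0 by linarith)
      (mul_nonneg q (show 0 ≤ 1 - η by linarith))
    have b3 : (1 - 10 * η) * Z1 ≤ (1 - 10 * η) * ((1 + η) * (c0 * c2)) :=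
      mul_le_mul_of_nonneg_left (by linarith) (by linarith)
    have b4 : (1 - 10 * η) * (1 + η) < (1 - η) * (1 - η) * (1 - η) := by nlinarith [mul_pos η0 η0]
    have := mul_lt_mul_of_pos_right b4 cc
    nlinarith
  · have := hZ b
    have r : S b ≤ (p - 10 * η + 1) * Z b - (1 - η) * c2 + (1 - η) * c2 * Gᶜ.indicator 1 b := by
      by_cases h : b ∈ G
      · have := (abs_le.1 (m2 b h)).1
        have := (div_lt_iff₀ (hZ b)).1 (k b h)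
        rw [Set.indicator_of_notMem (not_not.2 h)]
        linarith
      · have := SZ b
        rw [Set.indicator_of_mem (show b ∈ Gᶜ from h), Pi.one_apply]
        nlinarith
    exact (mul_le_mul_of_nonneg_left r (w0 b)).trans_eq (by ring)

open TS in
/-- the form with towers -/
theorem pick' {σ0 σ1 C2 : Type} {T0 : TS σ0} {T1 : TS σ1} (e : T0.C ⊕ C2 ≃ T1.C)
    {w : (T0.C → ℤ) → (C2 → ℤ) → ℝ} (h : ∀ b y, T1.wt (smg e b y) = T0.wt b * w b y) (t0 : T0.Tri)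
    (t1 : T1.Tri) (w0 : ∀ b y, 0 < w b y) (sw : ∀ b, Summable (w b)) {G : Set (T0.C → ℤ)}
    (E : Set (T1.C → ℤ)) (F : (T0.C → ℤ) → Set (C2 → ℤ)) (hF : ∀ b y, smg e b y ∈ E → y ∈ F b)
    {c0 c2 η : ℝ} (p0 : 0 < c0) (p2 : 0 < c2) (η0 : 0 < η) (η1 : η ≤ 1 / 10)
    (m0 : |T0.Z - c0| ≤ η * c0) (m1 : |T1.Z - c0 * c2| ≤ η * (c0 * c2))
    (m2 : ∀ b ∈ G, |∑' y, w b y - c2| ≤ η * c2) (hG : T0.P Gᶜ ≤ η) :
    ∃ b ∈ G, T1.P E - 10 * η ≤ (∑' y, w b y * (F b).indicator 1 y) / ∑' y, w b y := by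
  have hs : ∀ g, Bb g → HasSum (fun b => T0.wt b * ∑' y, w b y * g (smg e b y)) (T1.S g) :=
    fun g hg => (fb_S h t1 hg).symm ▸ (fb_sm h t1 hg).hasSum
  have s1 := hs (fun _ => 1) (.const 1)
  simp only [S_one, mul_one] at s1
  have l : ∀ b y, w b y * E.indicator 1 (smg e b y) ≤ w b y := fun b y =>
    mul_le_of_le_one_right (w0 b y).le (ind_le E _)
  have n : ∀ b y, 0 ≤ w b y * E.indicator 1 (smg e b y) := fun b y =>
    mul_nonneg (w0 b y).le (ind_nonneg E _)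
  obtain ⟨b, hb, k⟩ := pick (fun b => (wt_pos _ b).le) (fun b => (sw b).tsum_pos (fun y => (w0 b y).le) 0 (w0 b 0))
    (fun b => tsum_nonneg (n b)) (fun b => ((sw b).of_nonneg_of_le (n b) (l b)).tsum_le_tsum (l b)
      (sw b)) t0.summable.hasSum s1 (hs _ (.ind E)) (t0.sm (.ind Gᶜ)).hasSum p0 p2 η0 η1 m0 m1 m2 hG
  refine ⟨b, hb, k.trans (div_le_div_of_nonneg_right (((sw b).of_nonneg_of_le (n b)
    (l b)).tsum_le_tsum (fun y => mul_le_mul_of_nonneg_left ?_ (w0 b y).le)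
    ((sw b).of_nonneg_of_le (fun y => mul_nonneg (w0 b y).le (ind_nonneg _ _)) fun y =>
      mul_le_of_le_one_right (w0 b y).le (ind_le _ _))) (tsum_nonneg fun y => (w0 b y).le))⟩
  by_cases a : smg e b y ∈ E
  · exact (ind_le E _).trans_eq (Set.indicator_of_mem (f := 1) (hF b y a)).symm
  · exact (Set.indicator_of_notMem a _).trans_le (ind_nonneg _ _)

end Bgp

open TS in
theorem bgp : BGP := by
  intro τ0 τ T S0 S st M Ψ0 v h a η G E hs hA h0 hv ho η0 η1 m0 m1 m2 hG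
  have t2 : ∀ b, ((T.tan S0 Ψ0 v b).sh S).Tri := fun b => sh_tri (tan_stg hs h0 hA hv).cl h
  have zc : ∀ b, ((T.tan S0 Ψ0 v b).lw S (T.ts S0 st M) ((T.tan S0 Ψ0 v b).tw0 S)).Zc =
      dt (T.kq S0 S (T.kn S0 (T.stg st).D v) S.K)⁻¹ := fun b =>
    (lw_Zc (tan_stg hs h0 hA hv) ((tan_stg hs h0 hA hv).adm h) h).trans
      (congrArg (fun B => dt (T.kq S0 S B S.K)⁻¹) (tan_Ds hs h0 hA))
  have z1 : (T.lw (S0.ten S v) st (T.tin S0 S v Ψ0)).Zc = (T.lw S0 st Ψ0).Zc *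
      dt (T.kq S0 S (T.kn S0 (T.stg st).D v) S.K)⁻¹ := by
    rw [lw_Zc hs hA.tin ho, lw_Zc hs hA h0]
    exact dt_blocks (e := T.tQ v h) (kw_tQ h _) (kw_posDef (T := T) hs.tri.pd_D h0.pd).det_pos.le
  rw [Mas, z1] at m1
  have m3 : ∀ b ∈ G, |((T.tan S0 Ψ0 v b).sh S).Z - dt (T.kq S0 S (T.kn S0 (T.stg st).D v) S.K)⁻¹| ≤
      η * dt (T.kq S0 S (T.kn S0 (T.stg st).D v) S.K)⁻¹ := fun b hb => by
    have := m2 b hb
    have e : ((T.tan S0 Ψ0 v b).lw S (T.ts S0 st M) ((T.tan S0 Ψ0 v b).tw0 S)).Z =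
      ((T.tan S0 Ψ0 v b).sh S).Z := (lw_Z (T := T.tan S0 Ψ0 v b)).trans (congrArg TS.Z tw_tw0)
    rwa [Mas, zc, e] at this
  have p2 : 0 < dt (T.kq S0 S (T.kn S0 (T.stg st).D v) S.K)⁻¹ :=
    (lw_tri (tan_stg (b := 0) hs h0 hA hv) ((tan_stg hs h0 hA hv).adm h) h).Zc_pos.trans_eq (zc 0)
  have wt : ∀ (b : T.Cw S0 → ℤ) (y : T.Tq S0 S → ℤ),
      (T.tw (S0.ten S v) (T.tin S0 S v Ψ0)).wt (smg (T.tQ v h) b y) =
      (T.tw S0 Ψ0).wt b * ((T.tan S0 Ψ0 v b).sh S).wt y := fun b =>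
    (ten_fb0 b h h0 hA).wt (tw_tri hs.cl hA h0).pd (t2 b).pd
  exact Bgp.pick' (T0 := T.tw S0 Ψ0) (T1 := T.tw (S0.ten S v) (T.tin S0 S v Ψ0))
    (T.tQ v h) (w := fun b => ((T.tan S0 Ψ0 v b).sh S).wt) wt (tw_tri hs.cl hA h0)
    (tw_tri hs.cl hA.tin ho) (fun b => wt_pos ((T.tan S0 Ψ0 v b).sh S)) (fun b => (t2 b).summable) E
    (fun b => {y | ∃ Y ∈ E, (∀ p, Y (T.tE S0 S v Ψ0 b h (.inl p)) = b p) ∧
      ∀ q, Y (T.tE S0 S v Ψ0 b h (.inr q)) = y q})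
    (fun b y e => ⟨_, e, fun p => (congrArg _ (tQ_eq h (.inl p)).symm).trans (smg_inl _ b y p),
      fun q => (congrArg _ (tQ_eq h (.inr q)).symm).trans (smg_inr _ b y q)⟩)
    (lw_tri hs hA h0).Zc_pos p2 η0 η1 m0 m1 m3 hG

end Crest.Agent.N49.Md

end
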