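import Crest.Agent.N49.Md.Idf
import Crest.Agent.N49.Tw.Fin
import Crest.Agent.N49.Tn.Alg
import Crest.Agent.N49.Tn.Stg
import Crest.Agent.N49.Tn.Sz
import Crest.Agent.N49.Top.Pl

/-!
# Row 49 (helper98): back to a full symbol tower
-/

set_option autoImplicit false
set_option linter.unusedSectionVars false

open Finset Matrix MvPolynomial

noncomputable section

namespace Crest.Agent.N49.Md

open Tw Rm Sy Po Idf N49.Top

namespace Can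

variable {τ L C1 V : Type} [Fintype τ] [DecidableEq τ] [Fintype L] [DecidableEq L]
  [Fintype C1] [DecidableEq C1] [Fintype V] [DecidableEq V]

theorem rr_cf (T1 : TT L C1) (e : Gd.Lv T1 → V) (d : C1 → ℤ) (y : V → ℤ) :
    rr T1 e d (TT.cf y) = TT.cf (rz T1 e d y) := by
  funext v
  rcases v with c | ℓ
  · simp only [rr, rz, TT.cf, Sum.elim_inl]
    split_ifs <;> rfl
  · rfl

theorem mor_rr {T1 : TT L C1} {e : Gd.Lv T1 → V} {T2 : TT L V} (h : Em T1 e T2) (d : C1 → ℤ) :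
    Mor T2 T1 (rr T1 e d) 1 := by
  refine ⟨⟨fun _ _ => rfl, fun c hc => ?_, fun c hc p p' _ => ?_⟩, fun p hp v => ?_,
    fun M p c r _ _ hc k => ?_⟩
  · simp only [rr, Sum.elim_inl, dif_pos hc]
    have := h.ty ⟨c, hc⟩
    exact TT.Dat.coord (T := T2) (v := .inl (e ⟨c, hc⟩)) this.subset
      (hc.mono this.superset) this.superset
  · simp only [rr, Sum.elim_inl, hc, Finset.not_nonempty_empty, dite_false]
  · rcases v with c | ℓ
    · simp only [rr, Sum.elim_inl]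
      split_ifs
      · exact hp _
      · exact ⟨_, rfl⟩
    · exact hp _
  · have n : (T1.ty c).Nonempty := nonempty_iff_ne_empty.2 fun z => hc (by simp [z])
    have := h.ty ⟨c, n⟩
    rw [one_mul, h.Φ d p ⟨c, n⟩]
    exact k _ this.subset (this ▸ hc)

theorem mor_mono {T1 : TT L C1} {T2 : TT L V} {r : (V ⊕ L → ℝ) → C1 ⊕ L → ℝ} {x y : ℝ}
    (h : Mor T2 T1 r x) (k : x ≤ y) : Mor T2 T1 r y :=
  { h with cube := fun M p c t ht a b e =>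
      (h.cube M p c t ht a b e).trans (mul_le_mul_of_nonneg_right k ht) }

theorem hom_ren {A B : Type} {w : A → ℕ} {w' : B → ℕ} {f : A → B} (k : ∀ a, w' (f a) = w a)
    {P : MvPolynomial A ℝ} {n : ℕ} (h : P.IsWeightedHomogeneous w n) :
    (rename f P).IsWeightedHomogeneous w' n := by
  induction h using IsWeightedHomogeneous.induction_on with
  | zero => rw [map_zero]; exact isWeightedHomogeneous_zero _ _ _
  | add p q _ _ a b => rw [map_add]; exact a.add b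
  | monomial d r e =>
    rw [rename_monomial]
    refine isWeightedHomogeneous_monomial _ _ _ ?_
    rw [← e, Finsupp.weight_apply, Finsupp.weight_apply, Finsupp.sum_mapDomain_index
      (by simp) (by simp [add_mul])]
    simp only [k]

theorem l_bd {x : ℝ} {h : ℕ} (k : 1 / 2 ^ h ≤ x ∧ x ≤ 2 ^ h) :
    (1 / 2 ^ (h + 1) ≤ x * (2 / √3) ∧ x * (2 / √3) ≤ 2 ^ (h + 1)) ∧
      1 / 2 ^ (h + 1) ≤ x * 2 ∧ x * 2 ≤ 2 ^ (h + 1) := by
  have a : (1 : ℝ) ≤ √3 := Real.one_le_sqrt.2 (by norm_num)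
  have b : √3 ≤ 2 := Real.sqrt_le_iff.2 ⟨by norm_num, by norm_num⟩
  have c : (1 : ℝ) ≤ 2 / √3 := (one_le_div (by linarith)).2 b
  have d : (2 : ℝ) / √3 ≤ 2 := div_le_self (by norm_num) a
  have e : (1 : ℝ) / 2 ^ (h + 1) ≤ 1 / 2 ^ h :=
    one_div_le_one_div_of_le (by positivity) (pow_le_pow_right₀ one_le_two (Nat.le_succ h))
  have x0 : 0 < x := lt_of_lt_of_le (by positivity) k.1
  rw [pow_succ] at *
  refine ⟨⟨?_, ?_⟩, ?_, ?_⟩ <;> nlinarith [k.1, k.2]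

/-- probabilities from weights -/
def Pw {C : Type} (w : (C → ℤ) → ℝ) (X : Set (C → ℤ)) : ℝ :=
  (∑' y, w y * X.indicator 1 y) / ∑' y, w y

theorem P_eq {σ : Type} (T : TS σ) (X : Set (T.C → ℤ)) : T.P X = Pw T.wt X := rfl

theorem heq_phi {σ : Type} {X Y : TS σ} (e : X = Y) : HEq X.Φ Y.Φ := by subst e; rfl

theorem set_tr (τ1 : Type) (T : TS Unit) (Φ : T.C → MvPolynomial T.C ℝ) (e : Φ = T.Φ) :
    (∀ (st : T.C → ℕ) M C n a η, (T.setΦ Φ).RgS st M C n a η → T.RgS st M C n a η) ∧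
      ∀ (S : Sh Unit τ1) (X : Set (T.Cw S → ℤ)), ((T.setΦ Φ).sh S).P X = (T.sh S).P X := by
  subst e
  exact ⟨fun _ _ _ _ _ _ => id, fun _ _ => rfl⟩

theorem un_tr {τ1 : Type} (T : TS Unit) (S : Sh Unit τ1) (D : Matrix T.C T.C ℝ)
    (Ψ1 : (T.un D).Twd S) (X : Set (T.Cw S → ℤ)) (X' : Set ((T.un D).Cw S → ℤ))
    (w : ∀ y, ((T.un D).tw S Ψ1).wt y = (T.sh S).wt y) (t : ((T.un D).tw S Ψ1).Tri)
    (k : ∀ y : (T.un D).Cw S → ℤ, y ∈ X → y ∈ X') : (T.sh S).P X ≤ ((T.un D).tw S Ψ1).P X' :=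
  ((P_eq _ _).trans ((congrArg (Pw · X) (funext w).symm).trans (P_eq _ _).symm)).trans_le
    (t.P_mono k)

theorem tan_tr {τ0 τ1 : Type} {T : TS Unit} {S0 : Sh Unit τ0} {Ψ Ψ' : T.Twd S0}
    {v : Matrix (Option S0.W) (Option S0.W) ℝ} {b : T.Cw S0 → ℤ}
    (e : T.tan S0 Ψ v b = T.tan S0 Ψ' v b) :
    (∀ (st : T.Tc S0 → ℕ) M C n a η, (T.tan S0 Ψ v b).RgS st M C n a η →
      (T.tan S0 Ψ' v b).RgS st M C n a η) ∧
    ∀ (S : Sh Unit τ1) (D : Matrix (T.Tc S0) (T.Tc S0) ℝ) (Ψ1 : ((T.tan S0 Ψ' v b).un D).Twd S)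
      (X : Set ((T.tan S0 Ψ v b).Cw S → ℤ)) (X' : Set (((T.tan S0 Ψ' v b).un D).Cw S → ℤ)),
      (∀ y, (((T.tan S0 Ψ' v b).un D).tw S Ψ1).wt y = ((T.tan S0 Ψ' v b).sh S).wt y) →
      (((T.tan S0 Ψ' v b).un D).tw S Ψ1).Tri →
      (∀ y : ((T.tan S0 Ψ' v b).un D).Cw S → ℤ, y ∈ X → y ∈ X') →
      ((T.tan S0 Ψ v b).sh S).P X ≤ (((T.tan S0 Ψ' v b).un D).tw S Ψ1).P X' := by
  have q : (T.tan S0 Ψ v b).Φ = (T.tan S0 Ψ' v b).Φ := by
    have := heq_phi e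
    exact eq_of_heq this
  obtain ⟨a, c⟩ := set_tr τ1 (T.tan S0 Ψ' v b) (T.tan S0 Ψ v b).Φ q
  refine ⟨a, fun S D Ψ1 X X' w t k => ?_⟩
  have x := un_tr (T.tan S0 Ψ' v b) S D Ψ1 X X' w t k
  have y := c S X
  exact le_of_eq_of_le y x

theorem comb {x y z u a : ℝ} (e : x ≤ y) (p : |z - y| ≤ a) (b : z - 10 * a ≤ u) :
    x - 11 * a ≤ u := by linarith [(abs_le.1 p).1]

/-- the probabilistic half -/
theorem chain (h1 : EXL) (h2 : SPL) (h3 : TXA) (h4 : SZB) (h5 : BGP) (h6 : TFA) (h7 : HMK)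
    (h8 : SYP) {C0 C' A N s h h' : ℕ} {a a' : ℝ} {B : Bs L} {W : Finset (Finset τ)} {blk : τ → L}
    {T1 : TT L C1} {e : Gd.Lv T1 → B.SC W} (H : Set (C1 → ℤ)) (hp : ∀ c, 0 < B.T.lev c)
    (m1 : MAST B.M C0) (m2 : MARHT B.M C0) (m3 : MAST (tM B.M) C')
    (tg : ∀ (S0 : Sh Unit τ) (Ψ0 : B.T.Twd S0) (v : Matrix (Option S0.W) (Option S0.W) ℝ),
      B.T.Adm S0 B.st Ψ0 → S0.Sz A a → S0.Tk v a →
      (B.T.tw S0 Ψ0).P {b | ¬ (B.T.tan S0 Ψ0 v b).RgS (B.T.ts S0 B.st B.M) (tM B.M) C' A a a} ≤ a)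
    (o : B.Ok s h) (w : Wf s W blk) (em : Em T1 e (B.SY W blk))
    (of : ∀ b, (tf B blk (l0 B.la) s univ b hp (l2 B.la) 1).toBs.Ok s h')
    (hA : (Fintype.card τ + 1) ^ s ≤ A) (a0 : 0 < a) (a1 : a ≤ 1 / 10)
    (ha : a ≤ 1 / 2 ^ (2 * (h + 1) * s)) (hN : (A + 1) * (A + 1) ≤ N) (ha' : a' ≤ a * a)
    (rg : B.Rg C0 N a' a) :
    ∃ b d, (tf B blk (l0 B.la) s univ b hp (l2 B.la) 1).Rg C' A a a ∧ T1.pr H - 11 * a ≤
      ((tf B blk (l0 B.la) s univ b hp (l2 B.la) 1).SY W blk).pr {y | ∃ z ∈ H,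
        rr T1 e d (ka B W blk (tf B blk (l0 B.la) s univ b hp (l2 B.la) 1) (TT.cf y)) =
          TT.cf z} := by
  have g := o.old.stg
  have p0 : ∀ ℓ, 0 < B.la ℓ := fun ℓ => lt_of_lt_of_le (by positivity) (o.la ℓ).1
  have q0 : ∀ ℓ, 0 < l0 B.la ℓ ∧ l0 B.la ℓ ≤ 2 ^ (h + 1) := fun ℓ =>
    ⟨lt_of_lt_of_le (by positivity) (l_bd (o.la ℓ)).1.1, (l_bd (o.la ℓ)).1.2⟩
  have q2 : ∀ ℓ, 0 < l2 B.la ℓ ∧ l2 B.la ℓ ≤ 2 ^ (h + 1) := fun ℓ =>
    ⟨lt_of_lt_of_le (by positivity) (l_bd (o.la ℓ)).2.1, (l_bd (o.la ℓ)).2.2⟩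
  obtain ⟨-, -, -, z0⟩ := h4 τ L blk (l0 B.la) s (h + 1) A a q0 hA ha
  obtain ⟨s0, k0, -⟩ := z0 univ
  obtain ⟨z2, -, dw, -⟩ := h4 τ L blk (l2 B.la) s (h + 1) A a q2 hA ha
  obtain ⟨dn, sb⟩ := dw W w
  have s2 := z2 _ dn sb
  have aa : a * a ≤ a := by nlinarith
  have st : (tn blk B.la s W).Sz ((A + 1) * (A + 1)) (a * a) :=
    tsz _ _ _ _ _ A A a a a _ s0 s2 k0 a0 a0 aa le_rfl
  obtain ⟨x, d, ex⟩ := h1 τ L C1 B W blk T1 e s h _ H o w dn subset_rfl em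
  obtain ⟨⟨J, _, _, ψ, N', Q, cj, sp⟩, lf⟩ := h2 τ L blk B.la s N W p0 w (by nlinarith)
  obtain ⟨x0, lf⟩ := lf B.T x
  obtain ⟨t0a, t0b⟩ := h3 _ B.T B.st B.M s _ o.old s0.toOk
  obtain ⟨ad, tn0, -, ti⟩ := t0a _ fun F => (t0b x0).1 F
  have ti := ti _ (mr blk (l2 B.la) (W.image ind)) (vv blk (l0 B.la) s univ)
  have ad' := (tid _ _ B.T _ _ B.st _ (vv blk (l0 B.la) s univ) s2.toOk ad s0.toOk).1
  have tp := ((h3 _ B.T B.st B.M s _ o.old st.toOk).1 _ fun F => hom_ren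
    (f := fun w => (⟨(some w, none), by simp⟩ : Sh.TW _ _)) (fun _ => Finsupp.degree_single _ _)
    ((t0b x0).1 F)).2.2.1 _ _ (ph blk B.la s W)
  rw [← ti, funext lf] at tp
  have a1' : a ≤ 1 := by linarith
  have AN : A ≤ N := by nlinarith
  have hy := TS.RgS.hy rg g a0 a1' ad' st hN ha'
  have pu := (m2 _ _ _ _ _ _ _ _ _ _ _ _ _ _ _ _ _ hy sp).P
    {y | rz T1 e d (fun w : B.SC W => wv blk B.la B.T y w.1.1 (ind w.1.2)) ∈ H}
  rw [tp] at pu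
  obtain ⟨b, hb, bg⟩ := h5 _ _ B.T _ _ B.st B.M _ _ s2.toOk a a {b | (B.T.tan _ _ _ b).RgS
      (B.T.ts _ B.st B.M) (tM B.M) C' A a a} (B.T.hm _ _ (ph blk B.la s W) ⁻¹'
      {y | rz T1 e d (fun w : B.SC W => wv blk B.la B.T y w.1.1 (ind w.1.2)) ∈ H}) g ad s0.toOk k0
    st.toOk a0 a1 (m1 _ _ _ _ _ _ _ _ _ (TS.RgS.hy rg g a0 a1' ad s0 AN (ha'.trans aa)))
    (m1 _ _ _ _ _ _ _ _ _ hy) (fun b hb => by
      have u := (tst _ _ _ _ _ _ _ _ b g ad s0.toOk k0).1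
      exact m3 _ _ _ _ _ _ _ _ _ (TS.RgS.hy hb u a0 a1' (u.adm s2.toOk) s2 le_rfl le_rfl))
    (tg _ _ _ ad s0 k0)
  obtain ⟨ol, -, rg', wt⟩ := h6 τ L B.T B.st B.M s blk (l0 B.la) univ b o.old fun ℓ => (q0 ℓ).1
  obtain ⟨r1, r2⟩ := tan_tr (τ1 := τ) (tn0 (vv blk (l0 B.la) s univ) b)
  refine ⟨b, d, rg' _ _ _ _ (r1 _ _ _ _ _ _ hb), ?_⟩
  rw [h8 τ L _ W blk s h' _ (of b) w]
  refine (comb ex pu bg).trans (r2 _ _ _ _ _ (wt _ _ s2.toOk)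
    (TS.tw_tri ol.stg.cl (ol.stg.adm s2.toOk) s2.toOk) ?_)
  rintro y ⟨Y, m, y1, y2⟩
  exact ⟨_, m, (congrArg (rr T1 e d) (h7 τ L B W blk s h _ b hp s2.toOk Y y o w y1 y2)).trans
    (rr_cf _ _ _ _)⟩

theorem two_pow_le {x y : ℕ} (h : x ≤ y) : (1 : ℝ) / 2 ^ y ≤ 1 / 2 ^ x :=
  one_div_le_one_div_of_le (by positivity) (pow_le_pow_right₀ one_le_two h)

theorem tM_mono {x y : ℕ} (h : x ≤ y) : tM x ≤ tM y :=
  (Nat.pow_le_pow_left (Nat.succ_le_succ h) _).trans (Nat.pow_le_pow_right (Nat.succ_pos _)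
    (Nat.mul_le_mul (Nat.succ_le_succ h) (Nat.succ_le_succ h)))

theorem num {A N c : ℕ} (h : (A + 1) * (c + 4) ≤ N) :
    ((A : ℝ) + 2) ^ c * (1 / 2 ^ N) ≤ (1 / 2 ^ A) ^ 4 := by
  have a : (A : ℝ) + 2 ≤ 2 ^ (A + 1) := by exact_mod_cast Nat.lt_two_pow_self (n := A + 1)
  rw [_root_.one_div_pow, ← pow_mul, mul_one_div, div_le_div_iff₀ (by positivity) (by positivity),
    one_mul]
  calc _ ≤ ((2 : ℝ) ^ (A + 1)) ^ c * 2 ^ (A * 4) := by gcongr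
    _ ≤ _ := by rw [← pow_mul, ← pow_add]; exact pow_le_pow_right₀ one_le_two (by nlinarith)

end Can

open Can in
/-- **back to a full symbol tower** -/
theorem can (h1 : EXL) (h2 : SPL) (h3 : TXA) (h4 : SZB) (h5 : BGP) (h6 : TFA) (h7 : HMK)
    (h8 : SYP) (h9 : TFO) (h10 : MORF) (h11 : COMP) (ht : ∀ M C', TANG M C') (s M C : ℕ) :
    CAN s M C := by
  choose Cm hm using mastC
  choose Ct c ht using fun M0 => ht M0 (C + Cm (tM M0))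
  obtain ⟨K, hK⟩ : Pl fun y => (((y + 1) ^ s + y + 4 + 2 * (y + 1) * s + 1) *
      (((y + 1) ^ s + y + 4 + 2 * (y + 1) * s + 1) + ((range (M + 1)).sup c + 4))) +
      ((s + 1) * (y + (y + 1) ^ s * ((y + 1 + 1) * (s + 1)) + 1) ^ 2 + y + 1 +
        (3 * s + 2) * ((y + 1) ^ s * ((y + 1 + 1) * (s + 1)))) := by pl
  refine ⟨(range (M + 1)).sup fun M0 => Ct M0 + Cm M0, K, tM M,
    fun τ L C1 _ _ _ _ _ _ B W blk T1 ι f e h n H1 b1 b2 b3 b4 o w of hM rg em => ?_⟩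
  have mm : f.M ∈ range (M + 1) := mem_range.2 (Nat.lt_succ_of_le hM)
  have c0 : Ct f.M + Cm f.M ≤ _ := le_sup (f := fun M0 => Ct M0 + Cm M0) mm
  have c1 : c f.M ≤ _ := le_sup (f := c) mm
  have k1 := (Nat.le_add_right _ _).trans (hK n (b1.trans b2))
  have k2 := (Nat.le_add_left _ _).trans (hK h b1)
  have p1 : (Fintype.card τ + 1) ^ s ≤ (h + 1) ^ s := Nat.pow_le_pow_left (by omega) _
  have p2 : (h + 1) ^ s ≤ (n + 1) ^ s := Nat.pow_le_pow_left (by omega) _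
  have p3 : 2 * (h + 1) * s ≤ 2 * (n + 1) * s := by gcongr
  have p4 : 1 ≤ (h + 1) ^ s := Nat.one_le_pow _ _ (by omega)
  generalize hA : (n + 1) ^ s + n + 4 + 2 * (n + 1) * s = A at k1
  generalize hh : (h + 1) ^ s * ((h + 1 + 1) * (s + 1)) = h' at k2
  generalize hh2 : (s + 1) * (h + h' + 1) ^ 2 = h2' at k2
  have le' : h ≤ h' := hh ▸ le_trans (by nlinarith) (Nat.le_mul_of_pos_left _ p4)
  have hp : ∀ c, 0 < f.T.lev c := of.old.ok.lev_pos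
  have t := of.old.ok.toTri
  have q0 : ∀ ℓ, 0 < l0 f.la ℓ := fun ℓ => lt_of_lt_of_le (by positivity) (l_bd (of.la ℓ)).1.1
  have ok : ∀ b, (tf f.toBs blk (l0 f.la) s univ b hp (l2 f.la) 1).Ok s h' := fun b =>
    fr_mono t (h9 τ L f.toBs s (h + 1) blk _ _ 1 univ b hp of.old (fun ℓ => (l_bd (of.la ℓ)).1)
      (fun ℓ => (l_bd (of.la ℓ)).2) fun _ => ⟨le_rfl, Nat.one_le_two_pow⟩)
      (hh ▸ Nat.mul_le_mul_right _ p1)
  have k3 : (A + 1) * (A + 1) ≤ n ^ K := le_trans (Nat.mul_le_mul_left _ (by omega)) k1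
  have k4 : (A + 1) * (c f.M + 4) ≤ n ^ K := le_trans (Nat.mul_le_mul_left _ (by omega)) k1
  have k5 : A < n ^ K := by nlinarith
  have a0 : (0 : ℝ) < 1 / 2 ^ A := by positivity
  have a4 : (1 : ℝ) / 2 ^ A ≤ 1 / 2 ^ (n + 4) := two_pow_le (by omega)
  have a5 : (1 : ℝ) / 2 ^ n ≤ 1 / 2 ^ 0 := two_pow_le (by omega)
  have a6 : (1 : ℝ) / 2 ^ (n + 4) = 1 / 2 ^ n / 16 := by rw [pow_add]; field_simp; norm_num
  have a7 : (0 : ℝ) < 1 / 2 ^ n := by positivity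
  norm_num only at a5
  have rg' : ∀ C', C' ≤ Ct f.M + Cm f.M → f.Rg C' (n ^ K) (1 / 2 ^ n ^ K) (1 / 2 ^ A) :=
    fun C' k => TS.RgS.mono rg of.old.stg.tri (by positivity)
      ((two_pow_le (Nat.zero_le _)).trans_eq (by norm_num)) (k.trans c0) le_rfl le_rfl
      (two_pow_le k5.le)
  obtain ⟨b, d, r1, pr⟩ := chain h1 h2 h3 h4 h5 h6 h7 h8 (C' := C + Cm (tM f.M)) (A := A)
    (a := 1 / 2 ^ A) H1 hp (hm f.M _ le_rfl).1 (hm f.M _ le_rfl).2.2.1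
    (hm _ _ (Nat.le_add_left _ _)).1 (fun S0 Ψ0 v x y z => ht f.M τ f.T S0 f.st Ψ0 v A (n ^ K) _ _ _
      of.old.stg x y z a0 (by linarith) a0 (by linarith) k5 (num k4) (rg' _ (by omega)))
    of.toOk w em.toEm (fun b => (ok b).toOk) (by omega) a0 (by linarith) (two_pow_le (by omega)) k3
    (by rw [div_mul_div_comm, one_mul, ← pow_add]; exact two_pow_le (by nlinarith))
    (rg' _ (by omega))
  obtain ⟨oc, kc⟩ := h11 τ L B W blk f _ s h h h' o of (ok b) w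
  rw [hh2] at oc
  have cd := ((idf τ L B W blk s h o w).2.2 _ _ oc).1
  have cd' : Fintype.card (tf f.toBs blk (l0 f.la) s univ b hp (l2 f.la) 1).T.C ≤
      2 ^ (h2' + h + 1) := by
    have x := Nat.lt_two_pow_self (n := h2')
    have y := Nat.one_le_two_pow (n := h)
    rw [add_assoc, pow_add, pow_succ]
    exact (Nat.le_succ _).trans (cd.trans (Nat.mul_le_mul x (by omega)))
  refine ⟨f.comp (tf f.toBs blk (l0 f.la) s univ b hp (l2 f.la) 1) blk,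
    rr T1 e d ∘ ka f.toBs W blk _, _, fr_mono o.old.ok.toTri oc (by omega), tM_mono hM, mul_one _,
    fun x => Tg.tan _ _ _ b hp x of.old q0, cd'.trans (Nat.pow_le_pow_right two_pos (by omega)),
    TS.RgS.mono r1 (ok b).old.stg.tri a0 (by linarith) (by omega) (by omega) (by linarith)
      (by linarith), mor_mono ((mor_rr em.toEm d).comp (h10 τ L f.toBs W blk _ s h' _
        (bs_mono of.toOk le') (ok b) w cd') (by positivity)) ?_,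
    fun p => (em.ι d _).trans (kc p).symm, fun y hy => hy, le_trans (by linarith) pr⟩
  rw [one_mul]
  exact pow_le_pow_right₀ one_le_two k2

end Crest.Agent.N49.Md

end
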