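import Crest.Agent.N49.Md.Emc0
import Crest.Agent.N49.Rm.Op
import Crest.Agent.N49.Tn.Stg
import Crest.Agent.N49.Tw.ConM

/-!
# Row 49 (helper61): a recentring sits inside the tangent frame
-/

set_option autoImplicit false
set_option linter.unusedSectionVars false
set_option maxHeartbeats 400000

open Finset Matrix MvPolynomial

noncomputable section

namespace Crest.Agent.N49.Md

open Tw Rm Sy Po

namespace Ec

variable {τ L : Type} [Fintype τ] [DecidableEq τ] [Fintype L] [DecidableEq L]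

variable {blk : τ → L} {s : ℕ} {j : L}

theorem rr_pos {C1 V : Type} (T1 : TT L C1) (e : Gd.Lv T1 → V) (d : C1 → ℤ) (p : V ⊕ L → ℝ)
    {c : C1} (l : (T1.ty c).Nonempty) : rr T1 e d p (.inl c) = p (.inl (e ⟨c, l⟩)) := dif_pos l

theorem rr_neg {C1 V : Type} (T1 : TT L C1) (e : Gd.Lv T1 → V) (d : C1 → ℤ) (p : V ⊕ L → ℝ)
    {c : C1} (l : ¬ (T1.ty c).Nonempty) : rr T1 e d p (.inl c) = d c := dif_neg l

section main
variable (B : Bs L) (W : Finset (Finset τ)) (blk) (s) (j) (b : B.T.Cw (bg blk B.la s {j}) → ℤ)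
  (hp : ∀ c, 0 < B.T.lev c) (la' : L → ℝ)

/-- the tangent frame -/
abbrev ff : Fr B.T τ L := tf B blk B.la s {j} b hp la' 1

variable {B W blk s j} (hs : B.T.Stg B.st B.M)

/-- a word of the old directions -/
def c0 (w : B.SC W) : (ff blk s j B b hp la').SC W :=
  ⟨((⟨(w.1.1, none), hp _⟩ : B.T.Tc (bg blk B.la s {j})), w.1.2),
    Nat.lt_succ_of_le (hs.ts_le _), w.2.2.1, w.2.2.2.trans (Finsupp.degree_single () _).symm⟩

/-- a letter as a background word -/
def bw (lam : L → ℝ) {t : τ} (h : blk t = j) (h1 : 1 ≤ s) : (bg blk lam s {j}).W :=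
  ⟨⟨Finsupp.single t 1, mem_erase.2 ⟨by simp, mem_full.2 (by simpa using h1)⟩⟩, fun a k => by
    rw [mem_singleton, mem_singleton.1 (Finsupp.support_single_subset k), h]⟩

theorem two {A : Finset τ} {t : τ} (ht : t ∈ A) (hn : A ≠ {t}) : 1 < #A := by
  obtain ⟨a, c, d⟩ : ∃ a ∈ A, a ≠ t := by
    by_contra! z
    exact hn (eq_singleton_iff_unique_mem.2 ⟨ht, z⟩)
  exact one_lt_card.2 ⟨a, c, t, ht, d⟩

/-- a tangent word -/
def c1 (hW : Dw W) (h1 : 1 ≤ s) (w : B.SC W) {t : τ} (ht : t ∈ w.1.2) (h : blk t = j)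
    (hn : w.1.2 ≠ {t}) : (ff blk s j B b hp la').SC W :=
  ⟨((⟨(w.1.1, some (bw B.la h h1)), (Finsupp.degree_single t 1).trans_lt
      ((two ht hn).trans_eq w.2.2.2)⟩ : B.T.Tc (bg blk B.la s {j})), w.1.2.erase t),
    Nat.lt_succ_of_le (hs.ts_le _), hW _ w.2.2.1 _ (erase_subset _ _),
    (card_erase_of_mem ht).trans ((congrArg (· - 1) w.2.2.2).trans ((Finsupp.degree_single () _).trans
      (congrArg (B.T.lev w.1.1 - ·) (Finsupp.degree_single t 1))).symm)⟩

/-- the polynomial map of a configuration -/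
abbrev YY (p : (ff blk s j B b hp la').SC W ⊕ L → ℝ) :
    (ff blk s j B b hp la').T.C → MvPolynomial τ ℝ :=
  Yp (ff blk s j B b hp la').T.lev (sx (ff blk s j B b hp la').T _ W fun w' => p (.inl w'))

theorem coeff_YY (p : (ff blk s j B b hp la').SC W ⊕ L → ℝ) (w : (ff blk s j B b hp la').SC W) :
    coeff (ind w.1.2) (YY b hp la' p w.1.1) = p (.inl w) := by
  have := sy_X (ff blk s j B b hp la').T.lev
    (sx (ff blk s j B b hp la').T _ W fun w' => p (.inl w')) w.1.2 w.1.1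
  rw [sy, aeval_X, if_pos w.2.2.2] at this
  exact this.trans (dif_pos w.2)

/-- the morphism with general weights -/
def kk (e m : τ → ℝ) (p : (ff blk s j B b hp la').SC W ⊕ L → ℝ) (w : B.SC W) : ℝ :=
  coeff (ind w.1.2) ((ff blk s j B b hp la').θ.Y e m (YY b hp la' p) w.1.1)

/-- the centre -/
def DD (p : (ff blk s j B b hp la').SC W ⊕ L → ℝ) (w : B.SC W) : ℝ :=
  Rm (fun q => (b q : ℝ)) 1 (YY b hp la' p) w.1.1 w.1.2

theorem kk_eq {e m : τ → ℝ} {ej : ℝ} (he : ∀ a, blk a = j → e a = ej)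
    (hm : ∀ a, blk a ≠ j → m a = 1) (p : (ff blk s j B b hp la').SC W ⊕ L → ℝ) (w : B.SC W)
    (hA : Set.InjOn blk w.1.2) : kk b hp la' e m p w =
      (∏ a ∈ w.1.2, m a) * p (.inl (c0 b hp la' hs w)) + ej * DD b hp la' p w := by
  have := key (β := fun q => (b q : ℝ)) (σ := 1) (Z := YY b hp la' p) hA (hp w.1.1) he hm
  simp only [Pi.one_apply, one_smul, one_mul] at this
  refine Eq.trans ?_ (this.trans (congrArg (_ * · + _) (coeff_YY b hp la' p (c0 b hp la' hs w))))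
  refine congrArg (fun P => coeff _ (scl e P + _)) ((map_sum _ _ _).trans ?_)
  exact sum_congr rfl fun q _ => map_monomial _ _ _

theorem sP_kk (uft : UFT) (trc : TRC) (tfb : TFB) {h : ℕ} (hB : B.Ok s h) (hW : Wf s W blk)
    {e m : τ → ℝ} {ej : ℝ} (he : ∀ a, blk a = j → e a = ej) (hm : ∀ a, blk a ≠ j → m a = 1)
    (p : (ff blk s j B b hp la').SC W ⊕ L → ℝ) (w : B.SC W) :
    sP B.T _ W (B.T.Φ w.1.1) w.1.2 (kk b hp la' e m p) = (∏ a ∈ w.1.2, m a) *
      sP _ _ W ((ff blk s j B b hp la').T.Φ (c0 b hp la' hs w).1.1) w.1.2 (fun w' => p (.inl w')) +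
      ej * Rm (fun q => (B.T.tw _ (B.T.tw0 _)).u (zc b) q) (fun x => (kw blk B.la (ow blk B.la x.1.2))⁻¹)
        (fun x => aeval (YY b hp la' p) ((ff blk s j B b hp la').T.Φ x)) w.1.1 w.1.2 := by
  have o := tfb τ L B.T s h blk B.la {j} b hp hB.old.ok hB.old.lev fun ℓ => (hB.la ℓ).1
  refine (trc τ B.T _ W _ _ hW.dw (fun c => Nat.lt_succ_of_le (hs.le c).1)
    (hom_Y o e m _) _ w.2.2.1).trans ((congrArg _ (uft τ _ _ _ _ o e m _ _)).trans
      ((key (hW.inj _ w.2.2.1) (hp w.1.1) he hm).trans ?_))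
  change (kw blk B.la 0)⁻¹ * _ + _ = _
  rw [kw, Finsupp.support_zero, prod_empty, inv_one, one_mul]
  rfl

variable {C1 : Type} [Fintype C1] [DecidableEq C1] {T1 : TT L C1} {e : Gd.Lv T1 → B.SC W}
  (hE : Em T1 e (B.SY W blk))

include hE in
theorem ex_t (c : Gd.Lv T1) (k : j ∈ T1.ty c.1) : ∃ t ∈ (e c).1.2, blk t = j := by
  rw [← hE.ty c] at k
  exact mem_image.1 k

include hE in
theorem ty_one (c : Gd.Lv T1) {t : τ} (ht : blk t = j) (k : (e c).1.2 = {t}) : T1.ty c.1 = {j} := by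
  rw [← hE.ty c, ← ht]
  exact (congrArg (image blk) k).trans (image_singleton _ _)

theorem ne_j (a : ℕ) (z : C1 → ℤ) {c : T1.Bl j} (k : ((T1.rc j a z).ty (.inr c)).Nonempty) :
    T1.ty c.1 ≠ {j} := fun n => by simp [n] at k

/-- the embedding -/
def ee (hW : Dw W) (h1 : ∀ c, B.T.lev c ≤ s) (a : ℕ) (z : C1 → ℤ) :
    Gd.Lv (T1.rc j a z) → (ff blk s j B b hp la').SC W
  | ⟨.inl c, k⟩ => c0 b hp la' hs (e ⟨c, k⟩)
  | ⟨.inr c, k⟩ => c1 b hp la' hs hW ((hp _).trans_le (h1 (e ⟨c.1, _, c.2⟩).1.1)) (e ⟨c.1, _, c.2⟩)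
      (ex_t hE ⟨c.1, _, c.2⟩ c.2).choose_spec.1 (ex_t hE ⟨c.1, _, c.2⟩ c.2).choose_spec.2
      fun n => ne_j a z k (ty_one hE _ (ex_t hE ⟨c.1, _, c.2⟩ c.2).choose_spec.2 n)

variable {h : ℕ} (hB : B.Ok s h) (hW : Wf s W blk) (a : ℕ) {z : C1 → ℤ}

theorem ee_inj : Function.Injective (ee b hp la' hs hE hW.dw hB.old.lev a z) := by
  rintro ⟨c | c, k⟩ ⟨c' | c', k'⟩ q
  · have : e ⟨c, k⟩ = e ⟨c', k'⟩ := Subtype.ext
      (Prod.ext (congrArg (fun w => w.1.1.1.1) q) (congrArg (fun w => w.1.2) q))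
    obtain rfl : c = c' := congrArg Subtype.val (hE.inj this)
    rfl
  · cases congrArg (fun w => w.1.1.1.2) q
  · cases congrArg (fun w => w.1.1.1.2) q
  · have t := Finsupp.single_left_injective (M := ℕ) one_ne_zero
      (congrArg (fun w : (ff blk s j B b hp la').SC W => ow blk B.la
        (show B.T.Tc (bg blk B.la s {j}) from w.1.1).1.2) q : Finsupp.single _ 1 = Finsupp.single _ 1)
    have : e ⟨c.1, _, c.2⟩ = e ⟨c'.1, _, c'.2⟩ := Subtype.ext
      (Prod.ext (congrArg (fun w => w.1.1.1.1) q)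
        ((insert_erase (ex_t hE ⟨c.1, _, c.2⟩ c.2).choose_spec.1).symm.trans
          ((congrArg₂ insert t (congrArg (fun w => w.1.2) q)).trans
            (insert_erase (ex_t hE ⟨c'.1, _, c'.2⟩ c'.2).choose_spec.1))))
    obtain rfl : c = c' := Subtype.ext (congrArg (fun x : Gd.Lv T1 => x.1) (hE.inj this))
    rfl

theorem ee_ty (c : Gd.Lv (T1.rc j a z)) : ((ff blk s j B b hp la').SY W blk).ty
    (ee b hp la' hs hE hW.dw hB.old.lev a z c) = (T1.rc j a z).ty c.1 := by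
  obtain ⟨c | c, k⟩ := c
  · exact hE.ty ⟨c, k⟩
  · obtain ⟨a1, a2⟩ := (ex_t hE ⟨c.1, _, c.2⟩ c.2).choose_spec
    refine Eq.trans ?_ (congrArg (·.erase j) (hE.ty ⟨c.1, _, c.2⟩))
    refine Finset.ext fun l => ⟨fun q => ?_, fun q => ?_⟩
    · obtain ⟨x, x1, rfl⟩ := mem_image.1 q
      exact mem_erase.2 ⟨fun n => (mem_erase.1 x1).1 (hW.inj _ (e _).2.2.1 (mem_erase.1 x1).2 a1
        (n.trans a2.symm)), mem_image_of_mem _ (mem_erase.1 x1).2⟩
    · obtain ⟨x, x1, rfl⟩ := mem_image.1 (mem_erase.1 q).2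
      exact mem_image_of_mem _ (mem_erase.2 ⟨fun n => (mem_erase.1 q).1 (n ▸ a2), x1⟩)

theorem DD_eq (hx : Ext B W blk s {j} e z b) (d : T1.CR j → ℤ)
    (p : (ff blk s j B b hp la').SC W ⊕ L → ℝ) (c : Gd.Lv T1) : DD b hp la' p (e c) =
      if j ∈ T1.ty c.1 then T1.dn j z
        (rr (T1.rc j a z) (ee b hp la' hs hE hW.dw hB.old.lev a z) d p) (.inl c.1) else 0 := by
  have i := hW.inj _ (e c).2.2.1
  split_ifs with k
  · obtain ⟨a1, a2⟩ := (ex_t hE c k).choose_spec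
    have h1 : 1 ≤ s := (hp _).trans_le (hB.old.lev (e c).1.1)
    refine Eq.trans ?_ (dif_pos k).symm
    split_ifs with n
    · have A : (e c).1.2 = {_} := eq_singleton_iff_unique_mem.2 ⟨a1, fun x x1 => i x1 a1
        ((mem_singleton.1 (n ▸ hE.ty c ▸ mem_image_of_mem blk x1)).trans a2.symm)⟩
      have l : B.T.lev (e c).1.1 = 1 := (e c).2.2.2.symm.trans (by rw [A, card_singleton])
      have q : (bg blk B.la s {j}).cd (bw B.la a2 h1) = B.T.deg (e c).1.1 :=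
        (Finsupp.mapDomain_single (f := fun _ : τ => ())).trans (Finsupp.ext fun u =>
          Finsupp.single_eq_same.trans (l.symm.trans (by simp [TS.lev, Finsupp.degree_eq_sum])))
      have r : Finsupp.single _ 1 = ind (e c).1.2 := (ind_one _).symm.trans (congrArg ind A.symm)
      exact (Rm1 i l ⟨(_, _), q⟩ rfl r).trans (congrArg _ (hx c ⟨(_, _), q⟩ rfl r))
    · have l : ((T1.rc j a z).ty (.inr ⟨c.1, k⟩)).Nonempty := nonempty_iff_ne_empty.2 fun z =>
        n (((erase_eq_empty_iff _ _).1 z).resolve_left c.2.ne_empty)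
      refine (Rm2 i a1 a2 (fun m => n (ty_one hE c a2 m))
        (ee b hp la' hs hE hW.dw hB.old.lev a z ⟨.inr ⟨c.1, k⟩, l⟩).1.1 rfl rfl).trans ?_
      exact (one_mul _).trans ((coeff_YY b hp la' p
        (ee b hp la' hs hE hW.dw hB.old.lev a z ⟨.inr ⟨c.1, k⟩, l⟩)).trans (rr_pos _ _ _ _ l).symm)
  · exact Rm0 i fun t x n => k (hE.ty c ▸ n ▸ mem_image_of_mem blk x)

include hE in
theorem nj (c : Gd.Lv T1) (k : j ∉ T1.ty c.1) : ∀ t ∈ (e c).1.2, blk t ≠ j := fun _ x n =>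
  k (hE.ty c ▸ n ▸ mem_image_of_mem blk x)

include hW in
theorem er (w : B.SC W) {t : τ} (a1 : t ∈ w.1.2) (a2 : blk t = j) :
    ∀ x ∈ w.1.2.erase t, blk x ≠ j := fun _ x1 n => (mem_erase.1 x1).1
  (hW.inj _ w.2.2.1 (mem_erase.1 x1).2 a1 (n.trans a2.symm))

theorem z0 {A : Finset τ} {t : τ} (a1 : t ∈ A) (a2 : blk t = j) :
    ∏ t ∈ A, (if blk t = j then 0 else 1 : ℝ) = 0 := prod_eq_zero a1 (if_pos a2)

theorem la0 (x : ℝ) {A : Finset τ} (k : ∀ t ∈ A, blk t ≠ j) :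
    ∏ t ∈ A, Function.update B.la j x (blk t) = ∏ t ∈ A, B.la (blk t) :=
  prod_congr rfl fun t x => Function.update_of_ne (k t x) _ _

theorem SY_Φ (B : Bs L) (p : B.SC W ⊕ L → ℝ) (w : B.SC W) : (B.SY W blk).Φ p w =
    (∏ t ∈ w.1.2, B.la (blk t)) * sP B.T _ W (B.T.Φ w.1.1) w.1.2 fun w' => p (.inl w') := rfl

variable (d : T1.CR j → ℤ) (p : (ff blk s j B b hp la').SC W ⊕ L → ℝ)

theorem up_eq : T1.up j (rr (T1.rc j a z) (ee b hp la' hs hE hW.dw hB.old.lev a z) d p) =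
    rr T1 e (fun c => d (.inl c)) (Sum.elim (kk b hp la' (fun t => if blk t = j then 0 else 1) 1 p)
      fun ℓ => if ℓ = j then 0 else p (.inr ℓ)) := by
  refine funext fun v => ?_
  rcases v with c | ℓ
  · by_cases l : (T1.ty c).Nonempty
    · refine (rr_pos (T1.rc j a z) _ d p (c := .inl c) l).trans (Eq.trans ?_ (rr_pos _ _ _ _ l).symm)
      refine Eq.trans ?_ (kk_eq b hp la' hs (ej := 0) (m := 1) (fun _ k => if_pos k) (fun _ _ => rfl)
        p (e ⟨c, l⟩) (hW.inj _ (e _).2.2.1)).symm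
      simp only [Pi.one_apply, prod_const_one, one_mul, zero_mul, add_zero]
      rfl
    · exact (rr_neg (T1.rc j a z) _ d p (c := .inl c) l).trans
        (rr_neg T1 e (fun c => d (.inl c)) _ l).symm
  · rfl

theorem dn_eq (hx : Ext B W blk s {j} e z b) :
    T1.dn j z (rr (T1.rc j a z) (ee b hp la' hs hE hW.dw hB.old.lev a z) d p) =
    rr T1 e (fun c => d (.inl c)) (Sum.elim (kk b hp la' 1 (fun t => if blk t = j then 0 else 1) p)
      fun ℓ => if ℓ = j then 1 else p (.inr ℓ)) := by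
  refine funext fun v => ?_
  rcases v with c | ℓ
  · by_cases l : (T1.ty c).Nonempty
    · refine Eq.trans ?_ (rr_pos _ _ _ _ l).symm
      refine Eq.trans ?_ (kk_eq b hp la' hs (ej := 1) (e := 1) (fun _ _ => rfl) (fun _ k => if_neg k)
        p (e ⟨c, l⟩) (hW.inj _ (e _).2.2.1)).symm
      rw [DD_eq b hp la' hs hE hB hW a hx d p ⟨c, l⟩, one_mul]
      by_cases q : j ∈ T1.ty c
      · obtain ⟨t, a1, a2⟩ := ex_t hE ⟨c, l⟩ q
        rw [if_pos q, z0 a1 a2, zero_mul, zero_add]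
      · rw [if_neg q, prod_eq_one fun t x => if_neg (nj hE ⟨c, l⟩ q t x), one_mul, add_zero]
        exact (dif_neg q).trans (rr_pos (T1.rc j a z) _ d p (c := .inl c) l)
    · have q : j ∉ T1.ty c := fun q => l ⟨j, q⟩
      exact (dif_neg q).trans ((rr_neg (T1.rc j a z) _ d p (c := .inl c) l).trans
        (rr_neg T1 e (fun c => d (.inl c)) _ l).symm)
  · rfl

theorem rci_eq (hx : Ext B W blk s {j} e z b) :
    T1.rci j 1 z (rr (T1.rc j a z) (ee b hp la' hs hE hW.dw hB.old.lev a z) d p) =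
    rr T1 e (fun c => d (.inl c)) (ka B W blk (ff blk s j B b hp la') p) := by
  refine funext fun v => ?_
  rcases v with c | ℓ
  · by_cases l : (T1.ty c).Nonempty
    · refine Eq.trans ?_ (rr_pos _ _ _ _ l).symm
      refine Eq.trans ?_ (kk_eq b hp la' hs (ej := p (.inr j)) (e := fun t => p (.inr (blk t)))
        (m := fun t => ((1 : L → ℕ) (blk t) : ℝ)) (fun _ k => congrArg (fun x => p (.inr x)) k)
        (fun _ _ => Nat.cast_one) p (e ⟨c, l⟩) (hW.inj _ (e _).2.2.1)).symm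
      rw [DD_eq b hp la' hs hE hB hW a hx d p ⟨c, l⟩, prod_eq_one fun _ _ => Nat.cast_one, one_mul]
      have r := rr_pos (T1.rc j a z) (ee b hp la' hs hE hW.dw hB.old.lev a z) d p (c := .inl c) l
      by_cases q : j ∈ T1.ty c
      · rw [if_pos q]
        exact (if_pos q).trans (by rw [r, Nat.cast_one, one_mul, add_comm]; rfl)
      · rw [if_neg q, mul_zero, add_zero]
        exact (if_neg q).trans r
    · have q : j ∉ T1.ty c := fun q => l ⟨j, q⟩
      exact (if_neg q).trans ((rr_neg (T1.rc j a z) _ d p (c := .inl c) l).trans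
        (rr_neg T1 e (fun c => d (.inl c)) _ l).symm)
  · rfl

end main

end Ec

open Ec in
theorem emc (uft : UFT) (trc : TRC) (tfb : TFB) : EMC := by
  intro τ L C1 _ _ _ _ _ _ B W blk T1 e s h j a z b hp hB hW hE hx
  have hs := hB.old.stg
  refine ⟨_, ⟨hE.ok.rc j a z, ee_inj b hp _ hs hE hB hW a, ee_ty b hp _ hs hE hB hW a, ?_⟩,
    fun d p => Ec.rci_eq b hp _ hs hE hB hW a d p hx⟩
  rintro d p ⟨c | c, k⟩
  · have u := sP_kk b hp _ hs uft trc tfb hB hW (m := 1) (ej := 0)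
      (e := fun t => if blk t = j then 0 else 1) (fun _ k => if_pos k) (fun _ _ => rfl) p (e ⟨c, k⟩)
    simp only [Pi.one_apply, prod_const_one, one_mul, zero_mul, add_zero] at u
    rw [SY_Φ, TT.rc_Φ_l, up_eq b hp _ hs hE hB hW a d p, hE.Φ _ _ ⟨c, k⟩, SY_Φ]
    refine (congrArg (fun x => _ * (_ * x)) u).trans
      ((mul_assoc _ _ _).symm.trans (congrArg (· * _) ?_))
    change _ = ∏ t ∈ (e ⟨c, k⟩).1.2, Function.update B.la j (B.la j * 2 ^ a) (blk t)
    split_ifs with q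
    · obtain ⟨t, a1, a2⟩ := ex_t hE ⟨c, k⟩ q
      rw [← mul_prod_erase _ _ a1, ← mul_prod_erase _ _ a1, la0 _ (er hW _ a1 a2), a2,
        Function.update_self]
      ring
    · rw [one_mul, la0 _ (nj hE ⟨c, k⟩ q)]
  · obtain ⟨a1, a2⟩ := (ex_t hE ⟨c.1, _, c.2⟩ c.2).choose_spec
    have u := sP_kk b hp _ hs uft trc tfb hB hW (e := 1) (ej := 1)
      (m := fun t => if blk t = j then 0 else 1) (fun _ _ => rfl) (fun _ k => if_neg k) p
      (e ⟨c.1, _, c.2⟩)
    rw [z0 a1 a2, zero_mul, zero_add, one_mul] at u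
    replace u := u.trans (Rm2 (hW.inj _ (e _).2.2.1) a1 a2 (fun n => ne_j a z k (ty_one hE _ a2 n))
      (Ec.ee b hp (Function.update B.la j (B.la j * 2 ^ a)) hs hE hW.dw hB.old.lev a z
        ⟨.inr c, k⟩).1.1 rfl rfl)
    rw [SY_Φ, TT.rc_Φ_r, if_neg (ne_j a z k), dn_eq b hp _ hs hE hB hW a d p hx,
      hE.Φ _ _ ⟨c.1, _, c.2⟩, SY_Φ]
    refine (congrArg (fun x => _ * x) u).trans ((mul_assoc _ _ _).symm.trans (congrArg (· * _) ?_))
    change _ * (∏ x ∈ (Finsupp.single _ 1).support, B.la (blk x))⁻¹ =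
      ∏ t ∈ (e ⟨c.1, _, c.2⟩).1.2.erase _, Function.update B.la j (B.la j * 2 ^ a) (blk t)
    have := (lt_of_lt_of_le (by positivity) (hB.la j).1).ne'
    rw [Finsupp.support_single_ne_zero _ one_ne_zero, prod_singleton, la0 _ (er hW _ a1 a2),
      ← mul_prod_erase _ _ a1, a2]
    field_simp

end Crest.Agent.N49.Md

end
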