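import Crest.Agent.N49.Md.St
import Crest.Agent.N49.Sy.Jbs
import Crest.Agent.N49.Tw.Mono

/-! # Row 49 (helper35): regular towers give `GG` with the frame hook -/

set_option autoImplicit false
set_option linter.unusedSectionVars false

open Finset

noncomputable section

namespace Crest.Agent.N49.Md

open Tw Rm Sy

variable {τ L : Type} [Fintype τ] [DecidableEq τ] [Fintype L] [DecidableEq L]

theorem hf_le {a b : ℕ} (e : a ≤ b) : (1 : ℝ) / 2 ^ b ≤ 1 / 2 ^ a :=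
  one_div_le_one_div_of_le (by positivity) (pow_le_pow_right₀ one_le_two e)

theorem rgm {T : TS Unit} {st : T.C → ℕ} {M s C C' a a' : ℕ} (o : Old T st M s)
    (h : T.RgS st M C a (1 / 2 ^ a) (1 / 2 ^ a)) (hC : C' ≤ C) (e : a' ≤ a) :
    T.RgS st M C' a' (1 / 2 ^ a') (1 / 2 ^ a') :=
  h.mono o.stg.tri (by positivity) (by simpa using hf_le (Nat.zero_le a)) hC e (hf_le e) (hf_le e)

theorem tM_mono {M M' : ℕ} (e : M ≤ M') : tM M ≤ tM M' :=
  (Nat.pow_le_pow_left (by omega) _).trans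
    (Nat.pow_le_pow_right (by omega) (Nat.mul_le_mul (by omega) (by omega)))

/-- two hooks at once -/
theorem gx_and {b : ℕ} : ∀ (g : ℕ) (C : Type) [Fintype C] [DecidableEq C] (T : TT L C)
    (X Y : Hk L C), GX (b + 1) g C T X → GX (b + 1) g C T Y →
    GX b g C T fun C' _ _ T' ι k => X C' T' ι k ∧ Y C' T' ι k := by
  intro g
  induction g with
  | zero => exact fun C _ _ T X Y h k =>
      ⟨Rm.mono _ _ _ _ _ _ T (Nat.le_succ b) le_rfl h.good, h.hook, k.hook⟩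
  | succ g ih =>
    intro C _ _ T X Y h k
    refine ⟨Rm.mono _ _ _ _ _ _ T (Nat.le_succ b) le_rfl h.good, ⟨h.hook, k.hook⟩,
      fun j a q ha h1 h2 => ?_⟩
    have a1 := h.2.2 j a q (by omega) h1 h2
    have a2 := k.2.2 j a q (by omega) h1 h2
    refine le_trans (h.ok.pr_mono fun z hz => ?_) ((h.ok.pr_union _ _).trans
      ((add_le_add a1 a2).trans_eq (by rw [pow_succ]; ring)))
    by_contra n
    simp only [Set.mem_union, Set.mem_ofPred_eq, not_or, not_not] at n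
    exact hz (ih _ _ _ _ n.1 n.2)

/-- beyond the depth `K0` the hook is void -/
theorem gx_void {b K0 : ℕ} {C : Type} [Fintype C] [DecidableEq C] {X : Hk L C}
    (hX : ∀ (C' : Type) [Fintype C'] [DecidableEq C'] (T' : TT L C') ι k, K0 < k → X C' T' ι k) :
    ∀ (g : ℕ) (C' : Type) [Fintype C'] [DecidableEq C'] (T : TT L C') ι k, K0 < k →
      Good b g L C' T → GX b g C' T (X.push ι k) := by
  intro g
  induction g with
  | zero => exact fun C' _ _ T ι k e h => ⟨h, hX _ _ _ _ e⟩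
  | succ g ih =>
    refine fun C' _ _ T ι k e h => ⟨h, hX _ _ _ _ e, fun j a q ha _ _ => ?_⟩
    refine le_trans (h.1.pr_mono ?_) (h.2.2.2.2 j a ha)
    intro z hz k
    refine hz ?_
    rw [Hk.push_push]
    exact ih _ _ _ _ (by omega) k

/-- the content of the hook -/
def Hx (B : Bs L) (W : Finset (Finset τ)) (blk : τ → L) (s h M C n : ℕ) {C1 : Type} [Fintype C1]
    [DecidableEq C1] (T1 : TT L C1) (ι : (C1 ⊕ L → ℝ) → B.SC W ⊕ L → ℝ) : Prop :=
  ∃ (f : Fr B.T τ L) (e : _), f.Ok s h ∧ f.M ≤ M ∧ f.m = 1 ∧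
    Tg B blk s f ∧ f.Rg C n (1 / 2 ^ n) (1 / 2 ^ n) ∧ Emb B W blk T1 ι f e

theorem Hx.mono (i : IDF) {B : Bs L} {W : Finset (Finset τ)} {blk : τ → L}
    {s h0 h M C n h' M' C' n' : ℕ} {C1 : Type} [Fintype C1] [DecidableEq C1] {T1 : TT L C1} {ι}
    (o : B.Ok s h0) (w : Wf s W blk) (k : Hx B W blk s h M C n T1 ι) (a : h ≤ h') (b : M ≤ M')
    (c : C' ≤ C) (d : n' ≤ n) : Hx B W blk s h' M' C' n' T1 ι :=
  let ⟨f, e, k1, k2, k3, k4, k5, k6⟩ := k
  ⟨f, e, ((i τ L B W blk s h0 o w).2.2 f h k1).2 h' a, k2.trans b, k3, k4,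
    rgm k1.old k5 c d, k6⟩

/-- one recentring -/
def STP (s M e0 : ℕ) : Prop := ∃ e1 : ℕ, ∀ C' K' : ℕ, ∃ C K : ℕ, ∀ (τ L C1 : Type) [Fintype τ]
  [DecidableEq τ]
  [Fintype L] [DecidableEq L] [Fintype C1] [DecidableEq C1] (B : Bs L) (W : Finset (Finset τ))
  (blk : τ → L) (b n : ℕ) (T1 : TT L C1) ι (j : L) (a : ℕ), 2 ≤ b → b ≤ n → Fintype.card τ ≤ b →
  B.Ok s b → Wf s W blk → a ≤ b → Hx B W blk s (b ^ e0) M C (n ^ K) T1 ι →
  T1.pr {z | ¬ Hx B W blk s (b ^ e1) (tM M) C' (n ^ K') (T1.rc j a z) (ι ∘ T1.rci j 1 z)} ≤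
    (1 / 2) ^ (b + 1)

theorem stp (cp : COMP) (tfo : TFO) (emc : EMC) (i : IDF) (gen : ∀ M C', GEN M C')
    (s M e0 : ℕ) : STP s M e0 := by
  have pe : PB fun b => b ^ e0 := PB.idt.pow e0
  have p1 : PB fun b => b + 1 := PB.idt.add (.const 1)
  obtain ⟨e1, h1⟩ : PB fun b => (s + 1) *
      (b ^ e0 + (b + 1) ^ s * ((b ^ e0 + b + 1) * (s + 1)) + 1) ^ 2 := (PB.const _).mul
    (((pe.add ((p1.pow s).mul (((pe.add .idt).add (.const 1)).mul (.const _)))).add
      (.const 1)).pow 2)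
  refine ⟨e1, fun C' K' => ?_⟩
  choose C c hG using fun M => gen M C'
  obtain ⟨K2, h2⟩ : PB fun n => (n + 1) ^ s + 2 * n ^ e0 * s + n ^ K' + (n + 2) :=
    (((p1.pow s).add (((PB.const 2).mul pe).mul (.const s))).add (PB.idt.pow K')).add
      (PB.idt.add (.const 2))
  obtain ⟨K, h3⟩ : PB fun n => (4 + ∑ M ∈ range (M + 1), c M) * (n ^ K2 + 2) :=
    (PB.const _).mul ((PB.idt.pow K2).add (.const 2))
  refine ⟨∑ M ∈ range (M + 1), C M, K,
    fun τ L C1 _ _ _ _ _ _ B W blk b n T1 ι j a hb hn ht o w ha ⟨f, e, k1, k2, k3, k4, k5, k6⟩ => ?_⟩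
  have m : f.M ∈ range (M + 1) := mem_range.2 (by omega)
  have c1 := single_le_sum (f := C) (fun _ _ => Nat.zero_le _) m
  have c2 := single_le_sum (f := c) (fun _ _ => Nat.zero_le _) m
  have E2 := h2 n (by omega)
  have E3 := h3 n (by omega)
  simp only at E2 E3
  obtain ⟨N, hN⟩ : ∃ N, N = n ^ K2 := ⟨_, rfl⟩
  rw [← hN] at E2 E3
  have E4 : 4 * (N + 2) + c f.M * (N + 2) ≤ n ^ K := by
    rw [← add_mul]; exact (Nat.mul_le_mul_right _ (by omega)).trans E3
  have t1 : (Fintype.card τ + 1) ^ s ≤ (b + 1) ^ s := Nat.pow_le_pow_left (by omega) s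
  have t2 : (b + 1) ^ s ≤ (n + 1) ^ s := Nat.pow_le_pow_left (by omega) s
  have t3 : 2 * b ^ e0 * s ≤ 2 * n ^ e0 * s := by gcongr
  have g := hG f.M τ L C1 f.toBs W blk T1 e s (b ^ e0) {j} N (n ^ K) (1 / 2 ^ N) (1 / 2 ^ n ^ K)
    (1 / 2 ^ N) rfl k1.toOk w k6.toEm (by omega) (by omega) (by positivity) (hf_le (by omega))
    (by positivity) (by simpa using hf_le (Nat.zero_le N)) ?_
    (k5.mono k1.old.stg.tri (by positivity) (by simpa using hf_le (Nat.zero_le (n ^ K))) c1 le_rfl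
      le_rfl (hf_le (by omega)))
  · refine le_trans (k6.ok.pr_mono ?_) (g.trans ?_)
    · rintro z hz ⟨bk, x, r⟩
      refine hz ?_
      have hp := k1.old.ok.toTri.lev_pos
      have l0 : ∀ ℓ, 0 < f.la ℓ := fun ℓ => lt_of_lt_of_le (by positivity) (k1.la ℓ).1
      have u : ∀ ℓ, 1 / 2 ^ (b ^ e0 + b) ≤ f.la ℓ ∧ f.la ℓ ≤ 2 ^ (b ^ e0 + b) := fun ℓ =>
        ⟨(hf_le (by omega)).trans (k1.la ℓ).1,
          (k1.la ℓ).2.trans (pow_le_pow_right₀ one_le_two (by omega))⟩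
      have o1 := tfo τ L f.toBs s (b ^ e0 + b) blk f.la (Function.update f.la j (f.la j * 2 ^ a)) 1
        {j} bk hp k1.old u (fun ℓ => ?_) fun ℓ => ⟨le_rfl, Nat.one_le_two_pow⟩
      · obtain ⟨o2, o3⟩ := cp τ L B W blk f _ s b _ _ o k1 o1 w
        obtain ⟨e', m1, m2⟩ := emc τ L C1 f.toBs W blk T1 e s _ j a z bk hp k1.toOk w k6.toEm x
        refine ⟨_, e', ((i τ L B W blk s b o w).2.2 _ _ o2).2 _ (le_trans ?_ (h1 b hb)),
          tM_mono k2, ?_, .tan _ _ _ bk hp k4 k1.old l0, ?_, ⟨m1, fun d p => ?_⟩⟩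
        · dsimp only; gcongr
        · change f.m * 1 = 1
          rw [k3, mul_one]
        · exact rgm o1.old r le_rfl (by omega)
        · rw [o3, ← k6.ι fun c => d (.inl c)]
          exact congrArg ι (m2 d p)
      · by_cases q : ℓ = j
        · subst q
          rw [Function.update_self, pow_add]
          exact ⟨by
            rw [← pow_add]
            exact (u ℓ).1.trans (le_mul_of_one_le_right (l0 ℓ).le (one_le_pow₀ one_le_two)),
            mul_le_mul (k1.la ℓ).2 (pow_le_pow_right₀ one_le_two ha) (by positivity) (by positivity)⟩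
        · rw [Function.update_of_ne q]; exact u ℓ
    · have := hf_le (show b + 2 ≤ N by omega)
      rw [pow_succ, ← div_div] at this
      rw [one_div_pow]; linarith
  · have a1 : ((N : ℝ) + 2) ^ c f.M ≤ 2 ^ (c f.M * (N + 2)) := by
      rw [mul_comm, pow_mul]
      exact pow_le_pow_left₀ (by positivity) (by exact_mod_cast (Nat.lt_two_pow_self (n := N + 2)).le) _
    rw [one_div_pow, ← pow_mul, mul_one_div, div_le_div_iff₀ (by positivity) (by positivity), one_mul]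
    refine (mul_le_mul_of_nonneg_right a1 (by positivity)).trans ?_
    rw [← pow_add]
    exact pow_le_pow_right₀ one_le_two (by omega)

theorem chain (i : IDF) {s : ℕ} (st : ∀ M e0, STP s M e0) (K0 C : ℕ) (r : ℕ) :
    ∀ M e0 : ℕ, ∃ C0 K M' E : ℕ, ∀ (τ L : Type) [Fintype τ] [DecidableEq τ] [Fintype L]
      [DecidableEq L] (B : Bs L) (W : Finset (Finset τ)) (blk : τ → L) (b n h M'' : ℕ), 2 ≤ b →
      b ≤ n → Fintype.card τ ≤ b → B.Ok s b → Wf s W blk → b ^ E ≤ h → M' ≤ M'' →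
      ∀ (g : ℕ) (C1 : Type) [Fintype C1] [DecidableEq C1] (T1 : TT L C1) ι k, K0 < k + r →
        Good (b + 1) g L C1 T1 → Hx B W blk s (b ^ e0) M C0 (n ^ K) T1 ι →
        GX b g C1 T1 ((Xf B W blk s K0 h M'' C n).push ι k) := by
  induction r with
  | zero => exact fun M e0 => ⟨0, 0, 0, 0, fun τ L _ _ _ _ B W blk b n h M'' _ _ _ _ _ _ _ g C1 _ _
      T1 ι k e gd _ => gx_void (fun _ _ _ _ _ _ a c => absurd c (by omega)) g _ _ _ _ e
        (Rm.mono _ _ _ _ _ _ T1 (Nat.le_succ b) le_rfl gd)⟩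
  | succ r ih =>
    intro M e0
    obtain ⟨e1, s1⟩ := st M e0
    obtain ⟨C1, K1, M1, E, h1⟩ := ih (tM M) e1
    obtain ⟨C2, K2, s2⟩ := s1 C1 K1
    refine ⟨C2 + C, K2 + 1, M1 + M, E + e0, fun τ L _ _ _ _ B W blk b n h M'' hb hn ht o w hh hM
      g C' _ _ T1 ι k e gd x => ?_⟩
    have p1 : ∀ {u v : ℕ}, u ≤ v → b ^ u ≤ b ^ v := fun h => Nat.pow_le_pow_right (by omega) h
    have p2 : ∀ {u v : ℕ}, u ≤ v → n ^ u ≤ n ^ v := fun h => Nat.pow_le_pow_right (by omega) h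
    have k0 : (Xf B W blk s K0 h M'' C n).push ι k C' T1 id 0 := fun _ =>
      x.mono i o w ((p1 (by omega)).trans hh) (by omega) (by omega)
        ((pow_one n).symm.trans_le (p2 (by omega)))
    have g0 := Rm.mono _ _ _ _ _ _ T1 (Nat.le_succ b) le_rfl gd
    cases g with
    | zero => exact ⟨g0, k0⟩
    | succ g =>
      refine ⟨g0, k0, fun j a q ha q1 q2 => ?_⟩
      obtain rfl : q = 1 := by omega
      have a1 := gd.2.2.2.2 j a (by omega)
      have a2 := s2 τ L C' B W blk b n T1 ι j a hb hn ht o w ha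
        (x.mono i o w le_rfl le_rfl (by omega) (p2 (by omega)))
      refine le_trans (gd.1.pr_mono ?_) ((gd.1.pr_union _ _).trans
        ((add_le_add a1 a2).trans_eq (by rw [pow_succ]; ring)))
      intro z hz
      by_contra u
      simp only [Set.mem_union, Set.mem_ofPred_eq, not_or, not_not] at u
      refine hz ?_
      rw [Hk.push_push]
      exact h1 τ L B W blk b n h M'' hb hn ht o w ((p1 (by omega)).trans hh) (by omega) g _ _ _ _
        (by omega) u.1 u.2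

theorem la_le {B : Bs L} {W : Finset (Finset τ)} {blk : τ → L} {s b : ℕ} (o : B.Ok s b)
    (w : Wf s W blk) {A : Finset τ} (hA : A ∈ W) :
    0 < ∏ a ∈ A, B.la (blk a) ∧ ∏ a ∈ A, B.la (blk a) ≤ 2 ^ (b * s) := by
  have l0 : ∀ ℓ, 0 < B.la ℓ := fun ℓ => lt_of_lt_of_le (by positivity) (o.la ℓ).1
  refine ⟨prod_pos fun a _ => l0 _, (prod_le_prod (fun a _ => (l0 _).le)
    fun a _ => (o.la _).2).trans ?_⟩
  rw [prod_const, ← pow_mul]
  exact pow_le_pow_right₀ one_le_two (Nat.mul_le_mul_left _ (w.le A hA))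

theorem card_W (sz : SZB) {W : Finset (Finset τ)} {blk : τ → L} {s : ℕ} (w : Wf s W blk) :
    #W ≤ (Fintype.card τ + 1) ^ s + 1 := by
  obtain ⟨a, -, c, -⟩ := sz τ L blk (fun _ => 1) s 0 _ 0 (by simp) le_rfl (by positivity)
  have := (a _ (c W w).1 (c W w).2).card
  rw [← card_image_of_injective (f := ind) W fun _ _ => ind_inj]
  have e := (Fintype.card_coe ((W.image ind).erase 0)).symm.trans_le
    ((Fintype.card_congr (Equiv.refl _)).trans_le this)
  have := pred_card_le_card_erase (s := W.image ind) (a := 0)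
  omega

/-- **the invariant of the symbol tower** -/
theorem inv_sy (sinv : SINV) (sz : SZB) {B : Bs L} {W : Finset (Finset τ)} {blk : τ → L}
    {s b C M N N' u n : ℕ} {η : ℝ} (o : B.Ok s b) (w : Wf s W blk) (se : SEMS B.M C) (hM : B.M ≤ M)
    (hs : s ≤ M) (h0 : 0 < η) (h1 : η ≤ 1) (r : B.Rg C n (1 / 2 ^ n) η)
    (e1 : ((Fintype.card τ + 1) ^ s + 2) * (N + 1) ^ M ≤ n) (e2 : (b * s + u * M) * 2 ≤ n) :
    Gd.Inv (B.SY W blk) N N' (2 ^ u) η := by
  have k := o.old.stg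
  refine sinv τ L B.T B.st M _ W _ blk N n N' (1 / 2 ^ n) η _
    ⟨k.cl, k.tri, k.lev, fun c => ⟨(k.le c).1.trans hM, (k.le c).2.trans hM⟩⟩ o.old.K w.dw w.inj
    (fun A hA => ⟨(w.le A hA).trans hs, (la_le o w hA).1, ?_⟩) (one_le_pow₀ one_le_two)
    (by positivity) (le_trans (Nat.mul_le_mul_right _ (Nat.succ_le_succ (card_W sz w))) e1)
    (se B.T B.st B.M n _ η le_rfl k h0 h1 r)
  have a := la_le o w hA
  rw [one_div, inv_mul_le_iff₀ (by positivity), mul_one]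
  refine le_trans (pow_le_pow_left₀ (by have := a.1; positivity)
    (mul_le_mul_of_nonneg_right a.2 (by positivity)) 2) ?_
  rw [← pow_mul, ← pow_add, ← pow_mul]
  exact pow_le_pow_right₀ one_le_two e2

theorem gxf (sinv : SINV) (cp : COMP) (tfo : TFO) (emc : EMC) (i : IDF) (sz : SZB)
    (gen : ∀ M C', GEN M C') (se : ∀ M, ∃ C0, ∀ C, C0 ≤ C → SEMS M C) (s l0 K0 M0 C : ℕ) :
    GXF s l0 K0 M0 C := by
  obtain ⟨C0, K1, M', E, h⟩ := chain i (stp cp tfo emc i gen s) K0 C (K0 + 1) M0 1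
  choose c hc using se
  have p1 : PB fun n => n + 1 := PB.idt.add (.const 1)
  have pN : PB fun n => l0 + 9 * (n + 1) := (PB.const _).add ((PB.const 9).mul p1)
  obtain ⟨K, hK⟩ : PB fun n => ((n + 1) ^ s + 2) * (l0 + 9 * (n + 1) + 1) ^ (M0 + s) +
      (n * s + (n + 1) * (n + 1 + 1) * (M0 + s)) * 2 + n ^ K1 + (n + 1 + 5 +
        (l0 + 9 * (n + 1)) * (l0 + 9 * (n + 1))) * (n + 1 + 1) :=
    (((((p1.pow s).add (.const 2)).mul ((pN.add (.const 1)).pow _)).add
      (((PB.idt.mul (.const s)).add ((p1.mul (p1.add (.const 1))).mul (.const _))).mul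
        (.const 2))).add (PB.idt.pow K1)).add
      (((p1.add (.const 5)).add (pN.mul pN)).mul (p1.add (.const 1)))
  refine ⟨C0 + ∑ M ∈ range (M0 + 1), c M, K + E, M',
    fun τ L _ _ _ _ B W blk b n hb hn hL ht hM o w r => ?_⟩
  have c1 := single_le_sum (f := c) (fun _ _ => Nat.zero_le _)
    (show B.M ∈ range (M0 + 1) from mem_range.2 (by omega))
  have E1 := (hK n (by omega)).trans (Nat.pow_le_pow_right (by omega) (Nat.le_add_right K E))
  simp only at E1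
  have t1 : ((Fintype.card τ + 1) ^ s + 2) * (l0 + 9 * (b + 1) + 1) ^ (M0 + s) ≤
      ((n + 1) ^ s + 2) * (l0 + 9 * (n + 1) + 1) ^ (M0 + s) := by gcongr; omega
  have t2 : (b * s + (b + 1) * (b + 1 + 1) * (M0 + s)) * 2 ≤
      (n * s + (n + 1) * (n + 1 + 1) * (M0 + s)) * 2 := by gcongr
  have t3 : (b + 1 + 5 + (l0 + 9 * (b + 1)) * (l0 + 9 * (b + 1))) * (b + 1 + 1) ≤
      (n + 1 + 5 + (l0 + 9 * (n + 1)) * (l0 + 9 * (n + 1))) * (n + 1 + 1) := by gcongr
  have iv := inv_sy sinv sz (N := l0 + 9 * (b + 1)) (N' := l0 + 9 * (b + 1))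
    (u := (b + 1) * (b + 1 + 1)) o w (hc B.M _ (by omega)) (M := M0 + s) (by omega) (by omega)
    (by positivity) (by simpa using hf_le (Nat.zero_le (n ^ (K + E)))) r (by omega) (by omega)
  have gd := Gd.goodT _ (b + 1) (b + 1) _ _ _ _ (by omega) le_rfl
    (iv.mono le_rfl (by positivity) le_rfl ((hf_le (by omega)).trans (kap_ge _ (b + 1))))
  obtain ⟨f0, ⟨e, em⟩, -⟩ := i τ L B W blk s b o w
  have := h τ L B W blk b n (b ^ (K + E)) M' hb hn ht o w
    (Nat.pow_le_pow_right (by omega) (by omega)) le_rfl b _ _ id 0 (by omega)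
    (Rm.mono _ _ _ _ _ _ _ le_rfl (Nat.le_succ b) gd)
    ⟨B.fr τ, e, by rwa [pow_one], hM, rfl, .id, rgm o.old r (by omega) (by omega), em⟩
  rwa [Hk.push_id] at this

end Crest.Agent.N49.Md

end
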