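import Crest.Agent.N49.Md.Tfb

/-!
# Row 49 (helper49): the product ring realises the morphism of the tangent frame (leaf HMK)
-/

set_option autoImplicit false
set_option linter.unusedSectionVars false

open Finset Matrix MvPolynomial

noncomputable section

namespace Crest.Agent.N49.Md

open Tw Rm Sy Po

namespace Hmk0

variable {τ L : Type} [Fintype τ] [DecidableEq τ] [Fintype L] [DecidableEq L] {blk : τ → L}
  {lam : L → ℝ} {W : Finset (Finset τ)}

theorem scl_id {m : τ → ℝ} (h : ∀ a, m a = 1) (P : MvPolynomial τ ℝ) : scl m P = P := by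
  rw [scl, show (fun a => C (m a) * X a) = (X : τ → MvPolynomial τ ℝ) from
    funext fun a => by rw [h, C_1, one_mul], aeval_X_left_apply]

theorem Y_one {T1 T2 : TS Unit} (θ : Tan T1 T2 τ) {e m : τ → ℝ} (he : ∀ a, e a = 1)
    (hm : ∀ a, m a = 1) (Y : T2.C → MvPolynomial τ ℝ) (F : T1.C) : θ.Y e m Y F =
      ∑ G with θ.fam G = some F, zr (θ.mon G) * Y G + zr (θ.be F) := by
  simp only [Tan.Y, scl_id he, scl_id hm, add_comm]

theorem cf_mon (μ ν : τ →₀ ℕ) (a : ℤ) : coeff ν (monomial μ (a : ℝ)) =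
    (((if μ = ν then 1 else 0) * a : ℤ) : ℝ) := by
  rw [coeff_monomial]; split_ifs <;> simp

/-- the polynomial of a configuration of the squarefree ring -/
theorem Yp_wv (T : TS Unit) (p : T.C → Prop) {_ : DecidablePred p} (y : T.Cw (mr blk lam
    (W.image ind)) → ℤ) {F : T.C} (hp : p F) :
    Yp T.lev (sx T p W fun w => ((wv blk lam T y w.1.1 (ind w.1.2) : ℤ) : ℝ)) F =
      ∑ q : T.Cw (mr blk lam (W.image ind)) with q.1.1 = F,
        monomial ((mr blk lam (W.image ind)).ty q.1.2) (y q : ℝ) := by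
  ext μ
  rw [Yp, coeff_sum, coeff_sum]
  simp only [coeff_monomial]
  rw [← sum_filter (s := filter _ _), filter_filter]
  by_cases k : ∃ A ∈ W, #A = T.lev F ∧ ind A = μ
  · obtain ⟨A, a, c, rfl⟩ := k
    rw [sum_eq_single A (fun _ _ n => if_neg fun e => n (ind_inj e))
      fun n => absurd (mem_powersetCard.2 ⟨subset_univ _, c⟩) n, if_pos rfl, sx,
      dif_pos ⟨hp, a, c⟩, wv, Int.cast_sum]
    rfl
  · rw [sum_eq_zero fun A _ => ?_, sum_eq_zero fun q hq => ?_]
    · obtain ⟨A, a, e⟩ := mem_image.1 (Sh.MW.mem q.1.2)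
      obtain ⟨-, e1, e2⟩ := mem_flt.1 hq
      exact absurd ⟨A, a, (Sb.deg_ind' A).symm.trans ((congrArg _ e).trans
        (e1 ▸ (TS.lev_cw q).symm)), e.trans e2⟩ k
    · split_ifs with e
      · exact dif_neg fun z => k ⟨A, z.2.1, z.2.2, e⟩
      · rfl

theorem wv_eq {R : Type} [AddCommMonoid R] {U : Finset (τ →₀ ℕ)} (T : TS Unit)
    (y : T.Cw (mr blk lam U) → R) (p : T.Cw (mr blk lam U)) :
    wv blk lam T y p.1.1 ((mr blk lam U).ty p.1.2) = y p :=
  sum_eq_single p (fun _ k n => absurd (Subtype.ext (Prod.ext (mem_flt.1 k).2.1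
    (Subtype.ext (mem_flt.1 k).2.2))) n) fun n => absurd (mem_flt.2 ⟨mem_univ _, rfl, rfl⟩) n

end Hmk0
open Hmk0

theorem hmk : HMK := fun τ L _ _ _ _ B W blk s h Ψ0 b hp ho Y y hB hW h1 h2 => by
  funext w
  rcases w with ⟨⟨F, A⟩, -, a, c⟩ | ℓ
  swap
  · rfl
  have n : ind A ≠ 0 := fun e => (hp F).ne' (c.symm.trans (by rw [ind_eq_zero.1 e]; rfl))
  let p : B.T.Cw (mr blk B.la (W.image ind)) := ⟨(F, ⟨ind A, mem_erase.2 ⟨n, mem_image_of_mem _ a⟩⟩),
    unit_ext ((Sh.cd_degree _).trans ((Sb.deg_ind' A).trans c))⟩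
  refine Eq.trans ?_ (congrArg Int.cast ((wv_eq B.T _ p).trans (TS.sum_tE b Ψ0 ho F _))).symm
  refine (congrArg (coeff (ind A)) (Y_one (tθ blk (l0 B.la) B.T s univ b hp) (fun _ => rfl)
    (fun _ => Nat.cast_one) _ F)).trans ((coeff_add _ _ _).trans
      (Eq.trans (congrArg₂ _ ?_ ?_) (Int.cast_add _ _).symm))
  · refine (coeff_sum _ _ _).trans (Eq.trans (sum_congr (Finset.ext fun _ => ⟨fun k => mem_flt.2
      ⟨mem_univ _, Option.some.inj (mem_flt.1 k).2⟩, fun k => mem_flt.2 ⟨mem_univ _,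
        congrArg some (mem_flt.1 k).2⟩⟩) fun x _ => ?_) (Int.cast_sum _ _).symm)
    refine (congrArg (coeff _) ((congrArg₂ _ (Tb.zr_mon _ 1) (Yp_wv (tT blk (l0 B.la) B.T s univ b)
      _ y (Nat.lt_succ_of_le (hB.old.stg.ts_le x)))).trans (mul_sum _ _ _))).trans
        ((coeff_sum _ _ _).trans (Eq.trans (sum_congr rfl fun q hq => ?_) (Int.cast_sum _ _).symm))
    obtain rfl := (mem_flt.1 hq).2
    rw [monomial_mul, Int.cast_one, one_mul, cf_mon]
    exact congrArg _ (congrArg _ (h2 q).symm)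
  · refine (congrArg (coeff _) (map_sum _ _ _)).trans ((coeff_sum _ _ _).trans
      (Eq.trans (sum_congr rfl fun q _ => ?_) (Int.cast_sum _ _).symm))
    refine (congrArg (coeff _) (Tb.zr_mon _ _)).trans ((cf_mon _ _ _).trans (congrArg _ ?_))
    exact congrArg₂ _ (if_congr (Eq.congr_left (add_zero _).symm) rfl rfl) (h1 q).symm

end Crest.Agent.N49.Md

end
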