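import Crest.Agent.N49.Md.St
import Crest.Agent.N49.Sy.Ssz
import Crest.Agent.N49.Tw.Cgen
import Crest.Agent.N49.Tw.ConH

/-!
# Row 49 (helper52): `c, v ↦ t` is a split surjection
-/

set_option autoImplicit false
set_option linter.unusedSectionVars false

open Finset Matrix MvPolynomial

noncomputable section

namespace Crest.Agent.N49.Md

open Tw Rm Sy Po

namespace Spl

variable {τ L : Type} [Fintype τ] [DecidableEq τ] [Fintype L] [DecidableEq L] {blk : τ → L}
  {la : L → ℝ} {s : ℕ} {W : Finset (Finset τ)}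

theorem ru_eq {τ' : Type} {S : Sh Unit τ'} (e : S.W → τ →₀ ℕ) (he : ∀ w, e w ≠ 0)
    (hr : ∀ w m, S.r w m = if Finsupp.weight e m = e w then 1 else 0) {ι : Type}
    (f : ι → Option S.W) (o : Option S.W) (m : ι →₀ ℕ) :
    S.ru o (Finsupp.weight (fun y => S.sg (f y)) m) =
      if Finsupp.weight (fun y => (f y).elim 0 e) m = o.elim 0 e then 1 else 0 := by
  have k : Finsupp.weight (fun y => (f y).elim 0 e) m =
      Finsupp.weight e (Finsupp.weight (fun y => S.sg (f y)) m) := by
    rw [← weight_hom]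
    refine congrArg (Finsupp.weight · m) (funext fun y => ?_)
    cases f y <;> simp [Sh.sg, Finsupp.weight_single]
  rw [k]
  cases o with
  | some w => exact hr w _
  | none =>
    refine if_congr ⟨fun z => by rw [z, map_zero]; rfl, fun z => by_contra fun n => ?_⟩ rfl rfl
    obtain ⟨a, ha⟩ := Finsupp.support_nonempty_iff.2 n
    exact he a (le_zero_iff.1 ((le_weight e ha).trans_eq z))

theorem wt_id {f : τ → τ →₀ ℕ} {α : τ →₀ ℕ} (h : ∀ b ∈ α.support, f b = Finsupp.single b 1) :
    Finsupp.weight f α = α := by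
  rw [Finsupp.weight_apply, Finsupp.sum_congr (g2 := Finsupp.single) fun b k => by simp [h b k],
    Finsupp.sum_single]

theorem wt_0 {f : τ → τ →₀ ℕ} {α : τ →₀ ℕ} (h : ∀ b ∈ α.support, f b = 0) :
    Finsupp.weight f α = 0 := by
  rw [Finsupp.weight_apply]; exact sum_eq_zero fun b k => by simp [h b k]

variable (blk la s W) in
/-- the words -/
abbrev XX : Type := Sh.TW (bg blk (l0 la) s univ) (mr blk (l2 la) (W.image ind))

/-- the background part -/
def A (x : XX blk la s W) : τ →₀ ℕ := ow blk (l0 la) x.1.1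
/-- the direction part -/
def B (x : XX blk la s W) : τ →₀ ℕ := x.1.2.elim 0 fun w => w.1

theorem ph_eq (w : Sh.MW (W.image ind)) (x : XX blk la s W) :
    ph blk la s W w x = if A x + B x = w.1 then 1 else 0 := rfl

theorem tn_r (x : XX blk la s W) (m : XX blk la s W →₀ ℕ) : (tn blk la s W).r x m =
    if Finsupp.weight A m = A x ∧ Finsupp.weight B m = B x then 1 else 0 := by
  refine (congrArg₂ (· * ·) (ru_eq (S := bg blk (l0 la) s univ) (fun w => w.1.1)
    (fun w => Sh.MW.ne w.1) (fun w m => if_congr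
      (iff_of_eq (congrArg (· = w.1.1) (TS.weight_map _ _ m))) rfl rfl)
    (fun y : XX blk la s W => y.1.1) x.1.1 m) (ru_eq (S := mr blk (l2 la) (W.image ind))
    (fun w => w.1) Sh.MW.ne (fun _ _ => rfl) (fun y : XX blk la s W => y.1.2) x.1.2 m)).trans ?_
  exact (ite_zero_mul_ite_zero _ _ _ _).trans (if_congr Iff.rfl (mul_one _) rfl)

theorem tn_dg (x : XX blk la s W) : (tn blk la s W).dg x = (A x).degree + (B x).degree := by
  refine (Finsupp.degree_single _ _).trans (congrArg₂ _ ?_ ?_)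
  · unfold A; cases x.1.1 <;> rfl
  · unfold B; cases x.1.2 <;> rfl

theorem ext' {x y : XX blk la s W} (a : A x = A y) (b : B x = B y) : x = y := by
  obtain ⟨⟨x0, x1⟩, _⟩ := x
  obtain ⟨⟨y0, y1⟩, _⟩ := y
  refine Subtype.ext (Prod.ext ?_ ?_)
  · rcases x0 with _ | x0 <;> rcases y0 with _ | y0
    · rfl
    · exact (Sh.MW.ne y0.1 a.symm).elim
    · exact (Sh.MW.ne x0.1 a).elim
    · exact congrArg some (Subtype.ext (Subtype.ext a))
  · rcases x1 with _ | x1 <;> rcases y1 with _ | y1
    · rfl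
    · exact (Sh.MW.ne y1 b.symm).elim
    · exact (Sh.MW.ne x1 b).elim
    · exact congrArg some (Subtype.ext b)

theorem ex {α β : τ →₀ ℕ} (a : α.degree ≤ s) (b : β ≠ 0 → β ∈ W.image ind) (n : α + β ≠ 0) :
    ∃ x : XX blk la s W, A x = α ∧ B x = β := by
  by_cases a0 : α = 0 <;> by_cases b0 : β = 0
  · simp [a0, b0] at n
  · exact ⟨⟨(none, some ⟨β, mem_erase.2 ⟨b0, b b0⟩⟩), by simp⟩, a0.symm, rfl⟩
  · exact ⟨⟨(some ⟨⟨α, mem_erase.2 ⟨a0, mem_full.2 a⟩⟩, fun _ _ => mem_univ _⟩, none), by simp⟩,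
      rfl, b0.symm⟩
  · exact ⟨⟨(some ⟨⟨α, mem_erase.2 ⟨a0, mem_full.2 a⟩⟩, fun _ _ => mem_univ _⟩,
      some ⟨β, mem_erase.2 ⟨b0, b b0⟩⟩), by simp⟩, rfl, rfl⟩

theorem A_le (x : XX blk la s W) : (A x).degree ≤ s := by
  obtain ⟨⟨_ | w, _⟩, _⟩ := x
  · exact Nat.zero_le _
  · exact mem_full.1 (Sh.MW.mem w.1)

theorem B_mem (x : XX blk la s W) (h : B x ≠ 0) : B x ∈ W.image ind := by
  obtain ⟨⟨_, _ | w⟩, _⟩ := x
  · exact (h rfl).elim
  · exact Sh.MW.mem w

theorem ne0 (x : XX blk la s W) : A x + B x ≠ 0 := fun z => by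
  obtain ⟨a, b⟩ := add_eq_zero.1 z
  obtain ⟨⟨_ | w, _ | w'⟩, n⟩ := x
  · exact n rfl
  · exact Sh.MW.ne w' b
  all_goals exact Sh.MW.ne w.1 a

theorem w_le (h : Wf s W blk) (w : Sh.MW (W.image ind)) : w.1.degree ≤ s := by
  obtain ⟨S, k, e⟩ := mem_image.1 w.mem
  refine le_trans (le_of_eq ?_) (h.le S k)
  rw [← e]
  exact (sum_congr rfl fun _ h => if_pos h).trans (card_eq_sum_ones S).symm

theorem ex' (h : Wf s W blk) (w : Sh.MW (W.image ind)) {α β : τ →₀ ℕ} (e : α + β = w.1) :
    ∃ x : XX blk la s W, A x = α ∧ B x = β :=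
  ex ((degree_mono (e ▸ le_self_add)).trans (w_le h w))
    (fun _ => h.dw.dn _ w.mem _ (e ▸ le_add_self)) (e ▸ w.ne)

/-- the section -/
def io (w : Sh.MW (W.image ind)) : XX blk la s W := ⟨(none, some w), by simp⟩

theorem tn_K (x y : XX blk la s W) : (tn blk la s W).K x y =
    if x = y then (kw blk (l0 la) (A x) ^ 2)⁻¹ * (kw blk (l2 la) (B x) ^ 2)⁻¹ else 0 := by
  have k : ∀ lam, kw blk lam (0 : τ →₀ ℕ) = 1 := fun _ => rfl
  obtain ⟨⟨x0, _ | x1⟩, n⟩ := x <;> obtain ⟨⟨y0, _ | y1⟩, n'⟩ := y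
  · obtain _ | x0 := x0
    · exact (n rfl).elim
    obtain _ | y0 := y0
    · exact (n' rfl).elim
    change (if x0.1.1 = y0.1.1 then _ else 0) = if _ then _ * (kw blk (l2 la) 0 ^ 2)⁻¹ else 0
    rw [k, one_pow, inv_one, mul_one]
    exact if_congr ⟨fun e => ext' e rfl, fun e => congrArg A e⟩ rfl rfl
  · exact (if_neg fun e => by simp at e).symm
  · exact (if_neg fun e => by simp at e).symm
  · change vv blk (l0 la) s univ x0 y0 * (if x1.1 = y1.1 then _ else 0) = _
    rw [vv, diagonal_apply, ite_zero_mul_ite_zero]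
    exact if_congr ⟨fun e => Subtype.ext (Prod.ext e.1 (congrArg some (Subtype.ext e.2))),
      fun e => ⟨congrArg (·.1.1) e, congrArg B e⟩⟩ rfl rfl

theorem hm (h : Wf s W blk) : (tn blk la s W).Hm (mr blk la (W.image ind)) (ph blk la s W) where
  cd (w : Sh.MW (W.image ind)) (x : XX blk la s W) z := unit_ext ((Sh.cd_degree _).trans
    (Eq.trans (by
      rw [tn_dg, ← map_add, show A x + B x = w.1 from of_not_not fun n => z (if_neg n)]; rfl)
      (Sh.cd_degree _).symm))
  mul (w : Sh.MW (W.image ind)) (m : XX blk la s W →₀ ℕ) _ := by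
    have q : (Ideal.Quotient.mkₐ ℤ (idl ℤ h.dw.dn)).comp ((Sh.rz (W.image ind) ℤ).comp
        (aeval fun x : XX blk la s W => (mr blk la (W.image ind)).el fun w => ph blk la s W w x)) =
        (Ideal.Quotient.mkₐ ℤ (idl ℤ h.dw.dn)).comp
          (aeval fun x : XX blk la s W => monomial (A x + B x) (1 : ℤ)) := algHom_ext fun x => by
      refine Ideal.Quotient.eq.2 fun μ k => ?_
      change coeff μ (Sh.rz _ ℤ (aeval _ (X x)) - aeval _ (X x)) = 0
      rw [aeval_X, aeval_X, coeff_sub, sub_eq_zero, coeff_monomial]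
      change coeff μ (Sh.rz _ ℤ (∑ w : Sh.MW (W.image ind), ph blk la s W w x • X w)) = _
      simp only [map_sum, map_zsmul, Sh.rz, aeval_X, coeff_sum, coeff_smul, coeff_monomial,
        smul_eq_mul, ph_eq, ite_mul, one_mul, zero_mul]
      exact Sh.sum_word (fun ν => if ν = μ then 1 else 0) (ne0 x) fun z =>
        of_not_not (fun n => z (if_neg n)) ▸ k
    have q' := sub_eq_zero.1 ((coeff_sub _ _ _ _).symm.trans
      (Ideal.Quotient.eq.1 (DFunLike.congr_fun q (monomial m 1)) w.1 w.mem))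
    have e : Finsupp.weight (fun x : XX blk la s W => A x + B x) m =
        Finsupp.weight A m + Finsupp.weight B m := by
      simp only [Finsupp.weight_apply, smul_add, Finsupp.sum_add]
    have e' : aeval (fun x : XX blk la s W => monomial (A x + B x) (1 : ℤ)) (monomial m (1 : ℤ)) =
        monomial (Finsupp.weight (fun x => A x + B x) m) 1 := by
      simp only [aeval_monomial, monomial_pow, one_pow, Finsupp.prod, ← monomial_sum_one,
        map_one, one_mul, Finsupp.weight_apply, Finsupp.sum]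
    refine Eq.trans ?_ ((Sh.cf_rz w _).trans (q'.trans (congrArg (coeff w.1) e'))).symm
    rw [e, coeff_monomial]
    change ∑ x : XX blk la s W, ph blk la s W w x * (tn blk la s W).r x m = _
    simp only [ph_eq, tn_r]
    split_ifs with k
    · obtain ⟨x, a, b⟩ := ex' (la := la) h w k
      rw [sum_eq_single x (fun y _ n => by
        rw [if_neg (c := _ ∧ _) fun z => n (ext' (z.1.symm.trans a.symm) (z.2.symm.trans b.symm)),
          mul_zero])
        (fun n => (n (mem_univ _)).elim), if_pos (a ▸ b ▸ k), if_pos ⟨a.symm, b.symm⟩, mul_one]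
    · refine sum_eq_zero fun x _ => ?_
      split_ifs with a b
      · exact (k (b.1 ▸ b.2 ▸ a)).elim
      all_goals simp
  mass := by
    have z : (tn blk la s W).ε = 0 := funext fun x => by
      obtain ⟨⟨_ | w, _ | w'⟩, n⟩ := x
      · rfl
      · exact sum_eq_zero fun _ _ => ite_self _
      · exact sum_eq_zero fun _ _ => ite_self _
      · rfl
    rw [z, mulVec_zero]
    exact funext fun w => (sum_eq_zero fun _ _ => ite_self _).symm

theorem sum_d (hl : ∀ ℓ, 0 < la ℓ) (h : Wf s W blk) (w : Sh.MW (W.image ind)) :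
    ∑ x : XX blk la s W with A x + B x = w.1,
      (kw blk (l0 la) (A x) ^ 2)⁻¹ * (kw blk (l2 la) (B x) ^ 2)⁻¹ = (kw blk la w.1 ^ 2)⁻¹ := by
  obtain ⟨S, k, eS⟩ := mem_image.1 w.mem
  have i1 : ∀ T ⊆ S, ind T + ind (S \ T) = w.1 := fun T hT => by
    rw [← eS]; ext a
    by_cases a1 : a ∈ T
    · simp [ind_apply, a1, hT a1]
    · simp [ind_apply, a1]
  have i2 : ∀ x : XX blk la s W, A x + B x = w.1 → (A x).support ⊆ S ∧
      ind (A x).support = A x := fun x z => ind_of_le (by rw [eS, ← z]; exact le_self_add)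
  refine (sum_bij (t := S.powerset) (g := fun T => (∏ a ∈ T, (l0 la (blk a) ^ 2)⁻¹) *
    ∏ a ∈ S \ T, (l2 la (blk a) ^ 2)⁻¹) (fun x _ => (A x).support)
    (fun x k => mem_powerset.2 (i2 x (mem_filter.1 k).2).1) (fun x k y k' z => ?_)
    (fun T k => ?_) fun x k => ?_).trans ?_
  · have a := (mem_filter.1 k).2
    have b := (mem_filter.1 k').2
    have e : A x = A y := by rw [← (i2 x a).2, ← (i2 y b).2]; exact congrArg ind z
    rw [e] at a
    exact ext' e (add_left_cancel (a.trans b.symm))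
  · obtain ⟨x, a, b⟩ := ex' (la := la) h w (i1 T (mem_powerset.1 k))
    exact ⟨x, mem_filter.2 ⟨mem_univ _, by rw [a, b]; exact i1 T (mem_powerset.1 k)⟩,
      congrArg Finsupp.support a⟩
  · have a := i2 x (mem_filter.1 k).2
    have b : B x = ind (S \ (A x).support) := add_left_cancel
      ((mem_filter.1 k).2.trans ((i1 _ a.1).symm.trans (by rw [a.2])))
    rw [b, prod_inv_distrib, prod_inv_distrib, prod_pow, prod_pow]; rfl
  · rw [← prod_add, ← eS]
    change _ = ((∏ a ∈ S, la (blk a)) ^ 2)⁻¹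
    rw [← prod_pow, ← prod_inv_distrib]
    refine prod_congr rfl fun a _ => ?_
    have := (hl (blk a)).ne'
    rw [mul_pow, mul_pow, div_pow, Real.sq_sqrt (by norm_num)]
    field_simp
    norm_num

theorem K_app {ι κ : Type} [Fintype κ] [DecidableEq κ] (φ : Matrix ι κ ℤ) (K : Matrix κ κ ℝ)
    (d : κ → ℝ) (hK : ∀ x y, K x y = if x = y then d x else 0) (w w' : ι) :
    (rl φ * K * (rl φ)ᵀ) w w' = ∑ y, (φ w y : ℝ) * d y * φ w' y := by
  simp [mul_apply, hK, rl]

theorem hK (hl : ∀ ℓ, 0 < la ℓ) (h : Wf s W blk) : (mr blk la (W.image ind)).K =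
    rl (ph blk la s W) * (tn blk la s W).K * (rl (ph blk la s W))ᵀ := by
  refine Matrix.ext fun (w : Sh.MW (W.image ind)) (w' : Sh.MW (W.image ind)) => ?_
  refine Eq.trans ?_ (K_app (κ := XX blk la s W) (ph blk la s W) _ _ tn_K w w').symm
  refine Eq.trans (b := if w.1 = w'.1 then (kw blk la w.1 ^ 2)⁻¹ else 0) rfl ?_
  simp only [ph_eq]
  split_ifs with e
  · rw [← e, ← sum_d hl h w, sum_filter]
    refine sum_congr rfl fun x _ => ?_
    split_ifs <;> simp
  · refine (sum_eq_zero fun x _ => ?_).symm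
    split_ifs with a b
    · exact (e (a.symm.trans b)).elim
    all_goals simp

theorem sec (hl : ∀ ℓ, 0 < la ℓ) (h : Wf s W blk) {n : ℕ} (hn : 1 ≤ n) :
    (tn blk la s W).Sec (mr blk la (W.image ind)) n (ph blk la s W) io where
  ok := (ssz τ W (fun S => ∏ a ∈ S, la (blk a)) (#W + 1) 0 h.dw
    (fun _ _ => ⟨prod_pos fun _ _ => hl _, by simp⟩) (by omega) (by omega)).toOk
  hm := hm h
  K := hK hl h
  sec w w' := if_congr ⟨fun e => Subtype.ext ((zero_add _).symm.trans e).symm,
    fun e => e ▸ zero_add _⟩ rfl rfl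
  ht w x := by
    rw [ph_eq]; split_ifs <;> simp [hn]
  gen (κ : XX blk la s W → ℤ) hκ (x : XX blk la s W) hx := by
    obtain ⟨y, hy, mn⟩ := exists_min_image (univ.filter fun y : XX blk la s W =>
      κ y ≠ 0 ∧ (tn blk la s W).dg y = (tn blk la s W).dg x) (fun y => (A y).degree)
      ⟨x, mem_filter.2 ⟨mem_univ _, hx, rfl⟩⟩
    obtain ⟨-, y1, y2⟩ := mem_filter.1 hy
    have a0 : A y ≠ 0 := fun z => y1 (by
      have b : B y ≠ 0 := fun z' => ne0 y (by rw [z, z', add_zero])
      rw [show y = io ⟨B y, mem_erase.2 ⟨b, B_mem y b⟩⟩ from ext' z rfl]; exact hκ _)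
    obtain ⟨a, ha⟩ := Finsupp.support_nonempty_iff.2 a0
    obtain ⟨α, eα⟩ : ∃ α, A y = Finsupp.single a 1 + α := exists_add_of_le
      (Finsupp.single_le_iff.2 (Nat.one_le_iff_ne_zero.2 (Finsupp.mem_support_iff.1 ha)))
    have dA : (A y).degree = 1 + α.degree := by rw [eα, map_add, Finsupp.degree_single]
    have s1 : 1 ≤ s := le_trans (by omega) (A_le y)
    choose c c1 c2 using fun b : τ => ex (blk := blk) (la := la) (s := s) (W := W)
      (α := Finsupp.single b 1) (β := 0) (by simpa using s1) (fun n => (n rfl).elim) (by simp)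
    have : ∀ b : τ, ∃ z : XX blk la s W, b ∈ (B y).support → A z = 0 ∧ B z = Finsupp.single b 1 :=
      fun b => by
        by_cases k : b ∈ (B y).support
        · obtain ⟨z, e⟩ := ex (blk := blk) (la := la) (s := s) (W := W) (α := 0)
            (β := Finsupp.single b 1) (by simp) (fun _ => h.dw.dn.single _ (B_mem y fun z => by
              simp [z] at k) b (Finsupp.mem_support_iff.1 k)) (by simp)
          exact ⟨z, fun _ => e⟩
        · exact ⟨y, fun n => (k n).elim⟩
    choose v hv using this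
    obtain ⟨M, mA, mB, dM, sM⟩ : ∃ M : XX blk la s W →₀ ℕ, Finsupp.weight A M = α ∧
        Finsupp.weight B M = B y ∧ M.degree = α.degree + (B y).degree ∧
        ∀ z ∈ M.support, (tn blk la s W).dg z = 1 := by
      refine ⟨α.mapDomain c + (B y).mapDomain v, ?_, ?_, ?_, fun z hz => ?_⟩
      · rw [map_add, TS.weight_map, TS.weight_map, wt_id fun b _ => c1 b,
          wt_0 fun b k => (hv b k).1, add_zero]
      · rw [map_add, TS.weight_map, TS.weight_map, wt_0 fun b _ => c2 b,
          wt_id fun b k => (hv b k).2, zero_add]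
      · rw [map_add, Finsupp.degree_mapDomain, Finsupp.degree_mapDomain]
      · classical
        rcases mem_union.1 (Finsupp.support_add hz) with k | k <;>
          obtain ⟨b, k1, rfl⟩ := mem_image.1 (Finsupp.mapDomain_support k)
        · rw [tn_dg, c1, c2]; simp
        · rw [tn_dg, (hv b k1).1, (hv b k1).2]; simp
    have r1 : ∀ u z : XX blk la s W, (tn blk la s W).r z (Finsupp.single u 1 + M) =
        if A u + α = A z ∧ B u + B y = B z then 1 else 0 := fun u z => by
      refine (tn_r z (Finsupp.single u 1 + M)).trans ?_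
      rw [map_add, map_add, Finsupp.weight_single, Finsupp.weight_single, one_smul, one_smul,
        mA, mB]
    refine ⟨c a, M, ?_, ?_, ?_, sM, ?_⟩
    · rintro ⟨w, e⟩
      have := (congrArg A e).trans (c1 a)
      exact Finsupp.single_ne_zero.2 one_ne_zero this.symm
    · rw [tn_dg, c1, c2]; simp
    · rw [← y2, tn_dg, dA]
      exact (congrArg (· + 1) dM).trans (by omega)
    · change ∑ z : XX blk la s W, κ z * ((tn blk la s W).r z (Finsupp.single (c a) 1 + M) -
        ∑ w : Sh.MW (W.image ind), ph blk la s W w (c a) *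
          (tn blk la s W).r z (Finsupp.single (io w) 1 + M)) ≠ 0
      simp only [r1, c1, c2, ← eα, zero_add, ph_eq, add_zero, mul_sub, sum_sub_distrib]
      rw [sum_eq_single y (fun z _ n => by rw [if_neg fun e => n (ext' e.1 e.2).symm, mul_zero])
        (fun n => (n (mem_univ _)).elim), if_pos ⟨rfl, rfl⟩, mul_one, sum_eq_zero, sub_zero]
      · exact y1
      intro z _
      by_contra k
      obtain ⟨w, -, k'⟩ := exists_ne_zero_of_sum_ne_zero (right_ne_zero_of_mul k)
      have e1 : Finsupp.single a 1 = w.1 := of_not_not fun n => left_ne_zero_of_mul k' (if_neg n)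
      obtain ⟨e2, e3⟩ := of_not_not fun n => right_ne_zero_of_mul k' (if_neg n)
      replace e2 : α = A z := (zero_add _).symm.trans e2
      replace e3 : Finsupp.single a 1 + B y = B z := e1 ▸ e3
      have := mn z (mem_filter.2 ⟨mem_univ _, left_ne_zero_of_mul k, by
        rw [← y2, tn_dg, tn_dg, dA, ← e2, ← e3, map_add, Finsupp.degree_single]; omega⟩)
      simp only [dA, ← e2] at this
      omega

end Spl

open Spl in
/-- **the split surjection** -/
theorem spl : SPL := fun τ L _ _ _ _ blk la s n W hl h hn => by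
  refine ⟨lsec _ _ _ _ _ _ _ _ (sec hl h hn) hn, fun T x => ?_⟩
  let j : T.Cw (mr blk la (W.image ind)) → T.Cw (bg blk (l0 la) s univ) := fun p =>
    ⟨(p.1.1, ⟨⟨p.1.2.1, mem_erase.2 ⟨Sh.MW.ne p.1.2, mem_full.2 (w_le h p.1.2)⟩⟩,
      fun _ _ => mem_univ _⟩), p.2⟩
  have hj : Function.Injective j := fun p q e => Subtype.ext (Prod.ext (congrArg (·.1.1) e :)
    (Subtype.ext (congrArg (·.1.2.1.1) e :)))
  refine ⟨Function.extend j x 0, fun F => ?_⟩
  let Φ : MvPolynomial (bg blk (l0 la) s univ).W ℝ →ₐ[ℝ]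
      MvPolynomial (mr blk la (W.image ind)).W ℝ := (aeval fun z : XX blk la s W =>
    (mr blk la (W.image ind)).el fun w => ph blk la s W w z).comp
      (rename fun w => (⟨(some w, none), by simp⟩ : XX blk la s W))
  change Φ _ = _
  rw [TS.Yw, TS.Yw, map_sum]
  refine (sum_of_injOn j hj.injOn (fun p k => mem_filter.2 ⟨mem_univ _, (mem_filter.1 k).2⟩)
    (fun q k n => ?_) fun p _ => ?_).symm
  · rw [Function.extend_apply' _ _ _ fun ⟨p, (e : j p = q)⟩ => n ⟨p, mem_coe.2 (mem_filter.2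
      ⟨mem_univ _, (show p.1.1 = q.1.1 from e ▸ rfl).trans (mem_filter.1 k).2⟩), e⟩]
    simp
  · rw [hj.extend_apply, map_mul, algHom_C, AlgHom.comp_apply, rename_X, aeval_X]
    refine congrArg₂ _ rfl (Eq.symm ((sum_eq_single p.1.2 (fun w _ n => ?_)
      fun n => (n (mem_univ _)).elim).trans ?_))
    · exact (congrArg (· • _) (if_neg fun e => n (Subtype.ext
        ((add_zero _).symm.trans e).symm))).trans (zero_smul _ _)
    · exact (congrArg (· • _) (if_pos (add_zero _))).trans (one_smul _ _)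

end Crest.Agent.N49.Md

end
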