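import Crest.Agent.N49.Tn.All
import Crest.Agent.N49.Md.Gxf
import Crest.Agent.N49.Md.Tpc
import Crest.Agent.N49.Md.Comp
import Crest.Agent.N49.Md.Tcmp
import Crest.Agent.N49.Md.Co
import Crest.Agent.N49.Md.Idf
import Crest.Agent.N49.Md.Emc
import Crest.Agent.N49.Md.Uft
import Crest.Agent.N49.Md.Tfb
import Crest.Agent.N49.Md.Szb
import Crest.Agent.N49.Md.Can
import Crest.Agent.N49.Md.Spl
import Crest.Agent.N49.Md.Bgp
import Crest.Agent.N49.Md.Hmk
import Crest.Agent.N49.Md.Morf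
import Crest.Agent.N49.Sy.Fin
import Crest.Agent.N49.Rn.Sems
import Crest.Agent.N49.Rm.All

/-!
# Row 49 (helper71): closure of the frame block
-/

set_option autoImplicit false

namespace Crest.Agent.N49.Md

theorem compA : COMP := comp' tcmp cot

theorem tfoA : TFO := tfo tfa tfb tfc

theorem emcA : EMC := emc uft trc tfb

theorem gxfA (s l0 K0 M0 C : ℕ) : GXF s l0 K0 M0 C :=
  gxf Sy.sinvT compA tfoA emcA idf szb genA (fun M => Tw.Rn.sems (Tw.char M)) s l0 K0 M0 C

theorem tpcA {s : ℕ} (cn : ∀ M C, CAN s M C) (l0 c : ℕ) : TPC s l0 c :=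
  tpc (Rm.Al.topx l0 c) (gxfA s l0) cn

theorem canA (s M C : ℕ) : CAN s M C :=
  can (exl syu) spl txa szb bgp tfa hmk syp tfoA morf compA Tw.tangA s M C

/-- **the top theorem on frames** -/
theorem tpcU (s l0 c : ℕ) : TPC s l0 c := tpcA (canA s) l0 c

end Crest.Agent.N49.Md
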