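import Crest.Agent.N49.Md.St

/-!
# Row 49 (helper61): coefficients of tangent substitutions
-/

set_option autoImplicit false
set_option linter.unusedSectionVars false
set_option maxHeartbeats 400000

open Finset Matrix MvPolynomial

noncomputable section

namespace Crest.Agent.N49.Md

open Tw Rm Sy Po

namespace Ec

variable {τ L : Type} [Fintype τ] [DecidableEq τ] [Fintype L] [DecidableEq L]

theorem scl_mon (m : τ → ℝ) (ν : τ →₀ ℕ) (c : ℝ) :
    scl m (monomial ν c) = monomial ν (c * ν.prod fun a n => m a ^ n) := by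
  rw [scl, aeval_monomial, monomial_eq, algebraMap_eq, C_mul, mul_assoc]
  simp only [mul_pow, ← C_pow, Finsupp.prod, map_prod, prod_mul_distrib]

theorem coeff_scl (m : τ → ℝ) (μ : τ →₀ ℕ) (P : MvPolynomial τ ℝ) :
    coeff μ (scl m P) = (μ.prod fun a n => m a ^ n) * coeff μ P := by
  induction P using MvPolynomial.induction_on' with
  | monomial ν c =>
    rw [scl_mon, coeff_monomial, coeff_monomial]
    split_ifs with k
    · rw [k, mul_comm]
    · rw [mul_zero]
  | add p q hp hq => rw [map_add, coeff_add, coeff_add, hp, hq, mul_add]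

theorem hom_scl (m : τ → ℝ) {P : MvPolynomial τ ℝ} {n : ℕ} (h : P.IsHomogeneous n) :
    (scl m P).IsHomogeneous n := fun μ k => h fun z => k (by rw [coeff_scl, z, mul_zero])

theorem prod_ind (m : τ → ℝ) (A : Finset τ) :
    ((ind A).prod fun a n => m a ^ n) = ∏ a ∈ A, m a :=
  prod_congr rfl fun a k => (congrArg (m a ^ ·) (if_pos k)).trans (pow_one _)

theorem deg_ind (B : Finset τ) : (ind B).degree = #B := by
  rw [Finsupp.degree_apply, card_eq_sum_ones]
  exact sum_congr rfl fun a k => if_pos k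

theorem hom_Yp {ι : Type} (lev : ι → ℕ) (y : ι → Finset τ → ℝ) (c : ι) :
    (Yp lev y c).IsHomogeneous (lev c) :=
  IsHomogeneous.sum _ _ _ fun B k => isHomogeneous_monomial _
    ((deg_ind B).trans (mem_powersetCard.1 k).2)

theorem hom_Y {T1 T2 : TS Unit} {θ : Tan T1 T2 τ} {x : ℝ} (h : θ.Ok x) (e m : τ → ℝ)
    (y : T2.C → Finset τ → ℝ) (F : T1.C) :
    (θ.Y e m (Yp T2.lev y) F).IsHomogeneous (T1.lev F) := by
  refine (hom_scl e ((h.be F).map _)).add (IsHomogeneous.sum _ _ _ fun G k => ?_)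
  obtain ⟨a, c⟩ := h.le F G (mem_filter.1 k).2
  have := (hom_scl e (c.map (Int.castRingHom ℝ))).mul (hom_scl m (hom_Yp T2.lev y G))
  rwa [Nat.sub_add_cancel a] at this

theorem ind_sub {A : Finset τ} {t : τ} : ind A - Finsupp.single t 1 = ind (A.erase t) := by
  ext a
  by_cases k : a = t
  · subst k; simp only [Finsupp.tsub_apply, ind_apply, Finsupp.single_eq_same]; split_ifs <;> simp_all
  · simp [ind_apply, k, Finsupp.single_eq_of_ne k]

theorem ind_one (t : τ) : ind ({t} : Finset τ) = Finsupp.single t 1 := by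
  ext a; simp [ind_apply, Finsupp.single_apply, eq_comm]

variable {blk : τ → L} {lam : L → ℝ} {s : ℕ} {j : L} {T : TS Unit} {A : Finset τ}

theorem ow_le (hA : Set.InjOn blk A) (w : (bg blk lam s {j}).W) (h : w.1.1 ≤ ind A) :
    ∃ t ∈ A, blk t = j ∧ w.1.1 = Finsupp.single t 1 := by
  have m : ∀ a, w.1.1 a ≠ 0 → a ∈ A ∧ blk a = j := fun a k =>
    ⟨by_contra fun z => k (Nat.le_zero.1 ((h a).trans_eq (if_neg z))),
      mem_singleton.1 (w.2 a (Finsupp.mem_support_iff.2 k))⟩
  obtain ⟨t, k⟩ := Finsupp.ne_iff.1 (mem_erase.1 w.1.2).1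
  refine ⟨t, (m t k).1, (m t k).2, Finsupp.ext fun a => ?_⟩
  by_cases e : a = t
  · subst e
    have := (h a).trans_eq (if_pos (m a k).1)
    have : w.1.1 a ≠ 0 := k
    rw [Finsupp.single_eq_same]; omega
  · rw [Finsupp.single_eq_of_ne e]
    exact by_contra fun z => e (hA (m a z).1 (m t k).1 ((m a z).2.trans (m t k).2.symm))

theorem term (e m : τ → ℝ) (r : ℝ) (μ ν : τ →₀ ℕ) (P : MvPolynomial τ ℝ) :
    coeff ν (r • (scl e (zr (monomial μ 1)) * scl m P)) = r * if μ ≤ ν then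
      (μ.prod fun a n => e a ^ n) * (((ν - μ).prod fun a n => m a ^ n) * coeff (ν - μ) P) else 0 := by
  rw [coeff_smul, zr, map_monomial, scl_mon, coeff_monomial_mul', smul_eq_mul, coeff_scl, map_one,
    one_mul]

/-- the part of a coefficient that sees the centre -/
def Rm (β : T.Cw (bg blk lam s {j}) → ℝ) (σ : T.Tc (bg blk lam s {j}) → ℝ)
    (Z : T.Tc (bg blk lam s {j}) → MvPolynomial τ ℝ) (F : T.C) (A : Finset τ) : ℝ :=
  (∑ p : T.Cw (bg blk lam s {j}) with p.1.1 = F, if p.1.2.1.1 = ind A then β p else 0) +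
    ∑ x : T.Tc (bg blk lam s {j}) with x.1.1 = F, if x.1.2 ≠ none ∧ ow blk lam x.1.2 ≤ ind A then
      σ x * coeff (ind A - ow blk lam x.1.2) (Z x) else 0

variable {β : T.Cw (bg blk lam s {j}) → ℝ} {σ : T.Tc (bg blk lam s {j}) → ℝ}
  {Z : T.Tc (bg blk lam s {j}) → MvPolynomial τ ℝ} {F : T.C}

theorem key (hA : Set.InjOn blk A) (hF : 0 < T.lev F) {e m : τ → ℝ} {ej : ℝ}
    (he : ∀ a, blk a = j → e a = ej) (hm : ∀ a, blk a ≠ j → m a = 1) :
    coeff (ind A) (scl e (∑ p : T.Cw (bg blk lam s {j}) with p.1.1 = F, monomial p.1.2.1.1 (β p)) +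
      ∑ x : T.Tc (bg blk lam s {j}) with some x.1.1 = some F,
        σ x • (scl e (zr (monomial (ow blk lam x.1.2) 1)) * scl m (Z x))) =
      σ ⟨(F, none), hF⟩ * ((∏ a ∈ A, m a) * coeff (ind A) (Z ⟨(F, none), hF⟩)) +
        ej * Rm β σ Z F A := by
  have e1 : ∀ t, blk t = j → ((Finsupp.single t 1).prod fun a n => e a ^ n) = ej := fun t k => by
    rw [Finsupp.prod_single_index (h := fun a n => e a ^ n) (pow_zero _), pow_one, he t k]
  rw [Rm, coeff_add, coeff_scl, coeff_sum, coeff_sum, mul_sum, mul_add, mul_sum, mul_sum,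
    add_left_comm]
  congr 1
  · refine sum_congr rfl fun p _ => ?_
    rw [coeff_monomial]
    split_ifs with k
    · obtain ⟨t, -, c, d⟩ := ow_le hA p.1.2 k.le
      rw [← k, d, e1 t c]
    · rw [mul_zero, mul_zero]
  · simp only [Option.some.injEq]
    refine (add_sum_erase _ _ (a := ⟨(F, none), hF⟩) (by simp)).symm.trans (congrArg₂ _ ?_
      (Eq.trans ?_ (sum_erase _ (a := ⟨(F, none), hF⟩)
        ((congrArg _ (if_neg fun k => k.1 rfl)).trans (mul_zero _)))))
    · refine (term e m _ 0 _ _).trans ?_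
      rw [if_pos zero_le, Finsupp.prod_zero_index, tsub_zero, prod_ind, one_mul]
    · refine sum_congr rfl fun x k => (term e m _ _ _ _).trans ?_
      have n : x.1.2 ≠ none := fun z => (mem_erase.1 k).1
        (Subtype.ext (Prod.ext (mem_filter.1 (mem_erase.1 k).2).2 z))
      obtain ⟨w, hw⟩ := Option.ne_none_iff_exists'.1 n
      have a0 : ow blk lam x.1.2 = w.1.1 := by rw [hw]; rfl
      by_cases c : ow blk lam x.1.2 ≤ ind A
      · obtain ⟨t, a1, a2, a3⟩ := ow_le hA w (a0 ▸ c)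
        rw [if_pos c, if_pos ⟨n, c⟩, a0, a3, e1 t a2, ind_sub, prod_ind,
          prod_eq_one fun a k => hm a fun z => (mem_erase.1 k).1
            (hA (mem_erase.1 k).2 a1 (z.trans a2.symm))]
        ring
      · rw [if_neg c, if_neg fun z => c z.2, mul_zero, mul_zero]

theorem Rm0 (hA : Set.InjOn blk A) (h : ∀ t ∈ A, blk t ≠ j) : Rm β σ Z F A = 0 := by
  rw [Rm, sum_eq_zero fun p _ => if_neg fun k => ?_, sum_eq_zero fun x _ => if_neg fun k => ?_,
    add_zero]
  · obtain ⟨⟨G, _ | w⟩, hx⟩ := x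
    · exact k.1 rfl
    · obtain ⟨t, a, c, -⟩ := ow_le hA w k.2
      exact h t a c
  · obtain ⟨t, a, c, -⟩ := ow_le hA p.1.2 k.le
    exact h t a c

theorem Rm1 (hA : Set.InjOn blk A) (h1 : T.lev F = 1) (p : T.Cw (bg blk lam s {j}))
    (h : p.1.1 = F) (h' : p.1.2.1.1 = ind A) : Rm β σ Z F A = β p := by
  rw [Rm, sum_eq_single_of_mem p (by simp [h]) fun p' k n => if_neg fun z => n ?_, if_pos h',
    sum_eq_zero fun x k => if_neg fun z => ?_, add_zero]
  · obtain ⟨⟨G, _ | w⟩, hx⟩ := x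
    · exact z.1 rfl
    · obtain ⟨t, -, -, c⟩ := ow_le hA w z.2
      have a : G = F := (mem_filter.1 k).2
      have d : w.1.1.degree < T.lev G := hx
      rw [c, Finsupp.degree_single, a, h1] at d
      omega
  · exact Subtype.ext (Prod.ext ((mem_filter.1 k).2.trans h.symm)
      (Subtype.ext (Subtype.ext (z.trans h'.symm))))

theorem Rm2 (hA : Set.InjOn blk A) {t : τ} (ht : t ∈ A) (hj : blk t = j) (hn : A ≠ {t})
    (x : T.Tc (bg blk lam s {j})) (h : x.1.1 = F) (h' : ow blk lam x.1.2 = Finsupp.single t 1) :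
    Rm β σ Z F A = σ x * coeff (ind (A.erase t)) (Z x) := by
  have u : ∀ w : (bg blk lam s {j}).W, w.1.1 ≤ ind A → w.1.1 = Finsupp.single t 1 := fun w k => by
    obtain ⟨t', a, c, d⟩ := ow_le hA w k
    rwa [hA a ht (c.trans hj.symm)] at d
  have n0 : x.1.2 ≠ none := fun z => by
    rw [z] at h'
    exact one_ne_zero (Finsupp.single_eq_zero.1 h'.symm)
  rw [Rm, sum_eq_zero fun p _ => if_neg fun k => hn ?_, zero_add,
    sum_eq_single_of_mem x (by simp [h]) fun x' k n => if_neg fun z => n ?_, if_pos, h', ind_sub]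
  · exact ⟨n0, h' ▸ Finsupp.single_le_iff.2 (if_pos ht).ge⟩
  · obtain ⟨⟨G, _ | w⟩, hx⟩ := x
    · exact absurd rfl n0
    obtain ⟨⟨G', _ | w'⟩, hx'⟩ := x'
    · exact absurd rfl z.1
    exact Subtype.ext (Prod.ext ((mem_filter.1 k).2.trans h.symm)
      (congrArg some (Subtype.ext (Subtype.ext ((u w' z.2).trans h'.symm)))))
  · exact ind_inj (k.symm.trans ((u p.1.2 k.le).trans (ind_one t).symm))

end Ec

end Crest.Agent.N49.Md

end
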