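import Crest.Agent.N49.Md.St
import Crest.Agent.N49.Sy.Swt

/-!
# Row 49 (helper30): the symbol tower inside a monomial ring
-/

set_option autoImplicit false
set_option linter.unusedSectionVars false
set_option linter.unusedVariables false

open Finset Matrix MvPolynomial

noncomputable section

namespace Crest.Agent.N49.Md

open Tw Rm Sy Po

namespace Su

variable {τ L : Type} [Fintype τ] [DecidableEq τ] [Fintype L] [DecidableEq L] {T : TS Unit}
  {p : T.C → Prop} [DecidablePred p] {W : Finset (Finset τ)} (blk : τ → L) (la : L → ℝ)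
  {U : Finset (τ →₀ ℕ)}

/-- the coordinate of the ring -/
def gw (h : T.Tri) (hU : W.image ind ⊆ U) (w : Sy.SC T p W) : T.Cw (mr blk la U) :=
  ⟨(w.1.1, ⟨ind w.1.2, mem_erase.2 ⟨fun z => (h.lev_pos w.1.1).ne' (by
    rw [← w.2.2.2, ind_eq_zero.1 z, card_empty]), hU (mem_image_of_mem _ w.2.2.1)⟩⟩),
    unit_ext ((degree_col _ _).trans ((Swt.deg_ind _).trans w.2.2.2))⟩

theorem cw_deg (x : T.Cw (mr blk la U)) : x.1.2.1.degree = T.lev x.1.1 :=
  (degree_col _ _).symm.trans (congrArg _ x.2)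

theorem gw_inj (h : T.Tri) (hU : W.image ind ⊆ U) :
    Function.Injective (gw (p := p) blk la h hU) := fun w w' e =>
  Subtype.ext (Prod.ext (congrArg (fun x => x.1.1) e) (ind_inj (congrArg (fun x => x.1.2.1) e)))

theorem gw_surj (h : T.Tri) (hp : ∀ c, p c) (hU : W.image ind ⊆ U) (e : U = W.image ind) :
    Function.Surjective (gw (p := p) blk la h hU) := fun x => by
  obtain ⟨B, k, n⟩ := mem_image.1 (e.le (mem_of_mem_erase x.1.2.2))
  exact ⟨⟨(x.1.1, B), hp _, k, (Swt.deg_ind B).symm.trans ((congrArg _ n).trans (cw_deg blk la x))⟩,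
    Subtype.ext (Prod.ext rfl (Subtype.ext n))⟩

theorem wv_eq {R : Type} [AddCommMonoid R] (y : T.Cw (mr blk la U) → R) (x : T.Cw (mr blk la U)) :
    wv blk la T y x.1.1 x.1.2.1 = y x :=
  sum_eq_single_of_mem x (mem_filter.2 ⟨mem_univ _, rfl, rfl⟩) fun x' k n =>
    absurd (Subtype.ext (Prod.ext (mem_filter.1 k).2.1 (Subtype.ext (mem_filter.1 k).2.2))) n

theorem wv_ne {R : Type} [AddCommMonoid R] (y : T.Cw (mr blk la U) → R) {F : T.C} {μ : τ →₀ ℕ}
    (n : μ.degree ≠ T.lev F) : wv blk la T y F μ = 0 :=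
  sum_eq_zero fun x k => absurd (by
    rw [← (mem_filter.1 k).2.1, ← (mem_filter.1 k).2.2]; exact cw_deg blk la x) n

theorem coeff_Yw (y : T.Cw (mr blk la U) → ℝ) (F : T.C) (μ : τ →₀ ℕ) :
    coeff μ (En.rho (mr blk la U) ℝ (T.Yw (mr blk la U) y F)) = wv blk la T y F μ := by
  rw [TS.Yw, map_sum, coeff_sum, wv, ← filter_filter]
  refine Eq.trans (sum_congr rfl fun x _ => ?_) (sum_filter _ _).symm
  rw [X, C_mul_monomial, mul_one, En.rho_mon, Finsupp.weight_single, one_smul, coeff_monomial]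
  rfl

theorem mr_K : (mr blk la U).K = diagonal fun w => (kw blk la w.1 ^ 2)⁻¹ := by
  ext (w : {μ // μ ∈ U.erase 0}) (w' : {μ // μ ∈ U.erase 0})
  change (if w.1 = w'.1 then (kw blk la w.1 ^ 2)⁻¹ else 0) =
    if w = w' then (kw blk la w.1 ^ 2)⁻¹ else 0
  exact if_congr Subtype.ext_iff.symm rfl rfl

theorem mr_ε : (mr blk la U).ε = 0 := funext fun _ => sum_eq_zero fun _ _ => ite_self _

theorem kw_pos (hl : ∀ ℓ, 0 < la ℓ) (μ : τ →₀ ℕ) : 0 < kw blk la μ := prod_pos fun _ _ => hl _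

theorem tw_Kinv (k : T.K = 1) (hl : ∀ ℓ, 0 < la ℓ) (Ψ : T.Twd (mr blk la U)) :
    (T.tw (mr blk la U) Ψ).K⁻¹ = diagonal fun x => kw blk la x.1.2.1 ^ 2 := by
  have e : (T.tw (mr blk la U) Ψ).K = diagonal fun x => (kw blk la x.1.2.1 ^ 2)⁻¹ := by
    ext x x'
    change T.K x.1.1 x'.1.1 * (mr blk la U).K x.1.2 x'.1.2 = _
    rw [k, mr_K, one_apply, diagonal_apply, diagonal_apply]
    by_cases a : x = x'
    · rw [if_pos a, if_pos (by rw [a]), if_pos (by rw [a]), one_mul]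
    · rw [if_neg a]
      by_cases b : x.1.1 = x'.1.1
      · rw [if_neg (c := x.1.2 = x'.1.2) fun c => a (Subtype.ext (Prod.ext b c)), mul_zero]
      · rw [if_neg b, zero_mul]
  rw [e]
  refine inv_eq_right_inv ?_
  rw [diagonal_mul_diagonal, ← diagonal_one]
  exact congrArg diagonal (funext fun x => inv_mul_cancel₀ (pow_pos (kw_pos blk la hl _) 2).ne')

/-- the errors of the law on a monomial ring -/
theorem u_mr (y : T.Cw (mr blk la U) → ℝ) (x : T.Cw (mr blk la U)) :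
    (T.tw (mr blk la U) (T.tw0 _)).u y x = coeff x.1.2.1
      (T.hz 0 (fun c => En.rho (mr blk la U) ℝ (T.Yw (mr blk la U) y c)) x.1.1) := by
  refine (TS.tw_u _ _).trans ((En.cf_rho _ _).trans (congrArg (coeff x.1.2.1) ?_))
  have a := fun Y => TS.eval₂_tw0 (T := T) (S := mr blk la U) (R := ℝ) Y x.1.1
  rw [mr_ε, show (mr blk la U).el (R := ℝ) 0 = 0 by simp [Sh.el],
    show MvPolynomial.map (algebraMap ℝ ℝ) = RingHom.id (MvPolynomial (mr blk la U).W ℝ) by
      ext1 <;> simp] at a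
  refine (congrArg (En.rho (mr blk la U) ℝ) (a _)).trans ((T.hz_map _ _ _ _).trans ?_)
  rw [map_zero]

theorem u_gw (h : T.Tri) (hp : ∀ c, p c) (hW : Dw W) (hU : W.image ind ⊆ U)
    (y : T.Cw (mr blk la U) → ℝ) (w : Sy.SC T p W) :
    (T.tw (mr blk la U) (T.tw0 _)).u y (gw blk la h hU w) =
      sP T p W (T.Φ w.1.1) w.1.2 fun w' => y (gw blk la h hU w') := by
  refine (u_mr blk la y _).trans (Eq.trans ?_ (Swt.hz_sy _ _ w.2.2.2))
  have : Ideal.Quotient.mkₐ ℝ (idl ℝ (Swt.dn_ind hW)) (T.hz 0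
      (fun c => En.rho (mr blk la U) ℝ (T.Yw (mr blk la U) y c)) w.1.1) =
      Ideal.Quotient.mkₐ ℝ (idl ℝ (Swt.dn_ind hW)) (T.hz 0
        (Yp T.lev (sx T p W fun w' => y (gw blk la h hU w'))) w.1.1) := by
    rw [T.hz_map, T.hz_map]
    refine congrArg (fun z => T.hz _ z w.1.1) (funext fun c => Ideal.Quotient.eq.2 fun ν hν => ?_)
    obtain ⟨A, k, rfl⟩ := mem_image.1 hν
    have b := sy_X T.lev (sx T p W fun w' => y (gw blk la h hU w')) A c
    rw [sy, aeval_X] at b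
    rw [coeff_sub, b, coeff_Yw, sub_eq_zero]
    split_ifs with n
    · rw [sx, dif_pos ⟨hp c, k, n⟩]
      exact wv_eq blk la y (gw blk la h hU ⟨(c, A), hp c, k, n⟩)
    · exact wv_ne blk la y fun e => n ((Swt.deg_ind A).symm.trans e)
  have := Ideal.Quotient.eq.1 this _ (mem_image_of_mem _ w.2.2.1)
  rwa [coeff_sub, sub_eq_zero] at this

theorem la_pos {B : Bs L} {s h : ℕ} (o : B.Ok s h) (ℓ : L) : 0 < B.la ℓ :=
  lt_of_lt_of_le (by positivity) (o.la ℓ).1

theorem st_lt {B : Bs L} {s h : ℕ} (o : B.Ok s h) (c : B.T.C) : B.st c < B.M + 1 :=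
  Nat.lt_succ_of_le (o.old.stg.le c).1

end Su

open Su

/-- **the symbol tower inside a monomial ring** -/
theorem syu : SYU := fun τ L _ _ _ _ B W blk s h U o hW _ hU =>
  have t := o.old.stg.cl.1
  ⟨gw blk B.la t hU, fun _ => ⟨rfl, rfl⟩, gw_inj blk B.la t hU, gw_surj blk B.la t (st_lt o) hU,
    fun _ _ y w => wv_eq blk B.la y (gw blk B.la t hU w), tw_Kinv blk B.la o.old.K (la_pos o) _,
    fun y _ w => congrArg (kw blk B.la (ind w.1.2) * ·)
      (u_gw blk B.la t (st_lt o) hW.dw hU y w).symm⟩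

/-- **the law of the symbol tower** -/
theorem syp : SYP := fun τ L _ _ _ _ B W blk s h H o hW => by
  obtain ⟨g, f, i, j, v, k, u⟩ := syu τ L B W blk s h _ o hW (Swt.dn_ind hW.dw) subset_rfl
  let e := Equiv.ofBijective g ⟨i, j rfl⟩
  have a : ∀ y : B.T.Cw (mr blk B.la (W.image ind)) → ℤ, (B.SY W blk).wt (y ∘ e) =
      (B.T.tw (mr blk B.la (W.image ind)) (B.T.tw0 _)).wt y := fun y => by
    rw [TT.wt, TS.wt, k, gs, qf, neg_mul]
    refine congrArg (fun x => Real.exp (-(Real.pi * x))) ?_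
    refine Eq.trans (sum_congr rfl fun w _ => ?_) (e.sum_comp _)
    refine (congrArg (· ^ 2) (u (zc y) (fun _ => 1) w)).trans (Eq.trans ?_
      (congrArg (_ * ·) (mulVec_diagonal _ _ _).symm))
    rw [← (f w).2]
    exact (by intros; ring : ∀ a b : ℝ, (a * b) ^ 2 = b * (a ^ 2 * b)) _ _
  let E : (B.T.Cw (mr blk B.la (W.image ind)) → ℤ) ≃ (B.SC W → ℤ) := e.symm.arrowCongr (.refl ℤ)
  rw [TT.pr, ← E.tsum_eq, ← E.tsum_eq]
  refine congrArg₂ (· / ·) (tsum_congr fun y => ?_) (tsum_congr a)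
  have c : (fun w : B.SC W => wv blk B.la B.T y w.1.1 (ind w.1.2)) = E y := funext (v ℤ y)
  by_cases m : E y ∈ H
  · rw [Set.indicator_of_mem m, Set.indicator_of_mem (by exact (congrArg (· ∈ H) c).mpr m)]
    exact (a y).trans (mul_one _).symm
  · rw [Set.indicator_of_notMem m,
      Set.indicator_of_notMem (by exact fun n => m ((congrArg (· ∈ H) c).mp n)), mul_zero]

end Crest.Agent.N49.Md

end
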