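import Crest.Agent.N49.Md.Szb
import Crest.Agent.N49.Tn.Stg
import Crest.Agent.N49.Rf.Rsc

/-!
# Row 49 (helper71): the normalised tangent tower
-/

set_option autoImplicit false
set_option linter.unusedSectionVars false

open Finset Matrix MvPolynomial

noncomputable section

namespace Crest.Agent.N49.Md

open Tw Rm Sy Po

variable {τ L : Type} [Fintype τ] [DecidableEq τ] [Fintype L] [DecidableEq L]

namespace Tf

theorem kw_pos' (blk : τ → L) {lam : L → ℝ} (h : ∀ ℓ, 0 < lam ℓ) (μ : τ →₀ ℕ) :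
    0 < kw blk lam μ := prod_pos fun _ _ => h _

theorem scl_one {T : TS Unit} (hK : T.K = 1) (blk : τ → L) {lam : L → ℝ} (h : ∀ ℓ, 0 < lam ℓ)
    (s : ℕ) (J : Finset L) (b : T.Cw (bg blk lam s J) → ℤ) :
    ((t0 blk lam T s J b).scl fun x : T.Tc (bg blk lam s J) => kw blk lam (ow blk lam x.1.2)).K =
      (1 : Matrix (T.Tc (bg blk lam s J)) (T.Tc (bg blk lam s J)) ℝ) :=
  Matrix.ext fun (x x' : T.Tc (bg blk lam s J)) => (TS.scl_K (T := t0 blk lam T s J b) x x').trans (by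
    change _ * (T.K x.1.1 x'.1.1 * vv blk lam s J x.1.2 x'.1.2) * _ = _
    by_cases e : x = x'
    · have := (kw_pos' blk h (ow blk lam x.1.2)).ne'
      rw [← e, hK, one_apply_eq, one_apply_eq, vv, diagonal_apply_eq]; field_simp
    · rw [one_apply_ne e]
      by_cases e' : x.1.1 = x'.1.1
      · rw [vv, diagonal_apply_ne _ fun z => e (Subtype.ext (Prod.ext e' z))]; simp
      · rw [hK, one_apply_ne e']; simp)

theorem un_diag (T : TS Unit) (s : T.C → ℝ) : (T.un (diagonal s)).Φ = (T.scl s).Φ :=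
  funext fun x : T.C => by
    have : ∑ c', C (diagonal s x c') * T.Φ c' = C (s x) * T.Φ x := by
      rw [sum_eq_single x (fun y _ e => by rw [diagonal_apply_ne _ e.symm, map_zero, zero_mul])
        fun e => (e (mem_univ _)).elim, diagonal_apply_eq]
    exact this

theorem scl_sh {T : TS Unit} {s : T.C → ℝ} (hK : T.K.PosDef) (hs : ∀ c, s c ≠ 0) {τ' : Type}
    {S : Sh Unit τ'} (hS : S.Ok) (y : T.Cw S → ℤ) :
    ((T.scl s).tw S ((T.scl s).tw0 S)).wt y = (T.sh S).wt y :=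
  ((congrArg (fun Ψ => ((T.scl s).tw S Ψ).wt y) TS.tsc_tw0).trans (TS.tsc_wt hK hS hs y)).trans
    (congrArg (fun Φ => ((T.sh S).setΦ Φ).wt y)
      (funext fun q => congrArg (S.cf _ q.1.2) (TS.eval₂_tw0 _ _)))

/-- the normalisation is a rescaling -/
theorem tT_eq {T : TS Unit} (hK : T.K = 1) (blk : τ → L) {lam : L → ℝ} (h : ∀ ℓ, 0 < lam ℓ)
    (s : ℕ) (J : Finset L) (b : T.Cw (bg blk lam s J) → ℤ) : tT blk lam T s J b =
      (t0 blk lam T s J b).scl fun x : T.Tc (bg blk lam s J) => kw blk lam (ow blk lam x.1.2) :=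
  congrArg₂ (t0 blk lam T s J b).rpl (un_diag (t0 blk lam T s J b) _) (scl_one hK blk h s J b).symm

end Tf

open Tf in
theorem tfa : TFA := fun τ L _ _ _ _ T st M s blk lam J b o h => by
  obtain ⟨k, hk⟩ := pow_unbounded_of_one_lt (∑ ℓ, lam ℓ) (one_lt_two (α := ℝ))
  obtain ⟨z, v, -⟩ := (szb τ L blk lam s k _ _ (fun ℓ => ⟨h ℓ, (single_le_sum
    (fun i _ => (h i).le) (mem_univ ℓ)).trans hk.le⟩) le_rfl le_rfl).2.2.2 J
  have a := o.stg.adm z.toOk
  have k1 := TS.tan_ok (b := b) z.toOk o.ok.toTri a v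
  have k2 := TS.tan_stg (b := b) o.stg z.toOk a v
  have p : ∀ x : T.Tc (bg blk lam s J), kw blk lam (ow blk lam x.1.2) ≠ 0 := fun x =>
    (kw_pos' blk h _).ne'
  refine (congrArg₂ (fun Φ K => Old ((t0 blk lam T s J b).rpl Φ K) (T.ts _ st M) (tM M) s ∧
    ((t0 blk lam T s J b).rpl Φ K).D = (t0 blk lam T s J b).D ∧
    (∀ C n a η, (t0 blk lam T s J b).RgS (T.ts _ st M) (tM M) C n a η →
      ((t0 blk lam T s J b).rpl Φ K).RgS (T.ts _ st M) (tM M) C n a η) ∧
    ∀ (τ' : Type) (S : Sh Unit τ'), S.Ok → ∀ y, (((t0 blk lam T s J b).rpl Φ K).tw S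
      (((t0 blk lam T s J b).rpl Φ K).tw0 S)).wt y = ((t0 blk lam T s J b).sh S).wt y)
    (un_diag (t0 blk lam T s J b) _) (scl_one o.K blk h s J b).symm).mpr ?_
  refine ⟨⟨k1.scl p, scl_one o.K blk h s J b, k2.scl p, fun x => ?_, o.one.trans (TS.le_tM M)⟩,
    TS.scl_D p, fun C n a η r => r.scl k1.pd p, fun τ' S hS y => ?_⟩
  · exact (Finsupp.degree_single _ _).trans_le ((Nat.sub_le _ _).trans (o.lev _))
  · exact scl_sh k1.pd p hS y

end Crest.Agent.N49.Md

end
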