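import Crest.Agent.N49.Md.Txa
import Crest.Agent.N49.Md.Tfa
import Crest.Agent.N49.Md.Syu
import Crest.Agent.N49.Md.Exl
import Crest.Agent.N49.Tw.Fin

/-!
# Row 49 (helper10): most centres are generic
-/

set_option autoImplicit false

open Finset Matrix MvPolynomial

noncomputable section

namespace Crest.Agent.N49.Md

open Tw Rm Sy Po

theorem Gen.rg_eq {T T' : TS Unit} (e : T = T') {st : T.C → ℕ} {st' : T'.C → ℕ} (h : HEq st st')
    {M C n : ℕ} {a η : ℝ} (r : T.RgS st M C n a η) : T'.RgS st' M C n a η := by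
  subst e
  cases h
  exact r

theorem gen (hE : EXL) (hX : TXA) (hF : TFA) {M C' : ℕ} (hT : TANG M C') : GEN M C' := by
  obtain ⟨C1, -, hM, -⟩ := mastA M
  obtain ⟨C2, c, hT⟩ := hT
  refine ⟨C1 + C2, c, ?_⟩
  intro τ L C0 _ _ _ _ _ _ B W blk T1 e s h J n n' a a' η hB o hW em hn nn a0 ha η0 η1 aa rg
  subst hB
  have la : ∀ ℓ, 0 < B.la ℓ := fun ℓ => lt_of_lt_of_le (by positivity) (o.la ℓ).1
  obtain ⟨z1, dn, z2, z3⟩ := szb τ L blk B.la s h n a (fun ℓ => ⟨la ℓ, (o.la ℓ).2⟩) hn ha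
  obtain ⟨z0, tk, id, gn⟩ := z3 J
  have z := z1 _ dn subset_rfl
  have a1 : a ≤ 1 := ha.trans (div_le_one_of_le₀ (one_le_pow₀ one_le_two) (by positivity))
  have a2 : a' ≤ a := by
    have : (1 : ℝ) ≤ (n + 2) ^ c := one_le_pow₀ (by linarith [(Nat.cast_nonneg n : (0 : ℝ) ≤ n)])
    exact ((le_mul_of_one_le_left rg.pos.le this).trans aa).trans
      (pow_le_of_le_one a0.le a1 (by norm_num))
  obtain ⟨x, d, k⟩ := hE τ L C0 B W blk T1 e s h (full τ s) _ o hW dn (z2 W hW).2 em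
  refine k.trans ?_
  obtain ⟨t1, t2⟩ := hX τ B.T B.st B.M s _ o.old z.toOk
  obtain ⟨ad, -, tp, -⟩ := t1 _ (t2 x).1
  have dg : ∀ (v' : (bg blk B.la s J).W) (v : (mr blk B.la (full τ s)).W),
      (mr blk B.la (full τ s)).prj (fun w => inJ blk J w.1) v' v ≠ 0 →
      (bg blk B.la s J).dg v' = (mr blk B.la (full τ s)).dg v := fun w' w r => by
    rw [show w = w'.1 from by_contra fun k => r (if_neg k)]; rfl
  obtain ⟨ad0, tn, -⟩ := (hX τ B.T B.st B.M s _ o.old z0.toOk).1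
    (fun F => (mr blk B.la (full τ s)).pu (bg blk B.la s J) ((mr blk B.la (full τ s)).prj
      fun w => inJ blk J w.1) (B.T.Yw _ x F)) fun F => Sh.hA_hom dg ((t2 x).1 F)
  have tr := o.old.stg.tri
  have g := hT τ B.T _ B.st _ _ n n' a a' η o.old.stg ad0 z0 tk a0 a1 η0 η1 nn aa
    (rg.mono tr η0 η1 (Nat.le_add_left _ _) le_rfl le_rfl le_rfl)
  have p := (hM _ _ B.T _ B.st _ n' a' η _ ((rg.mono tr η0 η1 (Nat.le_add_right _ _) le_rfl le_rfl
    le_rfl).hy o.old.stg η0 η1 ad z nn.le a2) id gn).P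
    {b | ¬ (tT blk B.la B.T s J b).RgS (B.T.ts _ B.st B.M) (tM B.M) C' n a η}
  have g' : (B.T.tw (bg blk B.la s J) (B.T.tp _ _ ((mr blk B.la (full τ s)).prj
      fun w => inJ blk J w.1) (tc B.T _ (B.T.Yw _ x)))).P
      {b | ¬ (tT blk B.la B.T s J b).RgS (B.T.ts _ B.st B.M) (tM B.M) C' n a η} ≤ η := by
    refine (congrArg (fun Ψ => (B.T.tw (bg blk B.la s J) Ψ).P _) (tp _ (bg blk B.la s J) _)).trans_le ?_
    refine ((TS.tw_tri o.old.stg.cl ad0 z0.toOk).P_mono fun b hb => ?_).trans g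
    intro r
    exact hb ((hF τ L B.T B.st B.M s blk B.la J b o.old la).2.2.1 _ _ _ _
      (Gen.rg_eq (tn _ b) HEq.rfl r))
  refine ((TS.tw_tri o.old.stg.cl ad z.toOk).P_mono fun y hy => ?_).trans
    ((sub_le_iff_le_add'.1 (abs_le.1 p).2).trans ((add_le_add g' le_rfl).trans_eq (two_mul η).symm))
  intro r
  refine hy ⟨_, fun c p e1 e2 => ?_, r⟩
  refine Eq.trans ?_ (dif_pos c.2).symm
  refine Eq.symm (sum_eq_single_of_mem _ (mem_filter.2 ⟨mem_univ _, e1, e2⟩) fun q hq ne => ?_)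
  exact absurd (Subtype.ext (Prod.ext ((mem_filter.1 hq).2.1.trans e1.symm)
    (Subtype.ext ((mem_filter.1 hq).2.2.trans e2.symm)))) ne

theorem genT (hT : ∀ M C', TANG M C') (M C' : ℕ) : GEN M C' := gen (exl syu) txa tfa (hT M C')

end Crest.Agent.N49.Md

end
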