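import Crest.Agent.N49.Md.Morf
import Crest.Agent.N49.Md.Idf
import Crest.Agent.N49.Md.Fw

/-!
# Row 49 (helper60): the morphism of a frame has a forward constant
-/

set_option autoImplicit false
set_option linter.unusedSectionVars false

open Finset MvPolynomial

noncomputable section

namespace Crest.Agent.N49.Md

open Tw Rm Sy Uf

variable {τ L : Type} [Fintype τ] [DecidableEq τ] [Fintype L] [DecidableEq L]

theorem morw {B : Bs L} {W : Finset (Finset τ)} {blk : τ → L} {f : Fr B.T τ L} {s h Y ν n k : ℕ}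
    (hB : B.Ok s h) (hf : f.Ok s Y) (fw : f.Fw ν n) (hW : Wf s W blk)
    (hn : Fintype.card f.T.C ≤ 2 ^ k) :
    Mor (f.SY W blk) (B.SY W blk) (ka B W blk f) (2 ^ (k + n + (h + n) * s)) := by
  have ho := hf.old.ok
  have m0 := morf τ L B W blk f s (max h Y) k (Idf.bs_mono hB (le_max_left _ _))
    (Idf.fr_mono hB.old.ok.toTri hf (le_max_right _ _)) hW hn
  refine ⟨m0.toLm, m0.int, ?_⟩
  intro M p w r hr he hc k
  obtain ⟨ℓ, h1, h2⟩ := not_disjoint_iff.1 hc
  obtain ⟨a0, ha, rfl⟩ := mem_image.1 h1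
  have hA := w.2.2.1
  have z : ∀ A' : Finset τ, a0 ∈ A' → ∏ a ∈ A', p (.inr (blk a)) = 0 := fun A' m =>
    prod_eq_zero m (by rw [he, if_pos h2])
  have e1 : ∀ A' : Finset τ, |∏ a ∈ A', p (.inr (blk a))| ≤ 1 := fun A' => by
    rw [abs_prod]
    exact prod_le_one (fun _ _ => abs_nonneg _) fun a _ => by rw [he]; split_ifs <;> simp
  have p2 : ∀ j : ℕ, (0 : ℝ) < 2 ^ j := fun j => by positivity
  have t := trc τ B.T (fun c => B.st c < B.M + 1) W (f.θ.Y (fun a => p (.inr (blk a)))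
    (fun a => f.m (blk a)) (Yp f.T.lev (sx f.T _ W fun w' => p (.inl w')))) (B.T.Φ w.1.1) hW.dw
    (fun c => Nat.lt_succ_of_le (hB.old.stg.le c).1) (Y_hom hf.θ _ _ (Yp_hom _ _)) _ hA
  change |(∏ a ∈ w.1.2, B.la (blk a)) * sP _ _ _ _ _ _| ≤ _
  erw [t]
  rw [uft _ _ _ _ _ hf.θ, coeff_add, coeff_ind_scl, z _ ha, zero_mul, zero_add, coeff_sum,
    abs_mul]
  have b1 : ∀ G, ∀ A' ⊆ w.1.2, a0 ∉ A' → |(∏ a ∈ w.1.2 \ A', (f.m (blk a) : ℝ)) *
      coeff (ind (w.1.2 \ A')) (aeval (Yp f.T.lev (sx f.T _ W fun w' => p (.inl w'))) (f.T.Φ G))| ≤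
      ν ^ f.T.lev G * (2 ^ (n * s) * r) := fun G A' _ n' => by
    by_cases c : #(w.1.2 \ A') = f.T.lev G
    · have m := hW.dw _ hA _ (sdiff_subset (t := A'))
      have k1 : |(∏ a ∈ w.1.2 \ A', f.la (blk a)) * _| ≤ r := k ⟨(G, w.1.2 \ A'),
        Nat.lt_succ_of_le (hf.old.stg.le G).1, m, c⟩ (image_subset_image sdiff_subset)
        (not_disjoint_iff.2 ⟨_, mem_image_of_mem _ (mem_sdiff.2 ⟨ha, n'⟩), h2⟩)
      have l0 : ∀ ℓ, 0 < f.la ℓ := fun ℓ => (one_div_pos.2 (p2 n)).trans_le (fw.la ℓ).1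
      have k2 := abs_prod_le (g := fun a => (f.la (blk a))⁻¹) (fun a => by
        rw [abs_of_pos (inv_pos.2 (l0 _))]
        exact inv_le_of_inv_le₀ (p2 n) (by simpa using (fw.la _).1)) (hW.le _ m)
      have := mul_le_mul k2 k1 (abs_nonneg _) (p2 _).le
      rw [← abs_mul, prod_inv_distrib, inv_mul_cancel_left₀
        (prod_ne_zero_iff.2 fun a _ => (l0 _).ne')] at this
      rw [abs_mul, fw.m, prod_const, c, abs_of_nonneg (by positivity)]
      exact mul_le_mul_of_nonneg_left this (by positivity)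
    · rw [abs_mul]
      exact (congrArg (_ * |·|) (sy_hom _ (ho.hom_lev G) _ c)).trans_le
        (by simp only [abs_zero, mul_zero]; positivity)
  have b2 : ∀ G ∈ univ.filter fun G => f.θ.fam G = some w.1.1,
      |coeff (ind w.1.2) (f.θ.sc G • (scl (fun a => p (.inr (blk a)))
      (zr (f.θ.mon G)) * scl (fun a => (f.m (blk a) : ℝ)) (aeval (Yp f.T.lev
      (sx f.T _ W fun w' => p (.inl w'))) (f.T.Φ G))))| ≤ 2 ^ n * (2 ^ (n * s) * r) :=
    fun G hG => by
    rw [coeff_smul, smul_eq_mul, abs_mul, coeff_scl_mul]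
    refine (mul_le_mul_of_nonneg_left ((abs_sum_le_sum_abs _ _).trans ((sum_le_sum
      (g := fun A' => |coeff (ind A') (zr (f.θ.mon G))| * (ν ^ f.T.lev G * (2 ^ (n * s) * r)))
        fun A' m => ?_).trans
        (?_ : _ ≤ l1 (zr (f.θ.mon G)) * (ν ^ f.T.lev G * (2 ^ (n * s) * r))))) (abs_nonneg _)).trans ?_
    · by_cases n : a0 ∈ A'
      · rw [z _ n, zero_mul, abs_zero]
        positivity
      · rw [abs_mul, abs_mul]
        exact (mul_le_of_le_one_left (by positivity) (e1 _)).trans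
          (mul_le_mul_of_nonneg_left (b1 G A' (mem_powerset.1 m) n) (abs_nonneg _))
    · rw [← sum_mul, ← sum_image (f := fun μ => |coeff μ (zr (f.θ.mon G))|)
        fun _ _ _ _ e => ind_inj e]
      exact mul_le_mul_of_nonneg_right (sum_le_l1 _ _) (by positivity)
    · rw [← mul_assoc, ← mul_assoc]
      exact mul_le_mul_of_nonneg_right (fw.bd G _ (mem_filter.1 hG).2) (by positivity)
  refine (mul_le_mul (abs_prod_le (h := h) (fun a => ?_) (hW.le _ hA))
    ((abs_sum_le_sum_abs _ _).trans ((sum_le_card_nsmul _ _ _ b2).trans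
      (nsmul_le_nsmul_left (by positivity) ((card_le_univ _).trans hn)))) (abs_nonneg _)
      (p2 _).le).trans_eq ?_
  · rw [abs_of_pos ((one_div_pos.2 (p2 h)).trans_le (hB.la _).1)]
    exact (hB.la _).2
  · rw [nsmul_eq_mul]
    push_cast
    ring

end Crest.Agent.N49.Md

end
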