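import Crest.Agent.N49.Md.Tfb
import Crest.Agent.N49.Md.Syu
import Crest.Agent.N49.Tn.Mul
import Crest.Agent.N49.Tw.ConH

/-!
# Row 49 (helper10): centre plus direction is a split surjection
-/

set_option autoImplicit false
set_option linter.unusedSectionVars false

open Finset Matrix MvPolynomial

noncomputable section

namespace Crest.Agent.N49.Md

open Tw Rm Sy Po Sh

namespace Sp2

section gen
variable {τ0 τ1 τ2 : Type} {S0 : Sh Unit τ0} {S : Sh Unit τ1} {S2 : Sh Unit τ2}
  {v : Matrix (Option S0.W) (Option S0.W) ℝ}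

/-- the kernel is generated in degree one (section on the second factor) -/
theorem gen1 (φ : Matrix S2.W (TW S0 S) ℤ) (e : S2.W → S.W) (he : Function.Surjective e)
    (hd : ∀ w w0, φ w (i0 S w0) ≠ 0 → S.dg (e w) = S0.dg w0) (o0 : S0.Ok) (o : S.Ok)
    (g0 : S0.Gen fun _ => False) (g1 : S.Gen fun _ => False) (κ : TW S0 S → ℤ)
    (hκ : ∀ w, κ (Tz.i1 (none, e w)) = 0) (x : TW S0 S) (hx : κ x ≠ 0) :
    ∃ (j : TW S0 S) (m : TW S0 S →₀ ℕ), j ∉ Set.range (fun w => Tz.i1 (none, e w)) ∧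
      (S0.ten S v).dg j = 1 ∧ m.degree + 1 = (S0.ten S v).dg x ∧
      (∀ y ∈ m.support, (S0.ten S v).dg y = 1) ∧ ∑ y, κ y * (Tz.rt y (Finsupp.single j 1 + m) -
        ∑ w, φ w j * Tz.rt y (Finsupp.single (Tz.i1 (none, e w)) 1 + m)) ≠ 0 := by
  obtain ⟨a, c, a1, c1, a2, c2, k⟩ :=
    ten_gen2 o0 o (((lgen _ _ _).1 _).1 g0) (((lgen _ _ _).1 _).1 g1) κ hx
  have d : a.degree + c.degree = (S0.ten S v).dg x := (congrArg₂ _ a1 c1).trans (ten_dg x).symm
  clear a1 c1
  by_contra n
  push Not at n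
  induction hc : a.degree generalizing a c with
  | zero =>
    obtain rfl := (Finsupp.degree_eq_zero_iff _).1 hc
    refine k (sum_eq_zero fun y _ => ?_)
    rcases y with ⟨⟨_ | w, _ | w1⟩, ne⟩
    · exact absurd rfl ne
    · obtain ⟨w, rfl⟩ := he w1
      exact mul_eq_zero_of_left (hκ w) _
    · simp [Xt.ru_zero o0]
    · simp [Xt.ru_zero o0]
  | succ l ih =>
    obtain ⟨w0, hw⟩ := Finsupp.support_nonempty_iff.2 fun z : a = 0 => by
      rw [z, map_zero] at hc; omega
    obtain ⟨a', rfl⟩ : ∃ a', a = Finsupp.single w0 1 + a' := exists_add_of_le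
      (Finsupp.single_le_iff.2 (Nat.one_le_iff_ne_zero.2 (Finsupp.mem_support_iff.1 hw)))
    have a3 : ∀ w ∈ a'.support, S0.dg w = 1 := fun w k => a2 w (Finsupp.mem_support_iff.2 fun z =>
      Finsupp.mem_support_iff.1 k (Nat.add_eq_zero_iff.1 z).2)
    rw [map_add, Finsupp.degree_single] at hc d
    have := n (i0 S w0) (jn a' c) (by rintro ⟨w, z⟩; cases z) ((ten_dg _).trans (a2 w0 hw))
      ((congrArg (· + 1) (jn_degree a' c)).trans (by omega))
      fun y hy => (ten_dg y).trans (jn_td a3 c2 y hy)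
    have e1 : Finsupp.single (i0 S w0) 1 + jn a' c = jn (Finsupp.single w0 1 + a') c := by
      rw [← zero_add c, jn_add, zero_add]; simp [jn]
    have e2 : ∀ w, Finsupp.single (Tz.i1 (none, w)) 1 + jn a' c = jn a' (Finsupp.single w 1 + c) :=
      fun w => by rw [← zero_add a', jn_add, zero_add]; simp [jn]
    have e3 : ∀ y a c, Tz.rt y (jn a c) = S0.ru y.1.1 a * S.ru y.1.2 c := r_jn (v := v)
    simp only [e1, e2, e3, mul_sub, sum_sub_distrib, mul_sum] at this
    rw [sub_eq_zero, sum_comm] at this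
    refine k (this.trans (sum_eq_zero fun w _ => ?_))
    by_cases z : φ w (i0 S w0) = 0
    · simp [z]
    · simp only [mul_left_comm _ (φ w (i0 S w0))]
      rw [← mul_sum]
      refine mul_eq_zero_of_right _ (of_not_not fun k' => ih a' (Finsupp.single (e w) 1 + c) a3
        (fun w' k => ?_) k' (by rw [map_add, Finsupp.degree_single]; omega) (by omega))
      classical
      rcases mem_union.1 (Finsupp.support_add k) with k | k
      · rw [mem_singleton.1 (Finsupp.support_single_subset k), hd _ _ z, a2 w0 hw]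
      · exact c2 w' k

end gen

variable {τ τ0 τ1 : Type} [DecidableEq τ]

/-- shapes whose words are monomials; the set `U` consists of words -/
structure Ml (S : Sh Unit τ0) (t : Option S.W → τ →₀ ℕ) (U : Finset (τ →₀ ℕ)) : Prop where
  z : t none = 0
  inj : Function.Injective t
  dg : ∀ o, (t o).degree = S.od o
  ru : ∀ o m, S.ru o m = if Finsupp.weight (fun w => t (some w)) m = t o then 1 else 0
  sur : ∀ μ ∈ U, ∃ o, t o = μ

variable {S0 : Sh Unit τ0} {S : Sh Unit τ1} {v : Matrix (Option S0.W) (Option S0.W) ℝ}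
  {t0 : Option S0.W → τ →₀ ℕ} {t1 : Option S.W → τ →₀ ℕ} {U : Finset (τ →₀ ℕ)}

theorem sum_tt {M : Type} [AddCommMonoid M] (h0 : Ml S0 t0 U) (h1 : Ml S t1 U) (hU : Dn U)
    (w : MW U) (F : (τ →₀ ℕ) × (τ →₀ ℕ) → M) :
    ∑ z : TW S0 S, (if t0 z.1.1 + t1 z.1.2 = w.1 then F (t0 z.1.1, t1 z.1.2) else 0) =
      ∑ p ∈ antidiagonal w.1, F p := by
  rw [← sum_filter]
  refine sum_bij (fun z _ => (t0 z.1.1, t1 z.1.2)) (fun z k => mem_antidiagonal.2 (mem_filter.1 k).2)
    (fun z _ z' _ e => Subtype.ext (Prod.ext (h0.inj (congrArg Prod.fst e))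
      (h1.inj (congrArg Prod.snd e)))) (fun p k => ?_) fun _ _ => rfl
  have e := mem_antidiagonal.1 k
  obtain ⟨a, ha⟩ := h0.sur p.1 (hU _ w.mem _ (le_self_add.trans_eq e))
  obtain ⟨b, hb⟩ := h1.sur p.2 (hU _ w.mem _ (le_add_self.trans_eq e))
  refine ⟨⟨(a, b), fun z => w.ne ?_⟩, mem_filter.2 ⟨mem_univ _, by rw [← e, ← ha, ← hb]⟩,
    Prod.ext ha hb⟩
  obtain ⟨rfl, rfl⟩ := Prod.mk.inj z
  rw [← e, ← ha, ← hb, h0.z, h1.z, add_zero]

theorem Ml.wt (h : Ml S t1 U) (o : Option S.W) :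
    Finsupp.weight (fun w => t1 (some w)) (S.sg o) = t1 o := by
  cases o
  · exact (map_zero _).trans h.z.symm
  · exact (Finsupp.weight_single _ _ _).trans (one_smul _ _)

variable (t0 t1 U) in
/-- `c, v ↦ t` -/
def pm : Matrix (MW U) (TW S0 S) ℤ :=
  Matrix.of fun w z => if t0 z.1.1 + t1 z.1.2 = w.1 then 1 else 0

variable {ε : τ → ℤ} {K : (τ →₀ ℕ) → (τ →₀ ℕ) → ℝ}

theorem hm0 (h0 : Ml S0 t0 U) (h1 : Ml S t1 U) (hU : Dn U) :
    (S0.ten S v).Hm0 (mono (fun _ => ()) U ε K) (pm t0 t1 U) where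
  cd w (z : TW S0 S) k := unit_ext ((cd_degree _).trans (Eq.trans (by
    rw [← h0.dg, ← h1.dg, ← map_add, of_not_not fun n => k (if_neg n)]; rfl)
      ((cd_degree (S := S0.ten S v) z).trans (ten_dg z)).symm))
  mul (w : MW U) (m : TW S0 S →₀ ℕ) m0 := by
    have a : Finsupp.weight (fun w => t0 (some w)) (w0 S0 S m) +
        Finsupp.weight (fun w => t1 (some w)) (w1 S0 S m) =
        Finsupp.weight (fun z : TW S0 S => t0 z.1.1 + t1 z.1.2) m := by
      rw [w0, w1, ← weight_hom, ← weight_hom, ← Xt.wt_add]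
      simp only [h0.wt, h1.wt]
    have l : ∑ z : TW S0 S, pm t0 t1 U w z * (S0.ten S v).r z m = if Finsupp.weight
        (fun z : TW S0 S => t0 z.1.1 + t1 z.1.2) m = w.1 then 1 else 0 := by
      refine Eq.trans (sum_congr rfl fun z _ => ?_) ((sum_tt h0 h1 hU w fun p => if
        (Finsupp.weight (fun w => t0 (some w)) (w0 S0 S m), Finsupp.weight (fun w => t1 (some w))
          (w1 S0 S m)) = p then (1 : ℤ) else 0).trans ?_)
      · simp only [pm, of_apply, ite_mul, one_mul, zero_mul, ten_r, h0.ru, h1.ru, Prod.mk.injEq,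
          ite_and]
      · simp only [sum_ite_eq, HasAntidiagonal.mem_antidiagonal, a]
    refine l.trans (Eq.trans ?_ (cf_rz w _).symm)
    let G : TW S0 S → MvPolynomial (MW U) ℤ := fun z => ∑ w : MW U, pm t0 t1 U w z • X w
    have e : ∀ z : TW S0 S, Sh.rz U ℤ (G z) =
        if t0 z.1.1 + t1 z.1.2 ∈ U.erase 0 then monomial (t0 z.1.1 + t1 z.1.2) 1 else 0 := fun z => by
      refine (map_sum _ _ _).trans (Eq.trans (sum_congr rfl fun w' _ => ?_)
        ((sum_coe_sort (U.erase 0) fun ν => if t0 z.1.1 + t1 z.1.2 = ν then monomial ν (1 : ℤ)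
        else 0).trans (sum_ite_eq _ _ _)))
      rw [map_zsmul, Sh.rz, aeval_X, pm, of_apply, ite_smul, one_smul, zero_smul]
    change _ = coeff w.1 (Sh.rz U ℤ ((aeval G : MvPolynomial (TW S0 S) ℤ →ₐ[ℤ] MvPolynomial (MW U) ℤ)
      (monomial m 1)))
    rw [aeval_monomial, map_one, one_mul, map_finsuppProd]
    simp only [map_pow]
    rw [Finsupp.prod, prod_congr rfl fun z _ => congrArg (· ^ m z) (e z)]
    by_cases k : ∀ z ∈ m.support, t0 z.1.1 + t1 z.1.2 ∈ U.erase 0
    · rw [prod_congr rfl fun z hz => by rw [if_pos (k z hz), monomial_pow, one_pow],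
        ← monomial_sum_one, coeff_monomial]
      rfl
    · push Not at k
      obtain ⟨z, hz, k⟩ := k
      rw [prod_eq_zero hz (by rw [if_neg k, zero_pow (Finsupp.mem_support_iff.1 hz)]), coeff_zero]
      refine if_neg fun q => k (mem_erase.2 ⟨fun n => z.2 ?_, hU _ w.mem _
        ((le_weight (fun z : TW S0 S => t0 z.1.1 + t1 z.1.2) hz).trans_eq q)⟩)
      obtain ⟨n0, n1⟩ := add_eq_zero.1 n
      exact Prod.ext (h0.inj (n0.trans h0.z.symm)) (h1.inj (n1.trans h1.z.symm))

/-- the monomial of a word -/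
def ot {V : Finset (τ →₀ ℕ)} (o : Option (MW V)) : τ →₀ ℕ := o.elim 0 Subtype.val

theorem ml_mono (V : Finset (τ →₀ ℕ)) (h : U ⊆ V) :
    Ml (mono (fun _ => ()) V ε K) ot U where
  z := rfl
  inj := by
    rintro (_ | w) (_ | w') e
    exacts [rfl, absurd e.symm (MW.ne w'), absurd e (MW.ne w), congrArg _ (Subtype.ext e)]
  dg := by
    rintro (_ | w)
    exacts [map_zero _, rfl]
  ru := by
    rintro (_ | w) m
    exacts [if_congr ⟨fun e => e ▸ map_zero _, fun e => of_not_not fun n => weight_ne n e⟩ rfl rfl,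
      rfl]
  sur μ k := by
    by_cases z : μ = 0
    exacts [⟨none, z.symm⟩, ⟨some ⟨μ, mem_erase.2 ⟨z, h k⟩⟩, rfl⟩]

/-- **the criterion**: diagonal kernels `k0`, `k1` that convolve to `k2` -/
theorem sec {ε' : τ → ℤ} {k0 k1 k2 : (τ →₀ ℕ) → ℝ} (h0 : Ml S0 t0 U) (hU : Dn U) (o0 : S0.Ok)
    (o : (mono (fun _ => ()) U ε' (dk k1)).Ok) (o2 : (mono (fun _ => ()) U ε (dk k2)).Ok)
    (g0 : S0.Gen fun _ => False) (k : ∀ z z' : TW S0 (mono (fun _ => ()) U ε' (dk k1)),
      tK _ v z z' = if z = z' then k0 (t0 z.1.1) * k1 (ot z.1.2) else 0)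
    (hk : ∀ μ ∈ U, k2 μ = ∑ p ∈ antidiagonal μ, k0 p.1 * k1 p.2)
    (hε : pm (S := mono (fun _ => ()) U ε' (dk k1)) t0 (ot (V := U)) U *ᵥ (S0.ten _ v).ε =
      (mono (fun _ => ()) U ε (dk k2)).ε) {n : ℕ} (hn : 1 ≤ n) :
    (S0.ten (mono (fun _ => ()) U ε' (dk k1)) v).Sec (mono (fun _ => ()) U ε (dk k2)) n
      (pm (S := mono (fun _ => ()) U ε' (dk k1)) t0 (ot (V := U)) U) fun w => Tz.i1 (none, w) where
  ok := o2
  hm := (hm0 h0 (ml_mono U subset_rfl) hU).hm hε
  K := by
    refine Matrix.ext fun (w w' : MW U) => ?_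
    let S1 := mono (fun _ => ()) U ε' (dk k1)
    let P : Matrix (MW U) (TW S0 S1) ℝ := rl (pm (S := S1) t0 (ot (V := U)) U)
    have e : tK S1 v = diagonal fun z => k0 (t0 z.1.1) * k1 (ot (V := U) z.1.2) :=
      Matrix.ext fun z z' => k z z'
    have hP : ∀ w z, P w z = if t0 z.1.1 + ot (V := U) z.1.2 = w.1 then 1 else 0 := fun w z =>
      (apply_ite Int.cast _ _ _).trans (if_congr Iff.rfl Int.cast_one Int.cast_zero)
    change dk k2 w.1 w'.1 = (P * tK S1 v * Pᵀ : Matrix (MW U) (MW U) ℝ) w w'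
    rw [e, mul_apply, dk]
    simp only [mul_diagonal, transpose_apply, hP, ite_mul, one_mul, zero_mul, mul_ite, mul_one,
      mul_zero]
    split_ifs with q
    · rw [hk _ w.mem, ← sum_tt h0 (ml_mono (ε := ε') (K := dk k1) U subset_rfl) hU w, ← q]
      exact sum_congr rfl fun z _ => by split_ifs <;> rfl
    · refine (sum_eq_zero fun z _ => ?_).symm
      split_ifs with a b
      exacts [absurd (b.symm.trans a) q, rfl, rfl]
  sec (w w' : MW U) := by
    change (if t0 none + w'.1 = w.1 then (1 : ℤ) else 0) = _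
    rw [h0.z, zero_add]
    by_cases e : w = w'
    · rw [if_pos (congrArg Subtype.val e.symm)]
      exact (if_pos e).symm
    · rw [if_neg fun k => e (Subtype.ext k.symm)]
      exact (if_neg e).symm
  ht w z := by
    refine le_trans ?_ (Int.ofNat_le.2 hn)
    change |(if _ then 1 else 0 : ℤ)| ≤ _
    split_ifs <;> simp
  gen := gen1 _ id Function.surjective_id (fun (w : MW U) w0 z => by
    have : t0 (some w0) + 0 = w.1 := of_not_not fun n => z (if_neg n)
    exact (congrArg Finsupp.degree (this.symm.trans (add_zero _))).trans (h0.dg (some w0))) o0 o g0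
    (mono_gen hU fun w _ => let ⟨a, ha⟩ := Finsupp.ne_iff.1 (MW.ne w); ⟨a, ha, fun _ => id⟩)

end Sp2

open Sp2 in
theorem spl2 : SPL := by
  intro τ L _ _ _ _ blk la s n W hl hW hn
  have l0p : ∀ ℓ, 0 < l0 la ℓ := fun ℓ => mul_pos (hl ℓ) (by positivity)
  have l2p : ∀ ℓ, 0 < l2 la ℓ := fun ℓ => mul_pos (hl ℓ) two_pos
  have dn := hW.dw.dn
  have sur : ∀ μ ∈ W.image ind, ∃ o : Option (bg blk (l0 la) s univ).W, ow blk (l0 la) o = μ :=
    fun μ k => Tb.ow_surj (mem_full.1 (Sb.img hW k)) fun _ _ => mem_univ _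
  refine ⟨lsec _ _ _ _ _ n _ _ (sec (k0 := fun μ => (kw blk (l0 la) μ ^ 2)⁻¹)
    ⟨rfl, Tb.ow_inj, Tb.ow_od, Tb.ru_bg, sur⟩ dn (Tb.bg_ok l0p) (Tb.mr_ok l2p dn) (Tb.mr_ok hl dn)
    (sub_gen' (Sb.idl _ _) (q := fun _ => False) (mono_gen dn_full fun w _ =>
      let ⟨a, ha⟩ := Finsupp.ne_iff.1 (MW.ne w); ⟨a, ha, fun _ => id⟩)) ?_ ?_ ?_ hn) hn,
    fun T x => ?_⟩
  · rintro ⟨⟨a, _ | b⟩, ne⟩ ⟨⟨a', _ | b'⟩, ne'⟩
    · rcases a with _ | a
      · exact absurd rfl ne
      rcases a' with _ | a'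
      · exact absurd rfl ne'
      refine if_congr ⟨fun e => Subtype.ext (congrArg (fun a => (some a, none))
        (show a = a' from Subtype.ext (Subtype.ext e))), fun e =>
        congrArg (fun z : TW _ _ => ow blk (l0 la) z.1.1) e⟩ ?_ rfl
      change _ = _ * (kw blk (l2 la) 0 ^ 2)⁻¹
      simp [kw, ow]
    · exact (if_neg fun e => by cases e).symm
    · exact (if_neg fun e => by cases e).symm
    · change vv blk (l0 la) s univ a a' * (if b.1 = b'.1 then _ else 0) = _
      rw [vv, diagonal_apply]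
      by_cases p : a = a'
      · subst p
        by_cases q : b = b'
        · subst q
          rw [if_pos rfl, if_pos rfl, if_pos rfl]
          rfl
        · rw [if_neg (fun e => q (Subtype.ext e)), mul_zero, if_neg fun e =>
            q (Option.some.inj (congrArg (fun z : TW _ _ => z.1.2) e))]
      · rw [if_neg p, zero_mul, if_neg fun e => p (congrArg (fun z : TW _ _ => z.1.1) e)]
  · intro μ k
    obtain ⟨A, -, rfl⟩ := mem_image.1 k
    have e : ∀ a, (la (blk a) ^ 2)⁻¹ = (l0 la (blk a) ^ 2)⁻¹ + (l2 la (blk a) ^ 2)⁻¹ := fun a => by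
      have := (hl (blk a)).ne'
      rw [mul_pow, mul_pow, div_pow, Real.sq_sqrt (by norm_num)]
      field_simp
      norm_num
    have q : ∀ (lam : L → ℝ) (B : Finset τ), (kw blk lam (ind B) ^ 2)⁻¹ =
        ∏ a ∈ B, (lam (blk a) ^ 2)⁻¹ := fun lam B => by
      rw [kw, ← prod_pow, ← prod_inv_distrib]; rfl
    rw [q, prod_congr rfl fun a _ => e a, prod_add]
    refine sum_bij (fun B _ => (ind B, ind (A \ B))) (fun B h => ?_)
      (fun B _ B' _ h => ind_inj (congrArg Prod.fst h)) (fun u h => ?_) fun B _ => by rw [q, q]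
    · rw [HasAntidiagonal.mem_antidiagonal]
      ext i
      have := @mem_powerset.1 h i
      simp only [Finsupp.add_apply, ind_apply, mem_sdiff]
      by_cases k : i ∈ B <;> by_cases k' : i ∈ A <;> simp_all
    · have e : ∀ i, u.1 i + u.2 i = if i ∈ A then 1 else 0 := fun i =>
        congrArg (fun f : τ →₀ ℕ => f i) (HasAntidiagonal.mem_antidiagonal.1 h)
      refine ⟨u.1.support, mem_powerset.2 fun i k => ?_, Prod.ext ?_ ?_⟩
      · have := e i
        have := Finsupp.mem_support_iff.1 k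
        by_contra a
        simp only [a, if_false] at *
        omega
      · ext i
        have := e i
        simp only [ind_apply, Finsupp.mem_support_iff]
        split_ifs at * <;> omega
      · ext i
        have := e i
        simp only [ind_apply, mem_sdiff, Finsupp.mem_support_iff]
        by_cases k : i ∈ A <;> by_cases k' : u.1 i = 0 <;> simp [k, k'] at this ⊢ <;> omega
  · have a : (tn blk la s W).ε = 0 := by
      funext ⟨⟨a, b⟩, _⟩
      rcases a with _ | a <;> rcases b with _ | b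
      exacts [rfl, congrFun (Su.mr_ε blk _) b, congrFun (Su.mr_ε blk _) a.1, rfl]
    exact ((congrArg _ a).trans (mulVec_zero _)).trans (Su.mr_ε blk la).symm
  · refine ⟨fun p => wv blk la T x p.1.1 p.1.2.1.1, fun F => ?_⟩
    have e : ∀ w0 : (bg blk (l0 la) s univ).W, (tn blk la s W).pu _ (ph blk la s W)
        (rename (i0 _) (X w0)) = ∑ w : (mr blk la (W.image ind)).W,
          if w0.1.1 = w.1 then X w else 0 := fun w0 => by
      refine (congrArg _ (rename_X _ _)).trans ((aeval_X _ _).trans (sum_congr rfl fun w _ => ?_))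
      change (if w0.1.1 + 0 = w.1 then (1 : ℤ) else 0) • X w = _
      rw [add_zero, ite_smul, one_smul, zero_smul]
    have c : ∀ r : ℝ, (tn blk la s W).pu (mr blk la (W.image ind)) (ph blk la s W)
        (rename (i0 _) (C r)) = C r := fun r => (congrArg _ (rename_C _ _)).trans (algHom_C _ _)
    refine ((congrArg _ (map_sum _ _ _)).trans (map_sum _ _ _)).trans ?_
    refine (sum_congr rfl fun p _ => ((congrArg _ (map_mul _ _ _)).trans (map_mul _ _ _)).trans
      (congrArg₂ (· * ·) (c _) (e _))).trans ?_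
    have g : ∀ p : T.Cw (bg blk (l0 la) s univ), C (wv blk la T x p.1.1 p.1.2.1.1) *
        (∑ w : (mr blk la (W.image ind)).W, if p.1.2.1.1 = w.1 then X w else 0 :
          MvPolynomial (mr blk la (W.image ind)).W ℝ) = ∑ q : T.Cw (mr blk la (W.image ind)),
        if q.1.1 = p.1.1 ∧ q.1.2.1 = p.1.2.1.1 then C (x q) * X q.1.2 else 0 := fun p => by
      rw [wv, map_sum, sum_mul, sum_filter]
      refine sum_congr rfl fun q _ => if_ctx_congr Iff.rfl (fun k => congrArg _ ?_) fun _ => rfl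
      exact (sum_eq_single_of_mem q.1.2 (mem_univ _) fun w _ n => if_neg fun z =>
        n (Subtype.ext (z.symm.trans k.2.symm))).trans (if_pos k.2.symm)
    rw [sum_congr rfl fun p _ => g p, sum_comm, TS.Yw, sum_filter]
    refine sum_congr rfl fun q _ => ?_
    split_ifs with k
    · let p : T.Cw (bg blk (l0 la) s univ) := ⟨(q.1.1, ⟨⟨q.1.2.1, mem_erase.2 ⟨MW.ne q.1.2,
        Sb.img hW (MW.mem q.1.2)⟩⟩, fun _ _ => mem_univ _⟩), q.2⟩
      exact (sum_eq_single_of_mem p (mem_filter.2 ⟨mem_univ _, k⟩) fun p' _ n => if_neg fun z =>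
        n (Subtype.ext (Prod.ext z.1.symm (Subtype.ext (Subtype.ext z.2.symm))))).trans
          (if_pos ⟨rfl, rfl⟩)
    · exact sum_eq_zero fun p hp => if_neg fun z => k (z.1.trans (mem_filter.1 hp).2)

end Crest.Agent.N49.Md

end
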