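import Crest.Agent.N49.Md.Defs

/-!
# Row 49 (helper35): frames, the statements (FROZEN)
-/

set_option autoImplicit false

open Finset Matrix MvPolynomial

noncomputable section

namespace Crest.Agent.N49.Md

open Tw Rm Sy Po

/-! ### results -/

/-- functoriality of the errors -/
def UFT : Prop := ∀ (τ : Type) (T1 T2 : TS Unit) (θ : Tan T1 T2 τ) (x : ℝ), θ.Ok x →
  ∀ (e m : τ → ℝ) (Y : T2.C → MvPolynomial τ ℝ) (F : T1.C), aeval (θ.Y e m Y) (T1.Φ F) =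
    scl e (θ.bu F) + ∑ G with θ.fam G = some F,
      θ.sc G • (scl e (zr (θ.mon G)) * scl m (aeval Y (T2.Φ G)))

/-- symbols see only the squarefree coefficients -/
def TRC : Prop := ∀ (τ : Type) [Fintype τ] [DecidableEq τ] (T : TS Unit) (p : T.C → Prop)
  [DecidablePred p] (W : Finset (Finset τ)) (Y : T.C → MvPolynomial τ ℝ) (P : MvPolynomial T.C ℝ),
  Dw W → (∀ c, p c) → (∀ F, (Y F).IsHomogeneous (T.lev F)) → ∀ A ∈ W,
  sP T p W P A (fun w => coeff (ind w.1.2) (Y w.1.1)) = coeff (ind A) (aeval Y P)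

/-- `ka` is a morphism -/
def MORF : Prop := ∀ (τ L : Type) [Fintype τ] [DecidableEq τ] [Fintype L] [DecidableEq L]
  (B : Bs L) (W : Finset (Finset τ)) (blk : τ → L) (f : Fr B.T τ L) (s h n : ℕ), B.Ok s h →
  f.Ok s h → Wf s W blk → Fintype.card f.T.C ≤ 2 ^ n →
  Mor (f.SY W blk) (B.SY W blk) (ka B W blk f) (2 ^ (n + (3 * s + 2) * h))

/-- the identity frame; the number of families -/
def IDF : Prop := ∀ (τ L : Type) [Fintype τ] [DecidableEq τ] [Fintype L] [DecidableEq L]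
  (B : Bs L) (W : Finset (Finset τ)) (blk : τ → L) (s h : ℕ), B.Ok s h → Wf s W blk →
  (B.fr τ).Ok s h ∧ (∃ e, Emb B W blk (B.SY W blk) id (B.fr τ) e) ∧
    ∀ (f : Fr B.T τ L) (h' : ℕ), f.Ok s h' →
      Fintype.card f.T.C + 1 ≤ (h' + 1) * (Fintype.card B.T.C + 1) ∧ ∀ h'', h' ≤ h'' → f.Ok s h''

/-- composition -/
def COMP : Prop := ∀ (τ L : Type) [Fintype τ] [DecidableEq τ] [Fintype L] [DecidableEq L]
  (B : Bs L) (W : Finset (Finset τ)) (blk : τ → L) (f : Fr B.T τ L) (f' : Fr f.T τ L)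
  (s h0 h h' : ℕ), B.Ok s h0 → f.Ok s h → f'.Ok s h' → Wf s W blk →
  (f.comp f' blk).Ok s ((s + 1) * (h + h' + 1) ^ 2) ∧
    ∀ p, ka B W blk (f.comp f' blk) p = ka B W blk f (ka f.toBs W blk f' p)

/-- **regular towers have good symbol towers, with the hook** -/
def GXF (s l0 K0 M0 C : ℕ) : Prop := ∃ C0 K M : ℕ, ∀ (τ L : Type) [Fintype τ] [DecidableEq τ]
  [Fintype L] [DecidableEq L] (B : Bs L) (W : Finset (Finset τ)) (blk : τ → L) (b n : ℕ), 2 ≤ b →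
  b ≤ n → Fintype.card L ≤ l0 → Fintype.card τ ≤ b → B.M ≤ M0 → B.Ok s b → Wf s W blk →
  B.Rg C0 (n ^ K) (1 / 2 ^ n ^ K) (1 / 2 ^ n ^ K) →
  GG b (B.SY W blk) (Xf B W blk s K0 (b ^ K) M C n)

/-- **back to a full symbol tower** -/
def CAN (s M C : ℕ) : Prop := ∃ C0 K M' : ℕ, ∀ (τ L C1 : Type) [Fintype τ] [DecidableEq τ]
  [Fintype L] [DecidableEq L] [Fintype C1] [DecidableEq C1] (B : Bs L) (W : Finset (Finset τ))
  (blk : τ → L) (T1 : TT L C1) (ι : (C1 ⊕ L → ℝ) → B.SC W ⊕ L → ℝ) (f : Fr B.T τ L)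
  (e : Gd.Lv T1 → f.SC W) (h n : ℕ) (H1 : Set (C1 → ℤ)), 2 ≤ h → h ≤ n → Fintype.card τ ≤ h →
  Fintype.card B.T.C ≤ 2 ^ h → B.Ok s h → Wf s W blk → f.Ok s h → f.M ≤ M →
  f.Rg C0 (n ^ K) (1 / 2 ^ n ^ K) (1 / 2 ^ n ^ K) → Emb B W blk T1 ι f e →
  ∃ (f' : Fr B.T τ L) (r : (f'.SC W ⊕ L → ℝ) → C1 ⊕ L → ℝ) (H' : Set (f'.SC W → ℤ)),
    f'.Ok s (h ^ K) ∧ f'.M ≤ M' ∧ f'.m = f.m ∧ (Tg B blk s f → Tg B blk s f') ∧
    Fintype.card f'.T.C ≤ 2 ^ h ^ K ∧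
    f'.Rg C n (1 / 2 ^ n) (1 / 2 ^ n) ∧ Mor (f'.SY W blk) T1 r (2 ^ h ^ K) ∧
    (∀ p, ι (r p) = ka B W blk f' p) ∧ Ov r H' H1 ∧ T1.pr H1 - 1 / 2 ^ n ≤ (f'.SY W blk).pr H'

/-! ### leaves -/

/-- composition of substitutions -/
def TCMP : Prop := ∀ (τ : Type) (T1 T2 T3 : TS Unit) (θ : Tan T1 T2 τ) (θ' : Tan T2 T3 τ)
  (m : τ → ℤ) (x x' y : ℝ) (s : ℕ), θ.Ok x → θ'.Ok x' → 1 ≤ x → 1 ≤ x' → 1 ≤ y →
  (∀ a, |(m a : ℝ)| ≤ y) → (∀ G, T2.lev G ≤ s) → (θ.comp θ' m).Ok (x * x' * y ^ s)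

/-- composition of costs -/
def COT : Prop := ∀ (s X X' : ℕ) (T1 T2 T3 : TS Unit) (t : T1.C → T2.C) (t' : T2.C → T3.C),
  T1.Tri → T2.Tri → (∀ F, T2.lev (t F) = T1.lev F) → Co s X T1 T2 t → Co s X' T2 T3 t' →
  Co s ((s + 1) * (X + X' + 1) ^ 2) T1 T3 (t' ∘ t)

/-- constant twists -/
def TXA : Prop := ∀ (τ : Type) (T : TS Unit) (st : T.C → ℕ) (M s : ℕ) (S : Sh Unit τ), Old T st M s →
  S.Ok → (∀ P : T.C → MvPolynomial S.W ℝ, (∀ F, (P F).IsWeightedHomogeneous S.dg (T.lev F)) →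
    T.Adm S st (tc T S P) ∧ (∀ v b, T.tan S (tc T S P) v b = T.tan S (T.tw0 S) v b) ∧
    (∀ (τ' : Type) (S' : Sh Unit τ') (φ : Matrix S'.W S.W ℤ),
      T.tp S S' φ (tc T S P) = tc T S' fun F => S.pu S' φ (P F)) ∧
    ∀ (τ' : Type) (S' : Sh Unit τ') (v : Matrix (Option S.W) (Option S.W) ℝ),
      T.tin S S' v (tc T S P) = tc T (S.ten S' v) fun F =>
        rename (fun w => (⟨(some w, none), by simp⟩ : Sh.TW S S')) (P F)) ∧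
  ∀ x : T.Cw S → ℝ, (∀ F, (T.Yw S x F).IsWeightedHomogeneous S.dg (T.lev F)) ∧
    T.tw S (tc T S (T.Yw S x)) = (T.tw S (T.tw0 S)).off x

/-- sizes of the rings -/
def SZB : Prop := ∀ (τ L : Type) [Fintype τ] [DecidableEq τ] [Fintype L] [DecidableEq L]
  (blk : τ → L) (lam : L → ℝ) (s h n : ℕ) (a : ℝ), (∀ ℓ, 0 < lam ℓ ∧ lam ℓ ≤ 2 ^ h) →
  (Fintype.card τ + 1) ^ s ≤ n → a ≤ 1 / 2 ^ (2 * h * s) →
  (∀ U, Dn U → U ⊆ full τ s → (mr blk lam U).Sz n a) ∧ Dn (full τ s) ∧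
  (∀ W, Wf s W blk → Dn (W.image ind) ∧ W.image ind ⊆ full τ s) ∧
  ∀ J, (bg blk lam s J).Sz n a ∧ (bg blk lam s J).Tk (vv blk lam s J) a ∧
    ((mr blk lam (full τ s)).Idl fun w => inJ blk J w.1) ∧
    (mr blk lam (full τ s)).Gen fun w => inJ blk J w.1

/-- the normalised tangent tower -/
def TFA : Prop := ∀ (τ L : Type) [Fintype τ] [DecidableEq τ] [Fintype L] [DecidableEq L]
  (T : TS Unit) (st : T.C → ℕ) (M s : ℕ) (blk : τ → L) (lam : L → ℝ) (J : Finset L)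
  (b : T.Cw (bg blk lam s J) → ℤ), Old T st M s → (∀ ℓ, 0 < lam ℓ) →
  Old (tT blk lam T s J b) (T.ts _ st M) (tM M) s ∧
  (tT blk lam T s J b).D = (t0 blk lam T s J b).D ∧
  (∀ C n a η, (t0 blk lam T s J b).RgS (T.ts _ st M) (tM M) C n a η →
    (tT blk lam T s J b).RgS (T.ts _ st M) (tM M) C n a η) ∧
  ∀ (τ' : Type) (S : Sh Unit τ'), S.Ok → ∀ y, ((tT blk lam T s J b).tw S
    ((tT blk lam T s J b).tw0 S)).wt y = ((t0 blk lam T s J b).sh S).wt y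

/-- Taylor's formula -/
def TFB : Prop := ∀ (τ L : Type) [Fintype τ] [DecidableEq τ] [Fintype L] [DecidableEq L]
  (T : TS Unit) (s h : ℕ) (blk : τ → L) (lam : L → ℝ) (J : Finset L)
  (b : T.Cw (bg blk lam s J) → ℤ) (hp : ∀ c, 0 < T.lev c), T.Ok → (∀ c, T.lev c ≤ s) →
  (∀ ℓ, 1 / 2 ^ h ≤ lam ℓ) → (tθ blk lam T s J b hp).Ok (2 ^ (h * s))

/-- the costs of the tangent tower -/
def TFC : Prop := ∀ (τ L : Type) [Fintype τ] [DecidableEq τ] [Fintype L] [DecidableEq L]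
  (T : TS Unit) (st : T.C → ℕ) (M s h : ℕ) (blk : τ → L) (lam : L → ℝ) (J : Finset L)
  (b : T.Cw (bg blk lam s J) → ℤ) (hp : ∀ c, 0 < T.lev c), Old T st M s →
  (∀ ℓ, 0 < lam ℓ ∧ lam ℓ ≤ 2 ^ h) →
  Co s ((Fintype.card τ + 1) ^ s * ((h + 1) * (s + 1))) T (tT blk lam T s J b)
    (tθ blk lam T s J b hp).top

/-- the tangent frame -/
def TFO : Prop := ∀ (τ L : Type) [Fintype τ] [DecidableEq τ] [Fintype L] [DecidableEq L]
  (B : Bs L) (s h : ℕ) (blk : τ → L) (lam la' : L → ℝ) (m : L → ℕ) (J : Finset L)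
  (b : B.T.Cw (bg blk lam s J) → ℤ) (hp : ∀ c, 0 < B.T.lev c), Old B.T B.st B.M s →
  (∀ ℓ, 1 / 2 ^ h ≤ lam ℓ ∧ lam ℓ ≤ 2 ^ h) → (∀ ℓ, 1 / 2 ^ h ≤ la' ℓ ∧ la' ℓ ≤ 2 ^ h) →
  (∀ ℓ, 1 ≤ m ℓ ∧ m ℓ ≤ 2 ^ h) →
  (tf B blk lam s J b hp la' m).Ok s ((Fintype.card τ + 1) ^ s * ((h + 1) * (s + 1)))

/-- a recentring sits inside the tangent frame -/
def EMC : Prop := ∀ (τ L C1 : Type) [Fintype τ] [DecidableEq τ] [Fintype L] [DecidableEq L]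
  [Fintype C1] [DecidableEq C1] (B : Bs L) (W : Finset (Finset τ)) (blk : τ → L) (T1 : TT L C1)
  (e : Gd.Lv T1 → B.SC W) (s h : ℕ) (j : L) (a : ℕ) (z : C1 → ℤ)
  (b : B.T.Cw (bg blk B.la s {j}) → ℤ) (hp : ∀ c, 0 < B.T.lev c), B.Ok s h → Wf s W blk →
  Em T1 e (B.SY W blk) → Ext B W blk s {j} e z b →
  ∃ e', Em (T1.rc j a z) e'
      ((tf B blk B.la s {j} b hp (Function.update B.la j (B.la j * 2 ^ a)) 1).SY W blk) ∧
    ∀ d p, T1.rci j 1 z (rr (T1.rc j a z) e' d p) = rr T1 e (fun c => d (.inl c))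
      (ka B W blk (tf B blk B.la s {j} b hp (Function.update B.la j (B.la j * 2 ^ a)) 1) p)

/-- the symbol tower inside a monomial ring -/
def SYU : Prop := ∀ (τ L : Type) [Fintype τ] [DecidableEq τ] [Fintype L] [DecidableEq L]
  (B : Bs L) (W : Finset (Finset τ)) (blk : τ → L) (s h : ℕ) (U : Finset (τ →₀ ℕ)), B.Ok s h →
  Wf s W blk → Dn U → W.image ind ⊆ U → ∃ g : B.SC W → B.T.Cw (mr blk B.la U),
    (∀ w, (g w).1.1 = w.1.1 ∧ (g w).1.2.1 = ind w.1.2) ∧ Function.Injective g ∧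
    (U = W.image ind → Function.Surjective g) ∧
    (∀ (R : Type) [AddCommMonoid R] (y : B.T.Cw (mr blk B.la U) → R) (w : B.SC W),
      wv blk B.la B.T y w.1.1 (ind w.1.2) = y (g w)) ∧
    (B.T.tw (mr blk B.la U) (B.T.tw0 _)).K⁻¹ = diagonal (fun p => kw blk B.la p.1.2.1 ^ 2) ∧
    ∀ (y : B.T.Cw (mr blk B.la U) → ℝ) (ε : L → ℝ) (w : B.SC W),
      (B.SY W blk).Φ (Sum.elim (fun w' => y (g w')) ε) w =
        kw blk B.la (ind w.1.2) * (B.T.tw (mr blk B.la U) (B.T.tw0 _)).u y (g w)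

/-- the law of the symbol tower -/
def SYP : Prop := ∀ (τ L : Type) [Fintype τ] [DecidableEq τ] [Fintype L] [DecidableEq L]
  (B : Bs L) (W : Finset (Finset τ)) (blk : τ → L) (s h : ℕ) (H : Set (B.SC W → ℤ)), B.Ok s h →
  Wf s W blk → (B.SY W blk).pr H = (B.T.tw (mr blk B.la (W.image ind)) (B.T.tw0 _)).P
    {y | (fun w : B.SC W => wv blk B.la B.T y w.1.1 (ind w.1.2)) ∈ H}

/-- a subsystem is a mixture of twisted laws -/
def EXL : Prop := ∀ (τ L C1 : Type) [Fintype τ] [DecidableEq τ] [Fintype L] [DecidableEq L]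
  [Fintype C1] [DecidableEq C1] (B : Bs L) (W : Finset (Finset τ)) (blk : τ → L) (T1 : TT L C1)
  (e : Gd.Lv T1 → B.SC W) (s h : ℕ) (U : Finset (τ →₀ ℕ)) (H : Set (C1 → ℤ)), B.Ok s h →
  Wf s W blk → Dn U → W.image ind ⊆ U → Em T1 e (B.SY W blk) →
  ∃ (x : B.T.Cw (mr blk B.la U) → ℝ) (d : C1 → ℤ), T1.pr H ≤
    (B.T.tw (mr blk B.la U) (tc B.T _ (B.T.Yw _ x))).P
      {y | rz T1 e d (fun w : B.SC W => wv blk B.la B.T y w.1.1 (ind w.1.2)) ∈ H}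

/-- **most centres are generic** -/
def GEN (M C' : ℕ) : Prop := ∃ C c : ℕ, ∀ (τ L C1 : Type) [Fintype τ] [DecidableEq τ] [Fintype L]
  [DecidableEq L] [Fintype C1] [DecidableEq C1] (B : Bs L) (W : Finset (Finset τ)) (blk : τ → L)
  (T1 : TT L C1) (e : Gd.Lv T1 → B.SC W) (s h : ℕ) (J : Finset L) (n n' : ℕ) (a a' η : ℝ),
  B.M = M → B.Ok s h → Wf s W blk → Em T1 e (B.SY W blk) → (Fintype.card τ + 1) ^ s ≤ n → n < n' →
  0 < a → a ≤ 1 / 2 ^ (2 * h * s) → 0 < η → η ≤ 1 → (n + 2) ^ c * a' ≤ a ^ 4 → B.Rg C n' a' η →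
  T1.pr {z | ¬ ∃ b, Ext B W blk s J e z b ∧
    (tT blk B.la B.T s J b).RgS (B.T.ts _ B.st B.M) (tM B.M) C' n a η} ≤ 2 * η

section
variable {τ L : Type} [Fintype τ] [DecidableEq τ] [Fintype L] [DecidableEq L] (blk : τ → L)
  (la : L → ℝ) (s : ℕ) (W : Finset (Finset τ))
/-- the widths of the background: `(2 / √3)⁻² + 2⁻² = 1` -/
abbrev l0 : L → ℝ := fun ℓ => la ℓ * (2 / √3)
/-- the widths of the directions -/
abbrev l2 : L → ℝ := fun ℓ => la ℓ * 2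
/-- the ring of `c` and `v` -/
abbrev tn : Sh Unit Unit := (bg blk (l0 la) s univ).ten (mr blk (l2 la) (W.image ind))
  (vv blk (l0 la) s univ)
/-- `c, v ↦ t` -/
def ph : Matrix (mr blk la (W.image ind)).W (tn blk la s W).W ℤ := Matrix.of fun w x =>
  if ow blk (l0 la) x.1.1 + x.1.2.elim 0 (fun w' => w'.1) = w.1 then 1 else 0
end

/-- `c, v ↦ t` is a split surjection; offsets lift -/
def SPL : Prop := ∀ (τ L : Type) [Fintype τ] [DecidableEq τ] [Fintype L] [DecidableEq L]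
  (blk : τ → L) (la : L → ℝ) (s n : ℕ) (W : Finset (Finset τ)), (∀ ℓ, 0 < la ℓ) → Wf s W blk →
  1 ≤ n → (∃ (J : Type) (_ : Fintype J) (_ : DecidableEq J) (ψ N Q cj : _),
    (tn blk la s W).Spl (J := J) (mr blk la (W.image ind)) n (ph blk la s W) ψ N Q cj) ∧
  ∀ (T : TS Unit) (x : T.Cw (mr blk la (W.image ind)) → ℝ),
    ∃ x0 : T.Cw (bg blk (l0 la) s univ) → ℝ, ∀ F, (tn blk la s W).pu _ (ph blk la s W)
      (rename (fun w => (⟨(some w, none), by simp⟩ : Sh.TW _ _)) (T.Yw _ x0 F)) = T.Yw _ x F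

/-- freeze a good background -/
def BGP : Prop := ∀ (τ0 τ : Type) (T : TS Unit) (S0 : Sh Unit τ0) (S : Sh Unit τ) (st : T.C → ℕ)
  (M : ℕ) (Ψ0 : T.Twd S0) (v : Matrix (Option S0.W) (Option S0.W) ℝ) (h : S.Ok) (a η : ℝ)
  (Gd : Set (T.Cw S0 → ℤ)) (E : Set (T.Cw (S0.ten S v) → ℤ)), T.Stg st M → T.Adm S0 st Ψ0 → S0.Ok →
  S0.Tk v a → (S0.ten S v).Ok → 0 < η → η ≤ 1 / 10 → (T.lw S0 st Ψ0).Mas η →
  (T.lw (S0.ten S v) st (T.tin S0 S v Ψ0)).Mas η →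
  (∀ b ∈ Gd, ((T.tan S0 Ψ0 v b).lw S (T.ts S0 st M) ((T.tan S0 Ψ0 v b).tw0 S)).Mas η) →
  (T.tw S0 Ψ0).P Gdᶜ ≤ η → ∃ b ∈ Gd, (T.tw (S0.ten S v) (T.tin S0 S v Ψ0)).P E - 10 * η ≤
    ((T.tan S0 Ψ0 v b).sh S).P {y | ∃ Y ∈ E, (∀ p, Y (T.tE S0 S v Ψ0 b h (.inl p)) = b p) ∧
      ∀ q, Y (T.tE S0 S v Ψ0 b h (.inr q)) = y q}

/-- `c, v ↦ t` on configurations is the morphism of the tangent frame -/
def HMK : Prop := ∀ (τ L : Type) [Fintype τ] [DecidableEq τ] [Fintype L] [DecidableEq L]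
  (B : Bs L) (W : Finset (Finset τ)) (blk : τ → L) (s h : ℕ) (Ψ0 : B.T.Twd _)
  (b : B.T.Cw (bg blk (l0 B.la) s univ) → ℤ) (hp : ∀ c, 0 < B.T.lev c)
  (ho : (mr blk (l2 B.la) (W.image ind)).Ok) (Y : B.T.Cw (tn blk B.la s W) → ℤ)
  (y : (tT blk (l0 B.la) B.T s univ b).Cw (mr blk (l2 B.la) (W.image ind)) → ℤ),
  B.Ok s h → Wf s W blk → (∀ p, Y (B.T.tE _ _ _ Ψ0 b ho (.inl p)) = b p) →
  (∀ q, Y (B.T.tE _ _ _ Ψ0 b ho (.inr q)) = y q) →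
  ka B W blk (tf B blk (l0 B.la) s univ b hp (l2 B.la) 1)
      (TT.cf fun w => wv blk (l2 B.la) _ y w.1.1 (ind w.1.2)) =
    TT.cf fun w => wv blk B.la B.T (B.T.hm _ _ (ph blk B.la s W) Y) w.1.1 (ind w.1.2)

end Crest.Agent.N49.Md

end
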