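import Crest.Agent.N49.Md.St
import Crest.Agent.N49.Tn.Alg
import Crest.Agent.N49.Tn.Sz
import Crest.Agent.N49.Rn.L1
import Crest.Agent.N49.Tw.Ap2

/-!
# Row 49 (helper71): constant twists
-/

set_option autoImplicit false

open Finset Matrix MvPolynomial

noncomputable section

namespace Crest.Agent.N49.Md

open Tw Rm Sy Po

theorem tw0_ok {τ : Type} {T : TS Unit} (h : T.Ok) (S : Sh Unit τ) (F : T.C) :
    T.tw0 S F = MvPolynomial.map C (T.Φ F) :=
  TS.tw0_hom fun _ z => h.hom_lev F (mem_support_iff.1 z)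

theorem map_tw0 {τ τ' : Type} {T : TS Unit} (h : T.Ok) (S : Sh Unit τ) (S' : Sh Unit τ')
    (f : MvPolynomial S.W ℝ →ₐ[ℝ] MvPolynomial S'.W ℝ) (F : T.C) :
    MvPolynomial.map f.toRingHom (T.tw0 S F) = T.tw0 S' F := by
  rw [tw0_ok h, tw0_ok h, MvPolynomial.map_map]
  exact congrArg (MvPolynomial.map · (T.Φ F)) (RingHom.ext fun r => f.commutes r)

theorem txa : TXA := fun τ T st M s S o h => by
  refine ⟨fun P hP => ⟨?_, fun v b => ?_, fun τ' S' φ => funext fun F => ?_,
    fun τ' S' v => funext fun F => ?_⟩, fun x => ⟨TS.Yw_dg x, ?_⟩⟩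
  · have a := o.stg.adm h
    have p := o.ok.toTri.lev_pos
    refine ⟨fun F m => ?_, fun F m z => ?_, fun F m e => ?_⟩
    · rw [tc, coeff_sub, coeff_C]
      refine (weightedHomogeneousSubmodule ℝ S.dg _).sub_mem (a.gr F m) ?_
      split_ifs with e
      · rw [← e, map_zero]; exact hP F
      · exact zero_mem _
    · by_cases e : 0 = m
      · simp [← e]
      · refine a.le F m ?_
        rwa [mem_support_iff, tc, coeff_sub, coeff_C, if_neg e, sub_zero, ← mem_support_iff] at z
    · rw [tc, coeff_sub, coeff_C, if_neg, sub_zero, a.top F m e]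
      rintro rfl
      rw [map_zero] at e
      exact (p F).ne e
  · refine congrArg (T.tan S (T.tw0 S) v b).setΦ (funext fun x : T.Tc S => ?_)
    simp only [tc, eval₂_sub, map_sub, eval₂_C]
    refine sub_eq_self.2 ?_
    rw [Sh.cu_map, Sh.cu_eq, sum_eq_zero, map_zero]
    intro m z
    by_cases e : S.ru x.1.2 m = 0
    · simp [e]
    · exact absurd ((Tz.ru_od h e).symm.trans (hP _ (mem_support_iff.1 z))) x.2.ne
  · rw [TS.tp, tc, tc, map_sub, map_C]
    exact congrArg (· - _) (map_tw0 o.ok S S' _ F)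
  · exact (map_sub _ _ _).trans (congrArg₂ (· - ·) (map_tw0 o.ok S (S.ten S' v) _ F) (map_C _ _))
  · refine congrArg (T.tw S (T.tw0 S)).setΦ (funext fun p : T.Cw S => ?_)
    simp only [tc, eval₂_sub, map_sub, eval₂_C]
    rw [Sh.cf_map, TS.cf_Yw h]
    rfl

end Crest.Agent.N49.Md

end
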