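import Crest.Agent.N49.Md.Fw
import Crest.Agent.N49.Sd.Stc
import Crest.Agent.N49.Rf.Rsc
import Crest.Agent.N49.Rn.L1

/-!
# Row 49 (helper9): the export of a frame as tangent data
-/

set_option autoImplicit false

open Finset Matrix MvPolynomial

noncomputable section

namespace Crest.Agent.N49.Md

open Tw

variable {τ L Lt : Type}

/-- rename the letters, those with `g a = none` go to zero -/
def kl {R : Type} [CommRing R] (g : τ → Option Lt) : MvPolynomial τ R →ₐ[R] MvPolynomial Lt R :=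
  aeval fun a => (g a).elim 0 X

theorem kl_hom {R : Type} [CommRing R] (g : τ → Option Lt) {P : MvPolynomial τ R} {n : ℕ}
    (h : P.IsHomogeneous n) : (kl g P).IsHomogeneous n := by
  have := h.aeval (n := 1) (fun a => ((g a).elim 0 X : MvPolynomial Lt R)) fun a => by
    cases g a
    · exact isHomogeneous_zero ..
    · exact isHomogeneous_X ..
  rwa [one_mul] at this

theorem kl_zr (g : τ → Option Lt) (P : MvPolynomial τ ℤ) : zr (kl g P) = kl g (zr P) := by
  refine (map_aeval_int _ P).trans (congrArg (fun H => aeval H (zr P)) (funext fun a => ?_))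
  cases g a <;> simp

theorem l1_kl (g : τ → Option Lt) (P : MvPolynomial τ ℝ) : l1 (kl g P) ≤ l1 P := by
  have := l1_aeval (P := P) (H := fun a => ((g a).elim 0 X : MvPolynomial Lt ℝ)) (x := 1)
    (fun a => by cases g a <;> simp) le_rfl (s := P.totalDegree) fun m k => le_totalDegree k
  rwa [one_pow, mul_one] at this

theorem kl_zero {R : Type} [CommRing R] (g : τ → Option Lt) (P : MvPolynomial τ R) :
    coeff 0 (kl g P) = coeff 0 P := by
  have : (constantCoeff : MvPolynomial Lt R →+* R).comp (kl g).toRingHom = constantCoeff :=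
    ringHom_ext (fun a => by simp [kl]) fun a => by cases h : g a <;> simp [kl, h]
  exact DFunLike.congr_fun this P

theorem cc_hom {R : Type} [CommRing R] {P : MvPolynomial τ R} {n : ℕ} (h : P.IsHomogeneous n)
    (k : n ≠ 0) : constantCoeff P = 0 := h.coeff_eq_zero (by simpa using k.symm)

theorem top_Φ {T : TS Unit} (h : T.Ok) : T.top.Φ = T.Φ := _root_.funext fun c =>
  (h.hom_lev c).weightedHomogeneousComponent_same

/-- the stages are a grading -/
theorem gr_st {T : TS Unit} {st : T.C → ℕ} {M : ℕ} (h : T.Stg st M) : Gr T st st := by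
  refine ⟨fun _ _ e => e, fun c m k => ?_⟩
  have l : (T.stg st).lev = st := funext fun c => Finsupp.degree_single _ _
  have a : Finsupp.weight st m ≤ st c := l ▸ h.tri.tri c m k
  have p : ∀ c : T.C, 0 < st c := l ▸ h.tri.lev_pos
  by_cases e : ∃ c' ∈ m.support, st c ≤ st c'
  · obtain ⟨c', b, e⟩ := e
    have s : Finsupp.weight st m = Finsupp.weight st (m.erase c') + m c' * st c' := by
      conv_lhs => rw [← m.erase_add_single c', map_add, Finsupp.weight_single, smul_eq_mul]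
    have n := Nat.pos_of_ne_zero (Finsupp.mem_support_iff.1 b)
    have q := p c'
    have m1 : m c' = 1 := by nlinarith
    rw [m1, one_mul] at s
    refine Or.inl ⟨c', by omega, ?_⟩
    have z : m.erase c' = 0 := by
      by_contra z
      obtain ⟨i, hi⟩ := Finsupp.support_nonempty_iff.2 z
      have := Finsupp.le_weight_of_ne_zero' st (Finsupp.mem_support_iff.1 hi)
      have := p i
      omega
    rw [← m.erase_add_single c', z, zero_add, m1]
  · exact Or.inr fun c' b => not_le.1 fun k => e ⟨c', b, k⟩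

theorem stg_A (T : TS Unit) (st : T.C → ℕ) (c c' : T.C) : (T.stg st).A c c' =
    if st c = st c' then coeff (Finsupp.single c' 1) (T.Φ c) else 0 := by
  have l : (T.stg st).lev = st := funext fun c => Finsupp.degree_single _ _
  change (if (T.stg st).lev c = (T.stg st).lev c' then _ else 0) = _
  rw [l]; rfl

namespace Tan

variable {T1 T2 : TS Unit} (θ : Tan T1 T2 τ)

/-- the scalars of the export -/
def xs (G : T2.C) : ℝ := (θ.fam G).elim 1 fun _ => θ.sc G
/-- its families -/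
def xf (F0 : T1.C) (G : T2.C) : T1.C := (θ.fam G).getD F0
/-- its monomials -/
def xm (g : τ → Option Lt) (ν : ℕ) (G : T2.C) : MvPolynomial Lt ℤ :=
  (θ.fam G).elim 0 fun _ => C ((ν : ℤ) ^ T2.lev G) * kl g (θ.mon G)

/-- **the export** (`F0` = any family, `ν` = the multiplier, `γ` = the grading of the stages) -/
def xp (F0 : T1.C) (g : τ → Option Lt) (ν : ℕ) (γ : T2.C → ℕ) : Sd.Tan T1 (T2.scl θ.xs) Lt where
  fam := θ.xf F0
  mon := θ.xm g ν
  be F := kl g (θ.be F)
  bu F := kl g (θ.bu F)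
  bs := θ.top
  nu F := ν ^ T1.lev F
  gr := γ

variable {θ} {x : ℝ} {F0 : T1.C} {g : τ → Option Lt} {ν : ℕ} {γ : T2.C → ℕ}

theorem xs_ne (h : ∀ G F, θ.fam G = some F → θ.sc G ≠ 0) (G : T2.C) : θ.xs G ≠ 0 := by
  unfold xs
  cases e : θ.fam G
  · exact one_ne_zero
  · exact h G _ e

theorem xs_eq {G : T2.C} {F : T1.C} (e : θ.fam G = some F) : θ.xs G = θ.sc G := by
  rw [xs, e]; rfl

theorem xf_eq {G : T2.C} {F : T1.C} (e : θ.fam G = some F) : θ.xf F0 G = F := by
  rw [xf, e]; rfl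

theorem xm_eq {G : T2.C} {F : T1.C} (e : θ.fam G = some F) :
    θ.xm g ν G = C ((ν : ℤ) ^ T2.lev G) * kl g (θ.mon G) := by rw [xm, e]; rfl

theorem xm_0 {G : T2.C} (e : θ.fam G = none) : θ.xm g ν G = 0 := by rw [xm, e]; rfl

theorem xm_ne {G : T2.C} (h : θ.xm g ν G ≠ 0) : θ.fam G = some (θ.xf F0 G) := by
  cases e : θ.fam G
  · exact absurd (xm_0 e) h
  · rw [xf_eq e]

/-- sums over a fibre -/
theorem xp_sum {A : Type} [AddCommMonoid A] (F : T1.C) (φ : MvPolynomial Lt ℤ → T2.C → A)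
    (h : ∀ G, φ 0 G = 0) : ∑ G with θ.xf F0 G = F, φ (θ.xm g ν G) G =
      ∑ G with θ.fam G = some F, φ (C ((ν : ℤ) ^ T2.lev G) * kl g (θ.mon G)) G := by
  rw [sum_filter, sum_filter]
  refine sum_congr rfl fun G _ => ?_
  cases e : θ.fam G
  · rw [xm_0 e, h]; simp
  · rw [xm_eq e, xf_eq e]; simp

/-- the top families carry a copy of the old errors -/
theorem Ok.top_eq (h : θ.Ok x) (p : ∀ F, 0 < T1.lev F) (F : T1.C) :
    C (θ.sc (θ.top F)) * T2.Φ (θ.top F) = rename θ.top (T1.Φ F) := by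
  have z : ∀ F (φ : T2.C → MvPolynomial T2.C ℝ) (c : T2.C → ℝ), ∑ G with θ.fam G = some F,
      C (constantCoeff (c G • zr (θ.mon G))) * φ G = C (c (θ.top F)) * φ (θ.top F) := by
    intro F φ c
    rw [sum_eq_single_of_mem (θ.top F) (mem_filter.2 ⟨mem_univ _, (h.top F).1⟩), (h.top F).2.1]
    · simp
    · intro G k n
      have k := (mem_filter.1 k).2
      have a := h.le F G k
      have b : T1.lev F - T2.lev G ≠ 0 := fun e => n (h.uq F G k (by omega))
      rw [constantCoeff_smul, cc_hom (a.2.map _) b, smul_zero, map_zero, zero_mul]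
  have e := congrArg (MvPolynomial.map (constantCoeff : MvPolynomial τ ℝ →+* ℝ)) (h.eq F)
  rw [map_aeval] at e
  simp only [map_add, map_sum, map_mul, map_C, map_X, MvPolynomial.map_map] at e
  have c : (constantCoeff : MvPolynomial τ ℝ →+* ℝ).comp C = RingHom.id ℝ := by ext; simp
  rw [c, cc_hom (h.bu F) (p F).ne', map_zero, zero_add] at e
  simp only [MvPolynomial.map_id] at e
  rw [z F T2.Φ θ.sc] at e
  rw [← e, rename_eq_aeval, aeval_eq_eval₂Hom]
  congr 2
  · exact RingHom.ext fun r => (map_C _ (C r)).trans (congrArg C (constantCoeff_C _ r))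
  · funext F'
    have := z F' X 1
    simp only [Pi.one_apply, one_smul, map_one, one_mul] at this
    rw [cc_hom ((h.be F').map _) (p F').ne', map_zero, zero_add, this]
    rfl

theorem Ok.top_inj (h : θ.Ok x) : Function.Injective θ.top := fun F F' e =>
  Option.some.inj ((h.top F).1.symm.trans (e ▸ (h.top F').1))

variable {st1 : T1.C → ℕ} {st2 : T2.C → ℕ} {M1 : ℕ}

theorem xp_adq (k : θ.St st1 st2) : (θ.xp F0 g ν γ).Adq st1 st2 := fun F μ a =>
  k.adq F μ (θ.xf F0) fun G e => xm_ne (a G e)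

theorem xp_ok (h : θ.Ok x) (k : θ.St st1 st2) (s1 : T1.Stg st1 M1) (o2 : T2.Ok) (hν : 1 ≤ ν)
    (ne : ∀ G F, θ.fam G = some F → θ.sc G ≠ 0) (hγ : Gr T2 st2 γ)
    (eγ : ∀ G F, θ.fam G = some F → γ G = st1 F) : (θ.xp F0 g ν γ).Ok (fun _ => 1) st1 st2 0 where
  hm := fun G : T2.C => by
    change (θ.xm g ν G).IsWeightedHomogeneous _ (T1.lev (θ.xf F0 G) - T2.lev G)
    cases e : θ.fam G
    · rw [xm_0 e]; exact isWeightedHomogeneous_zero ..
    · rw [xm_eq e, xf_eq e]; exact (kl_hom g (h.le _ G e).2).C_mul _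
  le G a := (h.le _ G (xm_ne a)).1
  hb F := kl_hom g (h.be F)
  hu F := kl_hom g (h.bu F)
  fb F := xf_eq (h.top F).1
  mb F := by
    refine (xm_eq (h.top F).1).trans ?_
    rw [(h.top F).2.1, map_one, mul_one, (h.top F).2.2.2]
    simp [xp]
  np F := pow_pos hν _
  lb F := (h.top F).2.2.2
  ab F F' := by
    change ((ν ^ T1.lev F : ℕ) : ℝ) * ((T2.scl θ.xs).stg st2).A (θ.top F) (θ.top F') =
      _ * (ν ^ T1.lev F' : ℕ)
    rw [stg_A T1, stg_A (T2.scl θ.xs) st2 (θ.top F) (θ.top F')]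
    by_cases e : st1 F = st1 F'
    · have a : st2 (θ.top F) = st2 (θ.top F') := (k.pu F' _).2 ⟨F, rfl, e⟩
      have b := congrArg (coeff (Finsupp.single (θ.top F') 1)) (h.top_eq s1.cl.1.lev_pos F)
      rw [← Finsupp.mapDomain_single, coeff_rename_mapDomain _ h.top_inj, Finsupp.mapDomain_single,
        ← xs_eq (h.top F).1] at b
      rw [if_pos e, if_pos a, mul_comm, s1.lev _ _ e]
      exact congrArg (· * _) b
    · have a : st2 (θ.top F) ≠ st2 (θ.top F') := fun a => by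
        obtain ⟨F'', b, c⟩ := (k.pu F' _).1 a
        exact e (h.top_inj b ▸ c)
      rw [if_neg e, if_neg a, zero_mul, mul_zero]
  sg _ _ _ _ := by simp
  g0 := hγ.1
  g1 := fun (G : T2.C) n (m : T2.C →₀ ℕ) a => by
    rw [top_Φ (o2.scl (xs_ne ne))] at a
    have a : m ∈ (T2.Φ G).support := mem_support_iff.2
      (right_ne_zero_of_mul ((TS.scl_coeff (T := T2) G m).symm.trans_ne (mem_support_iff.1 a)))
    refine (hγ.2 G m a).imp_left fun ⟨G', b, c⟩ => ⟨G', ?_, b, c⟩
    rintro ⟨F, rfl⟩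
    obtain ⟨F', d, -⟩ := (k.pu F G).1 b.symm
    exact n ⟨F', d.symm⟩
  g2 G a := (eγ G _ (xm_ne (F0 := F0) a)).trans (eγ _ _ (h.top _).1).symm

theorem id_aux (h : θ.Ok x) (o2 : T2.Ok) (F : T1.C) : eval₂ (C.comp C)
    (fun F' => C (zr (kl g (θ.be F'))) + ∑ G with θ.xf F0 G = F', C (zr (θ.xm g ν G)) * X G)
    (T1.Φ F) = (C (kl g (θ.bu F)) + ∑ G with θ.xf F0 G = F, C (zr (θ.xm g ν G)) *
      MvPolynomial.map C (C (θ.xs G) * T2.Φ G) : MvPolynomial T2.C (MvPolynomial Lt ℝ)) := by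
  let N : MvPolynomial T2.C (MvPolynomial Lt ℝ) := ν
  let ψ : MvPolynomial T2.C (MvPolynomial τ ℝ) →+* MvPolynomial T2.C (MvPolynomial Lt ℝ) :=
    eval₂Hom (C.comp (kl (R := ℝ) g).toRingHom) fun G => N ^ T2.lev G * X G
  have c : ∀ P, ψ (C P) = C (kl g P) := fun P => eval₂Hom_C _ _ _
  have v : ∀ G, ψ (X G) = N ^ T2.lev G * X G := fun G => eval₂Hom_X' _ _ _
  have q : ∀ P : MvPolynomial T2.C ℝ, (MvPolynomial.map C P :
      MvPolynomial T2.C (MvPolynomial Lt ℝ)) = aeval X P := fun P => by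
    rw [map_eq_eval₂Hom_C_comp, aeval_eq_eval₂Hom]; rfl
  have d : ∀ G, ψ (MvPolynomial.map C (T2.Φ G)) = N ^ T2.lev G *
      MvPolynomial.map C (T2.Φ G) := fun G => by
    rw [q, ← aeval_dil (o2.hom_lev G), aeval_eq_eval₂Hom]
    refine (eval₂Hom_map_hom _ _ _ _).trans (congrArg (fun f => eval₂Hom f _ _) ?_)
    ext; simp [kl]
  have a : ψ.comp (algebraMap ℝ _) = C.comp C := RingHom.ext fun r => by
    refine (c (C r)).trans (congrArg C ?_)
    rw [kl, aeval_C]; rfl
  have n : ∀ l, (C (zr (C ((ν : ℤ) ^ l))) : MvPolynomial T2.C (MvPolynomial Lt ℝ)) = N ^ l :=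
    fun l => by simp [N]
  have e := congrArg ψ (h.eq F)
  rw [map_aeval, a] at e
  simp only [map_add, map_sum, map_mul, c, v, d] at e
  rw [xp_sum F (fun P G => (C (zr P) * MvPolynomial.map C (C (θ.xs G) * T2.Φ G) :
      MvPolynomial T2.C (MvPolynomial Lt ℝ))) (by simp)]
  refine Eq.trans ?_ (e.trans (congrArg _ (sum_congr rfl fun G k => ?_)))
  · refine congrArg (fun Y => eval₂ _ Y (T1.Φ F)) (funext fun F' => ?_)
    rw [xp_sum F' (fun P G => (C (zr P) * X G : MvPolynomial T2.C (MvPolynomial Lt ℝ)))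
      (by simp), kl_zr]
    refine congrArg _ (sum_congr rfl fun G _ => ?_)
    rw [zr, map_mul, map_mul, n, ← kl_zr]; ring
  · rw [xs_eq (mem_filter.1 k).2, map_smul, ← kl_zr, smul_eq_C_mul, zr, zr, map_mul, map_mul,
      map_mul, map_mul, n, map_C]
    ring

theorem xp_id (h : θ.Ok x) (o1 : T1.Ok) (o2 : T2.Ok)
    (ne : ∀ G F, θ.fam G = some F → θ.sc G ≠ 0) : (θ.xp F0 g ν γ).Id := fun F => by
  rw [top_Φ o1, top_Φ (o2.scl (xs_ne ne))]
  exact id_aux h o2 F

theorem xm_l1 {G : T2.C} {F : T1.C} (e : θ.fam G = some F) :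
    |θ.xs G| * l1 (zr (θ.xm g ν G)) ≤ |θ.sc G| * l1 (zr (θ.mon G)) * ν ^ T2.lev G := by
  rw [xs_eq e, xm_eq e, zr, map_mul, map_C, l1_C_mul, mul_assoc, mul_comm (l1 _)]
  refine mul_le_mul_of_nonneg_left (mul_le_mul (by simp) ?_ (l1_nonneg _) (by positivity))
    (abs_nonneg _)
  exact (congrArg l1 (kl_zr g _)).trans_le (l1_kl g _)

/-- the pulled-back linear form -/
theorem xp_pi (h : θ.Ok x) {π : T1.C → ℤ} (hπ : ∀ F, π F ≠ 0 → T1.lev F = 1)
    (p : ∀ G, 0 < T2.lev G) : (θ.xp F0 g ν γ).pi π = fun G : T2.C => ν * pl θ.top π G := by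
  refine funext fun G : T2.C => ?_
  change coeff 0 (θ.xm g ν G) * π (θ.xf F0 G) = _
  have z : G ∉ Set.range θ.top → pl θ.top π G = 0 := fun n =>
    sum_eq_zero fun F k => absurd ⟨F, (mem_filter.1 k).2⟩ n
  cases e : θ.fam G with
  | none =>
    rw [xm_0 e, coeff_zero, zero_mul, z, mul_zero]
    rintro ⟨F, rfl⟩
    rw [(h.top F).1] at e; cases e
  | some F =>
    rw [xm_eq e, xf_eq e, coeff_C_mul, kl_zero]
    by_cases t : G = θ.top F
    · subst t
      rw [pl, sum_eq_single_of_mem F (by simp) fun F' k n => absurd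
        (h.top_inj (mem_filter.1 k).2) n, (h.top F).2.1, (h.top F).2.2.2]
      by_cases q : π F = 0
      · rw [q, mul_zero, mul_zero]
      · rw [hπ F q]; simp
    · rw [z, mul_zero]
      · by_cases q : π F = 0
        · rw [q, mul_zero]
        · have := (h.le F G e).1
          have := p G
          exact absurd (h.uq F G e (by rw [hπ F q] at *; omega)) t
      · rintro ⟨F', rfl⟩
        exact t (congrArg _ (Option.some.inj ((h.top F').1.symm.trans e)))

end Tan

/-- **the export of a frame** -/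
theorem Fr.xp {T0 : TS Unit} {f : Fr T0 τ L} {st0 : T0.C → ℕ} {M0 s h ν n : ℕ} (o : Old T0 st0 M0 s)
    (k : f.Ok s h) (t : f.θ.St st0 f.st) (w : f.Fw ν n) (F0 : T0.C) (g : τ → Option Lt) :
    ∃ γ, (f.θ.xp F0 g ν γ).Ok (fun _ => 1) st0 f.st 0 ∧ (f.θ.xp F0 g ν γ).Adq st0 f.st ∧
      (f.θ.xp F0 g ν γ).Id ∧ (∀ G, f.θ.xs G ≠ 0) ∧ (f.T.scl f.θ.xs).Stg f.st f.M ∧
      (f.T.scl f.θ.xs).Ok ∧ (f.T.scl f.θ.xs).K = diagonal (fun G : f.T.C => f.θ.xs G ^ 2) ∧
      ∀ G, |f.θ.xs G| * l1 (zr ((f.θ.xp F0 g ν γ).mon G)) ≤ 2 ^ n := by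
  obtain ⟨γ, a, b⟩ := t.gr st0 (gr_st o.stg)
  have z := Tan.xs_ne w.ne
  refine ⟨γ, Tan.xp_ok k.θ t o.stg k.old.ok w.one w.ne a b, Tan.xp_adq t,
    Tan.xp_id k.θ o.ok k.old.ok w.ne, z, k.old.stg.scl z, k.old.ok.scl z, ?_, fun G => ?_⟩
  · change diagonal f.θ.xs * f.T.K * diagonal f.θ.xs = _
    rw [k.old.K, Matrix.mul_one, diagonal_mul_diagonal]
    simp only [sq]
  · cases e : f.θ.fam G with
    | none =>
      change _ * l1 (zr (f.θ.xm g ν G)) ≤ _
      rw [Tan.xm_0 e, zr, map_zero, l1_zero, mul_zero]; positivity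
    | some F => exact (Tan.xm_l1 e).trans (w.bd G F e)

end Crest.Agent.N49.Md

end
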